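import Vale.Agent.P312.Data

namespace Vale.Agent.P312

/-- A walk with small messages over blocks with local contents. -/
structure Sys (σ : Type) where
  α : ℕ
  V1 : Par → ℕ → ℕ → ℕ
  V2 : Par → ℕ → ℕ → ℕ
  nxt : Par → ℕ → ℕ → ℕ
  blk : ℕ → ℕ
  ini : List σ → Par → ℕ → ℕ
  l0 : Par → ℕ
  fin : ℕ → ℕ
  two_le : 2 ≤ α
  V1_lt : ∀ κ l c, V1 κ l c < α
  V2_le : ∀ κ l c, V2 κ l c ≤ κ.HN - 1
  nxt_le : ∀ κ l a, nxt κ l a ≤ κ.Z - 1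
  blk_le : ∀ l, blk l ≤ l
  ini_le : ∀ w κ j, ini w κ j ≤ κ.HN - 1
  l0_le : ∀ κ, l0 κ ≤ κ.Z - 1
  fin_le : ∀ l, fin l ≤ 2

variable {σ : Type}

structure Sys.IsLS [Fintype σ] (S : Sys σ) : Prop where
  V1 : LS σ (fun q : Par × ℕ × ℕ => S.V1 q.1 q.2.1 q.2.2)
  V2 : LS σ (fun q : Par × ℕ × ℕ => S.V2 q.1 q.2.1 q.2.2)
  nxt : LS σ (fun q : Par × ℕ × ℕ => S.nxt q.1 q.2.1 q.2.2)
  blk : LS σ S.blk
  ini : LS σ (fun q : List σ × Par × ℕ => S.ini q.1 q.2.1 q.2.2)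
  l0 : LS σ S.l0
  fin : LS σ S.fin

namespace Sys
variable (S : Sys σ)

def trace (κ : Par) (l z n : ℕ) : ℕ := prec l (fun v l' => S.nxt κ l' (dg S.α z v)) n

def rep (κ : Par) (l z j c n : ℕ) : ℕ :=
  prec c (fun v c' => if S.blk (S.trace κ l z v) = j then S.V2 κ (S.trace κ l z v) c' else c') n

def jOf (κ : Par) (P k i γ r : ℕ) : ℕ := S.blk (S.trace κ (dg κ.Z P (k * κ.u + i)) γ r)

def chk (κ : Par) (P k i γ r zh zc : ℕ) : ℕ :=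
  if S.V1 κ (S.trace κ (dg κ.Z P (k * κ.u)) (zh + γ * powM κ.h (i * κ.u) (κ.HN + 1)) (i * κ.g + r))
      (S.rep κ (dg κ.Z P (k * κ.u)) (zh + γ * powM κ.h (i * κ.u) (κ.HN + 1)) (S.jOf κ P k i γ r) zc
        (i * κ.g + r)) = dg S.α γ r then 1 else 0

def phiC (κ : Par) (P k j e zh zc : ℕ) : ℕ :=
  dg κ.h (S.rep κ (dg κ.Z P (k * κ.u)) zh j zc (κ.u * κ.g)) e

end Sys

def scal (κ : Par) (n c x : ℕ) : ℕ :=
  vecN κ.p κ.N κ.PN (fun i => if i < n then c * dg κ.p x i else dg κ.p x i)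

def invN (κ : Par) (ω : ℕ) : ℕ := powM ω (κ.p - 2) κ.p

def nextPrime (n : ℕ) : ℕ := prec n (fun _ acc => if acc.Prime then acc else acc + 1) n

def hOf (α u : ℕ) : ℕ := powM α (Nat.size u) ((2 * u + 1) ^ α + 1)

def setup (α u : ℕ) : Par where
  u := u
  L := Nat.size u
  g := u * Nat.size u
  N := u * u
  p := nextPrime (u * Nat.size u * (2 * (u * u) * hOf α u) + hOf α u + 2)
  h := hOf α u
  PN := 1
  HN := 1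
  Z := α * (2 * (u * u * (u * Nat.size u)) + 3)
  ZB := α * (2 * (u * u * (u * Nat.size u)) + 3)
  b := u * u * Nat.size u
  o := 0
  T := u * u * (u * Nat.size u) * (u * u * Nat.size u)

def fL (k i : ℕ) : Fr := ⟨0, k, i, 0, 0, 0, 0, 0⟩
def fH (pc k i ω : ℕ) : Fr := ⟨pc, k, i, 0, ω, 0, 0, 0⟩
def fG (pc k i γ r pd : ℕ) : Fr := ⟨pc, k, i, 0, 0, γ, r, pd⟩
def fC (pc k j ω : ℕ) : Fr := ⟨pc, k, 0, j, ω, 0, 0, 0⟩
def fT (pc k i : ℕ) : Fr := ⟨pc, k, i, 0, 0, 0, 0, 0⟩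

abbrev Res := ℕ × Fr × Rg × Fr

namespace Sys
variable (S : Sys σ)

def a0 (f : Fr) (ρ : Rg) : Res :=
  if f.i = 0 then (0, f, ρ, f) else (2, fL f.k (f.i - 1), ρ, fH 1 f.k (f.i - 1) 1)

def a1 (f : Fr) (ρ : Rg) : Res :=
  if f.om = ρ.κ.p then (0, f, ρ, f) else
    (2, fH 2 f.k f.i f.om,
      ⟨ρ.κ, ρ.P, scal ρ.κ (f.i * ρ.κ.u) f.om ρ.H, scal ρ.κ ρ.κ.N f.om ρ.A, ρ.B⟩, fL f.k f.i)

def a2 (f : Fr) (ρ : Rg) : Res := (2, fH 3 f.k f.i f.om, ρ, fG 5 f.k f.i 0 0 0)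

def a3 (f : Fr) (ρ : Rg) : Res :=
  (2, fH 4 f.k f.i f.om, ⟨ρ.κ, ρ.P, scal ρ.κ (f.i * ρ.κ.u) (ρ.κ.p - 1) ρ.H, ρ.A, ρ.B⟩, fL f.k f.i)

def a4 (f : Fr) (ρ : Rg) : Res :=
  (1, fH 1 f.k f.i (f.om + 1),
    ⟨ρ.κ, ρ.P, scal ρ.κ (f.i * ρ.κ.u) ((ρ.κ.p - 1) * invN ρ.κ f.om) ρ.H,
      scal ρ.κ ρ.κ.N (invN ρ.κ f.om) ρ.A, ρ.B⟩, f)

def a5 (f : Fr) (ρ : Rg) : Res :=
  if f.ga = powM ρ.κ.h ρ.κ.u (ρ.κ.HN + 1) then (0, f, ρ, f) else (1, fG 6 f.k f.i f.ga 0 1, ρ, f)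

def a6 (f : Fr) (ρ : Rg) : Res :=
  if f.r = ρ.κ.g then
    (1, fG 5 f.k f.i (f.ga + 1) 0 0,
      ⟨ρ.κ, ρ.P, vecN ρ.κ.p ρ.κ.N ρ.κ.PN (fun e =>
        if f.i * ρ.κ.u ≤ e ∧ e < f.i * ρ.κ.u + ρ.κ.u then
          dg ρ.κ.p ρ.H e + (ρ.κ.p - 1) * (f.pd * dg ρ.κ.h f.ga (e - f.i * ρ.κ.u))
        else dg ρ.κ.p ρ.H e), ρ.A, ρ.B⟩, f)
  else (2, fG 7 f.k f.i f.ga f.r f.pd, ρ, fC 9 f.k (S.jOf ρ.κ ρ.P f.k f.i f.ga f.r) 0)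

def a7 (f : Fr) (ρ : Rg) : Res :=
  (2, fG 8 f.k f.i f.ga f.r
      (f.pd * extN ρ.κ.p ρ.κ.h ρ.κ.N (f.i * ρ.κ.u) (powM ρ.κ.h (f.i * ρ.κ.u) (ρ.κ.HN + 1)) ρ.κ.HN
        (S.chk ρ.κ ρ.P f.k f.i f.ga f.r) ρ.H ρ.A % ρ.κ.p),
    ⟨ρ.κ, ρ.P, ρ.H, scal ρ.κ ρ.κ.N (ρ.κ.p - 1) ρ.A, ρ.B⟩,
    fC 9 f.k (S.jOf ρ.κ ρ.P f.k f.i f.ga f.r) 0)

def a8 (f : Fr) (ρ : Rg) : Res :=
  (1, fG 6 f.k f.i f.ga (f.r + 1) f.pd, ⟨ρ.κ, ρ.P, ρ.H, scal ρ.κ ρ.κ.N (ρ.κ.p - 1) ρ.A, ρ.B⟩, f)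

def a9 (w : List σ) (f : Fr) (ρ : Rg) : Res :=
  if f.k = 0 then
    (0, f, ⟨ρ.κ, ρ.P, ρ.H, vecN ρ.κ.p ρ.κ.N ρ.κ.PN
      (fun e => dg ρ.κ.p ρ.A e + dg ρ.κ.h (S.ini w ρ.κ f.j) e), ρ.B⟩, f)
  else (1, fC 10 (f.k - 1) f.j 1, ⟨ρ.κ, ρ.P, ρ.H, ρ.B, ρ.A⟩, f)

def a10 (f : Fr) (ρ : Rg) : Res :=
  if f.om = ρ.κ.p then (0, f, ⟨ρ.κ, ρ.P, ρ.H, ρ.B, ρ.A⟩, f) else
    (2, fC 11 f.k f.j f.om,
      ⟨ρ.κ, ρ.P, scal ρ.κ ρ.κ.N f.om ρ.H, scal ρ.κ ρ.κ.N f.om ρ.A, ρ.B⟩, fL f.k ρ.κ.u)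

def a11 (f : Fr) (ρ : Rg) : Res := (2, fC 12 f.k f.j f.om, ρ, fC 9 f.k f.j 0)

def a12 (f : Fr) (ρ : Rg) : Res :=
  (2, fC 13 f.k f.j f.om,
    ⟨ρ.κ, ρ.P, scal ρ.κ ρ.κ.N (ρ.κ.p - 1) ρ.H, scal ρ.κ ρ.κ.N (ρ.κ.p - 1) ρ.A,
      vecN ρ.κ.p ρ.κ.N ρ.κ.PN (fun e => dg ρ.κ.p ρ.B e + (ρ.κ.p - 1) *
        extN ρ.κ.p ρ.κ.h ρ.κ.N ρ.κ.N ρ.κ.HN ρ.κ.HN (S.phiC ρ.κ ρ.P f.k f.j e) ρ.H ρ.A)⟩,
    fL f.k ρ.κ.u)

def a13 (f : Fr) (ρ : Rg) : Res := (2, fC 14 f.k f.j f.om, ρ, fC 9 f.k f.j 0)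

def a14 (f : Fr) (ρ : Rg) : Res :=
  (1, fC 10 f.k f.j (f.om + 1),
    ⟨ρ.κ, ρ.P, scal ρ.κ ρ.κ.N ((ρ.κ.p - 1) * invN ρ.κ f.om) ρ.H,
      scal ρ.κ ρ.κ.N ((ρ.κ.p - 1) * invN ρ.κ f.om) ρ.A, ρ.B⟩, f)

def a20 (f : Fr) (_ρ : Rg) : Res := (1, fT 21 f.k 0, ⟨setup S.α f.k, 0, 0, 0, 0⟩, f)

def grow (κ : Par) : Par :=
  ⟨κ.u, κ.L, κ.g, κ.N, κ.p, κ.h, κ.PN * κ.p, κ.HN * κ.h, κ.Z, κ.ZB * κ.Z, κ.b, κ.o, κ.T⟩

def nexto (κ : Par) : Par :=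
  ⟨κ.u, κ.L, κ.g, κ.N, κ.p, κ.h, κ.PN, κ.HN, κ.Z, κ.ZB, κ.b, κ.o + 1, κ.T⟩

def a21 (f : Fr) (ρ : Rg) : Res :=
  if f.i = ρ.κ.N then (1, fT 22 f.k 0, ρ, f) else (1, fT 21 f.k (f.i + 1), ⟨grow ρ.κ, 0, 0, 0, 0⟩, f)

def a22 (f : Fr) (ρ : Rg) : Res :=
  if ρ.κ.o = ρ.κ.b then (1, fT 20 (f.k + 1) 0, ρ, f)
  else (1, fT 23 f.k 0, ⟨ρ.κ, S.l0 ρ.κ, 0, 0, 0⟩, f)

def a23 (f : Fr) (ρ : Rg) : Res :=
  if f.i = ρ.κ.N then
    (if S.fin (dg ρ.κ.Z ρ.P ρ.κ.N) = 0 then (1, fT 22 f.k 0, ⟨nexto ρ.κ, 0, 0, 0, 0⟩, f)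
     else (0, f, ⟨ρ.κ, 0, 0, S.fin (dg ρ.κ.Z ρ.P ρ.κ.N) - 1, 0⟩, f))
  else (2, fT 24 f.k f.i, ⟨ρ.κ, ρ.P, 0, 0, 0⟩, fH 1 (f.i / ρ.κ.u) (f.i % ρ.κ.u) 1)

def a24 (f : Fr) (ρ : Rg) : Res :=
  (1, fT 23 f.k (f.i + 1),
    ⟨ρ.κ, ρ.P + S.trace ρ.κ (dg ρ.κ.Z ρ.P f.i)
        (odM ρ.κ.h ρ.κ.u (ρ.κ.HN + 1) (fun e => dg ρ.κ.p ρ.H (f.i % ρ.κ.u * ρ.κ.u + e))) ρ.κ.g *
        powM ρ.κ.Z (f.i + 1) ρ.κ.ZB, 0, 0, 0⟩, f)

def act (w : List σ) (f : Fr) (ρ : Rg) : Res :=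
  if f.pc = 0 then a0 f ρ else if f.pc = 1 then a1 f ρ else if f.pc = 2 then a2 f ρ
  else if f.pc = 3 then a3 f ρ else if f.pc = 4 then a4 f ρ else if f.pc = 5 then a5 f ρ
  else if f.pc = 6 then S.a6 f ρ else if f.pc = 7 then S.a7 f ρ else if f.pc = 8 then a8 f ρ
  else if f.pc = 9 then S.a9 w f ρ else if f.pc = 10 then a10 f ρ else if f.pc = 11 then a11 f ρ
  else if f.pc = 12 then S.a12 f ρ else if f.pc = 13 then a13 f ρ else if f.pc = 14 then a14 f ρ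
  else if f.pc = 20 then S.a20 f ρ else if f.pc = 21 then a21 f ρ else if f.pc = 22 then S.a22 f ρ
  else if f.pc = 23 then S.a23 f ρ else S.a24 f ρ

end Sys

/-! ### Everything is linear-space -/

section
variable [Fintype σ] {X : Type} [Enc σ X]

@[fun_prop] theorem LS.prime {f : X → ℕ} (hf : LS σ f) : LS σ (fun x => (f x).Prime) := by
  have : LS σ (fun x => 2 ≤ f x ∧
      ∑ d ∈ Finset.range (f x), (if f x % d = 0 ∧ d ≠ 1 then 1 else 0) = 0) := by fun_prop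
  refine this.congr (fun x => ?_)
  rw [eq_iff_iff, Nat.prime_def_lt, Finset.sum_eq_zero_iff]
  refine and_congr_right (fun _ => ⟨fun h d hd => ?_, fun h d hd hd' => ?_⟩)
  · rw [if_neg]
    rintro ⟨h1, h2⟩
    exact h2 (h d (Finset.mem_range.1 hd) (Nat.dvd_of_mod_eq_zero h1))
  · have := h d (Finset.mem_range.2 hd)
    by_contra hne
    rw [if_pos ⟨Nat.mod_eq_zero_of_dvd hd', hne⟩] at this
    omega

theorem nextPrime_aux (n j : ℕ) :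
    prec n (fun _ acc => if acc.Prime then acc else acc + 1) j ≤ n + j := by
  induction j with
  | zero => simp [prec]
  | succ j ih => simp only [prec]; split_ifs <;> omega

@[fun_prop] theorem LS.nextPrime {f : X → ℕ} (hf : LS σ f) : LS σ (fun x => nextPrime (f x)) := by
  unfold P312.nextPrime
  refine LS.prec (b := fun x => f x + f x) (f := fun _ _ acc => if acc.Prime then acc else acc + 1)
    hf hf (by fun_prop) (hf.pb.add hf.pb) (fun x j hj => ?_)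
  have := nextPrime_aux (f x) j
  omega

@[fun_prop] theorem LS.scal {κ : X → Par} {n c y : X → ℕ} (h1 : LS σ κ) (h2 : LS σ n) (h3 : LS σ c)
    (h4 : LS σ y) : LS σ (fun x => scal (κ x) (n x) (c x) (y x)) := by
  unfold P312.scal; fun_prop

@[fun_prop] theorem LS.invN {κ : X → Par} {c : X → ℕ} (h1 : LS σ κ) (h3 : LS σ c) :
    LS σ (fun x => invN (κ x) (c x)) := by
  unfold P312.invN; fun_prop

@[fun_prop] theorem LS.hOf (α : ℕ) {u : X → ℕ} (h : LS σ u) : LS σ (fun x => hOf α (u x)) := by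
  unfold P312.hOf; fun_prop

@[fun_prop] theorem LS.setup (α : ℕ) {u : X → ℕ} (h : LS σ u) : LS σ (fun x => setup α (u x)) := by
  unfold P312.setup; fun_prop

@[fun_prop] theorem LS.fL {a b : X → ℕ} (h1 : LS σ a) (h2 : LS σ b) : LS σ (fun x => fL (a x) (b x)) := by
  unfold P312.fL; fun_prop

@[fun_prop] theorem LS.fH {a b c d : X → ℕ} (h1 : LS σ a) (h2 : LS σ b) (h3 : LS σ c) (h4 : LS σ d) :
    LS σ (fun x => fH (a x) (b x) (c x) (d x)) := by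
  unfold P312.fH; fun_prop

@[fun_prop] theorem LS.fG {a b c d e f : X → ℕ} (h1 : LS σ a) (h2 : LS σ b) (h3 : LS σ c) (h4 : LS σ d)
    (h5 : LS σ e) (h6 : LS σ f) : LS σ (fun x => fG (a x) (b x) (c x) (d x) (e x) (f x)) := by
  unfold P312.fG; fun_prop

@[fun_prop] theorem LS.fC {a b c d : X → ℕ} (h1 : LS σ a) (h2 : LS σ b) (h3 : LS σ c) (h4 : LS σ d) :
    LS σ (fun x => fC (a x) (b x) (c x) (d x)) := by
  unfold P312.fC; fun_prop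

@[fun_prop] theorem LS.fT {a b c : X → ℕ} (h1 : LS σ a) (h2 : LS σ b) (h3 : LS σ c) :
    LS σ (fun x => fT (a x) (b x) (c x)) := by
  unfold P312.fT; fun_prop

@[fun_prop] theorem LS.grow {κ : X → Par} (h1 : LS σ κ) : LS σ (fun x => Sys.grow (κ x)) := by
  unfold Sys.grow; fun_prop

@[fun_prop] theorem LS.nexto {κ : X → Par} (h1 : LS σ κ) : LS σ (fun x => Sys.nexto (κ x)) := by
  unfold Sys.nexto; fun_prop

variable {S : Sys σ} [hS : Fact S.IsLS]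

@[fun_prop] theorem LS.V1 {κ : X → Par} {a b : X → ℕ} (h1 : LS σ κ) (h2 : LS σ a) (h3 : LS σ b) :
    LS σ (fun x => S.V1 (κ x) (a x) (b x)) :=
  LS.comp (f := fun x => (κ x, a x, b x)) hS.out.V1 (by fun_prop)

@[fun_prop] theorem LS.V2 {κ : X → Par} {a b : X → ℕ} (h1 : LS σ κ) (h2 : LS σ a) (h3 : LS σ b) :
    LS σ (fun x => S.V2 (κ x) (a x) (b x)) :=
  LS.comp (f := fun x => (κ x, a x, b x)) hS.out.V2 (by fun_prop)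

@[fun_prop] theorem LS.nxt {κ : X → Par} {a b : X → ℕ} (h1 : LS σ κ) (h2 : LS σ a) (h3 : LS σ b) :
    LS σ (fun x => S.nxt (κ x) (a x) (b x)) :=
  LS.comp (f := fun x => (κ x, a x, b x)) hS.out.nxt (by fun_prop)

@[fun_prop] theorem LS.ini {w : X → List σ} {κ : X → Par} {b : X → ℕ} (h1 : LS σ w) (h2 : LS σ κ)
    (h3 : LS σ b) : LS σ (fun x => S.ini (w x) (κ x) (b x)) :=
  LS.comp (f := fun x => (w x, κ x, b x)) hS.out.ini (by fun_prop)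

@[fun_prop] theorem LS.blk {a : X → ℕ} (h2 : LS σ a) : LS σ (fun x => S.blk (a x)) :=
  LS.comp hS.out.blk h2

@[fun_prop] theorem LS.fin {a : X → ℕ} (h2 : LS σ a) : LS σ (fun x => S.fin (a x)) :=
  LS.comp hS.out.fin h2

@[fun_prop] theorem LS.l0 {a : X → Par} (h2 : LS σ a) : LS σ (fun x => S.l0 (a x)) :=
  LS.comp hS.out.l0 h2

@[fun_prop] theorem LS.trace {κ : X → Par} {l z n : X → ℕ} (h1 : LS σ κ) (h2 : LS σ l) (h3 : LS σ z)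
    (h4 : LS σ n) : LS σ (fun x => S.trace (κ x) (l x) (z x) (n x)) := by
  unfold Sys.trace
  refine LS.prec (b := fun x => l x + (κ x).Z) (f := fun x v l' => S.nxt (κ x) l' (P312.dg S.α (z x) v))
    h4 h2 (by fun_prop) (LS.pb (by fun_prop)) (fun x j _ => ?_)
  cases j with
  | zero => simp [P312.prec]
  | succ j => exact (S.nxt_le _ _ _).trans (by omega)

@[fun_prop] theorem LS.rep {κ : X → Par} {l z j c n : X → ℕ} (h1 : LS σ κ) (h2 : LS σ l) (h3 : LS σ z)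
    (h4 : LS σ j) (h5 : LS σ c) (h6 : LS σ n) :
    LS σ (fun x => S.rep (κ x) (l x) (z x) (j x) (c x) (n x)) := by
  unfold Sys.rep
  refine LS.prec (b := fun x => c x + (κ x).HN)
    (f := fun x v c' => if S.blk (S.trace (κ x) (l x) (z x) v) = j x
      then S.V2 (κ x) (S.trace (κ x) (l x) (z x) v) c' else c')
    h6 h5 (by fun_prop) (LS.pb (by fun_prop)) (fun x i hi => ?_)
  clear hi
  induction i with
  | zero => simp [P312.prec]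
  | succ i ih =>
    simp only [P312.prec]
    split_ifs
    · exact (S.V2_le _ _ _).trans (by omega)
    · exact ih

@[fun_prop] theorem LS.jOf {κ : X → Par} {P k i γ r : X → ℕ} (h1 : LS σ κ) (h2 : LS σ P) (h3 : LS σ k)
    (h4 : LS σ i) (h5 : LS σ γ) (h6 : LS σ r) :
    LS σ (fun x => S.jOf (κ x) (P x) (k x) (i x) (γ x) (r x)) := by
  unfold Sys.jOf; fun_prop

@[fun_prop] theorem LS.chk {κ : X → Par} {P k i γ r a b : X → ℕ} (h1 : LS σ κ) (h2 : LS σ P)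
    (h3 : LS σ k) (h4 : LS σ i) (h5 : LS σ γ) (h6 : LS σ r) (h7 : LS σ a) (h8 : LS σ b) :
    LS σ (fun x => S.chk (κ x) (P x) (k x) (i x) (γ x) (r x) (a x) (b x)) := by
  unfold Sys.chk; fun_prop

@[fun_prop] theorem LS.phiC {κ : X → Par} {P k j e a b : X → ℕ} (h1 : LS σ κ) (h2 : LS σ P)
    (h3 : LS σ k) (h4 : LS σ j) (h5 : LS σ e) (h7 : LS σ a) (h8 : LS σ b) :
    LS σ (fun x => S.phiC (κ x) (P x) (k x) (j x) (e x) (a x) (b x)) := by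
  unfold Sys.phiC; fun_prop

theorem ls_act : LS σ (fun q : List σ × Fr × Rg => S.act q.1 q.2.1 q.2.2) := by
  have h0 : LS σ (fun q : List σ × Fr × Rg => Sys.a0 q.2.1 q.2.2) := by unfold Sys.a0; fun_prop
  have h1 : LS σ (fun q : List σ × Fr × Rg => Sys.a1 q.2.1 q.2.2) := by unfold Sys.a1; fun_prop
  have h2 : LS σ (fun q : List σ × Fr × Rg => Sys.a2 q.2.1 q.2.2) := by unfold Sys.a2; fun_prop
  have h3 : LS σ (fun q : List σ × Fr × Rg => Sys.a3 q.2.1 q.2.2) := by unfold Sys.a3; fun_prop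
  have h4 : LS σ (fun q : List σ × Fr × Rg => Sys.a4 q.2.1 q.2.2) := by unfold Sys.a4; fun_prop
  have h5 : LS σ (fun q : List σ × Fr × Rg => Sys.a5 q.2.1 q.2.2) := by unfold Sys.a5; fun_prop
  have h6 : LS σ (fun q : List σ × Fr × Rg => S.a6 q.2.1 q.2.2) := by unfold Sys.a6; fun_prop
  have h7 : LS σ (fun q : List σ × Fr × Rg => S.a7 q.2.1 q.2.2) := by unfold Sys.a7; fun_prop
  have h8 : LS σ (fun q : List σ × Fr × Rg => Sys.a8 q.2.1 q.2.2) := by unfold Sys.a8; fun_prop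
  have h9 : LS σ (fun q : List σ × Fr × Rg => S.a9 q.1 q.2.1 q.2.2) := by unfold Sys.a9; fun_prop
  have h10 : LS σ (fun q : List σ × Fr × Rg => Sys.a10 q.2.1 q.2.2) := by unfold Sys.a10; fun_prop
  have h11 : LS σ (fun q : List σ × Fr × Rg => Sys.a11 q.2.1 q.2.2) := by unfold Sys.a11; fun_prop
  have h12 : LS σ (fun q : List σ × Fr × Rg => S.a12 q.2.1 q.2.2) := by unfold Sys.a12; fun_prop
  have h13 : LS σ (fun q : List σ × Fr × Rg => Sys.a13 q.2.1 q.2.2) := by unfold Sys.a13; fun_prop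
  have h14 : LS σ (fun q : List σ × Fr × Rg => Sys.a14 q.2.1 q.2.2) := by unfold Sys.a14; fun_prop
  have h20 : LS σ (fun q : List σ × Fr × Rg => S.a20 q.2.1 q.2.2) := by unfold Sys.a20; fun_prop
  have h21 : LS σ (fun q : List σ × Fr × Rg => Sys.a21 q.2.1 q.2.2) := by unfold Sys.a21; fun_prop
  have h22 : LS σ (fun q : List σ × Fr × Rg => S.a22 q.2.1 q.2.2) := by unfold Sys.a22; fun_prop
  have h23 : LS σ (fun q : List σ × Fr × Rg => S.a23 q.2.1 q.2.2) := by unfold Sys.a23; fun_prop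
  have h24 : LS σ (fun q : List σ × Fr × Rg => S.a24 q.2.1 q.2.2) := by unfold Sys.a24; fun_prop
  have hp : ∀ n : ℕ, LS σ (fun q : List σ × Fr × Rg => q.2.1.pc = n) := fun n => by fun_prop
  unfold Sys.act
  exact LS.ite (hp _) h0 (LS.ite (hp _) h1 (LS.ite (hp _) h2 (LS.ite (hp _) h3 (LS.ite (hp _) h4
    (LS.ite (hp _) h5 (LS.ite (hp _) h6 (LS.ite (hp _) h7 (LS.ite (hp _) h8 (LS.ite (hp _) h9
    (LS.ite (hp _) h10 (LS.ite (hp _) h11 (LS.ite (hp _) h12 (LS.ite (hp _) h13 (LS.ite (hp _) h14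
    (LS.ite (hp _) h20 (LS.ite (hp _) h21 (LS.ite (hp _) h22 (LS.ite (hp _) h23 h24))))))))))))))))))

end

end Vale.Agent.P312
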