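import Vale.Agent.P312.TopLevel

namespace Vale.Agent.P312

open Finset

variable {σ : Type} [Fintype σ]

namespace OneTape
variable (M : OneTape σ)

noncomputable def nQ : ℕ := @Fintype.card M.Q M.finQ
noncomputable def nG : ℕ := @Fintype.card M.Γ M.finΓ
noncomputable def cq (q : M.Q) : ℕ := @Fintype.equivFin M.Q M.finQ q
noncomputable def cg (s : M.Γ) : ℕ := @Fintype.equivFin M.Γ M.finΓ s
noncomputable def dq (n : ℕ) : M.Q :=
  if h : n < M.nQ then (@Fintype.equivFin M.Q M.finQ).symm ⟨n, h⟩ else M.start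
noncomputable def dgm (n : ℕ) : M.Γ :=
  if h : n < M.nG then (@Fintype.equivFin M.Γ M.finΓ).symm ⟨n, h⟩ else M.blank
noncomputable def al : ℕ := 4 * M.nQ + M.nG + 2

omit [Fintype σ] in
theorem cq_lt (q : M.Q) : M.cq q < M.nQ := (@Fintype.equivFin M.Q M.finQ q).2
omit [Fintype σ] in
theorem cg_lt (s : M.Γ) : M.cg s < M.nG := (@Fintype.equivFin M.Γ M.finΓ s).2
omit [Fintype σ] in
theorem dq_cq (q : M.Q) : M.dq (M.cq q) = q := by
  unfold dq; rw [dif_pos (M.cq_lt q)]; exact Equiv.symm_apply_apply _ q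
omit [Fintype σ] in
theorem dgm_cg (s : M.Γ) : M.dgm (M.cg s) = s := by
  unfold dgm; rw [dif_pos (M.cg_lt s)]; exact Equiv.symm_apply_apply _ s
omit [Fintype σ] in
theorem cg_lt_al (s : M.Γ) : M.cg s < M.al := by have := M.cg_lt s; unfold al; omega
omit [Fintype σ] in
theorem al_pos : 0 < M.al := by unfold al; omega

def outC : Option Bool → ℕ
  | none => 0
  | some false => 1
  | some true => 2

def dirC : Dir → ℕ
  | .left => 0
  | .stay => 1
  | .right => 2

noncomputable def tOut (n : ℕ) : ℕ := if n < M.nQ then outC (M.out (M.dq n)) else 0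
noncomputable def tQ (n : ℕ) : ℕ :=
  if n < M.nQ * M.al then M.cq (M.δ (M.dq (n / M.al)) (M.dgm (n % M.al))).1 else 0
noncomputable def tG (n : ℕ) : ℕ :=
  if n < M.nQ * M.al then M.cg (M.δ (M.dq (n / M.al)) (M.dgm (n % M.al))).2.1 else 0
noncomputable def tD (n : ℕ) : ℕ :=
  if n < M.nQ * M.al then dirC (M.δ (M.dq (n / M.al)) (M.dgm (n % M.al))).2.2 else 0
noncomputable def tInp (n : ℕ) : ℕ :=
  if n = 0 then M.cg M.blank else
    if h : n - 1 < Fintype.card σ then M.cg (M.inp ((Fintype.equivFin σ).symm ⟨n - 1, h⟩)) else 0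

omit [Fintype σ] in
theorem tOut_cq (q : M.Q) : M.tOut (M.cq q) = outC (M.out q) := by
  unfold tOut; rw [if_pos (M.cq_lt q), dq_cq]

omit [Fintype σ] in
theorem idx_lt (q : M.Q) (s : M.Γ) : M.cq q * M.al + M.cg s < M.nQ * M.al := by
  have h1 := M.cq_lt q
  have h2 := M.cg_lt_al s
  nlinarith

omit [Fintype σ] in
theorem idx_div (q : M.Q) (s : M.Γ) : (M.cq q * M.al + M.cg s) / M.al = M.cq q := by
  rw [add_comm, Nat.add_mul_div_right _ _ M.al_pos, Nat.div_eq_of_lt (M.cg_lt_al s), zero_add]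

omit [Fintype σ] in
theorem idx_mod (q : M.Q) (s : M.Γ) : (M.cq q * M.al + M.cg s) % M.al = M.cg s := by
  rw [add_comm, Nat.add_mul_mod_self_right, Nat.mod_eq_of_lt (M.cg_lt_al s)]

omit [Fintype σ] in
theorem tQ_eq (q : M.Q) (s : M.Γ) : M.tQ (M.cq q * M.al + M.cg s) = M.cq (M.δ q s).1 := by
  unfold tQ; rw [if_pos (M.idx_lt q s), idx_div, idx_mod, dq_cq, dgm_cg]

omit [Fintype σ] in
theorem tG_eq (q : M.Q) (s : M.Γ) : M.tG (M.cq q * M.al + M.cg s) = M.cg (M.δ q s).2.1 := by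
  unfold tG; rw [if_pos (M.idx_lt q s), idx_div, idx_mod, dq_cq, dgm_cg]

omit [Fintype σ] in
theorem tD_eq (q : M.Q) (s : M.Γ) : M.tD (M.cq q * M.al + M.cg s) = dirC (M.δ q s).2.2 := by
  unfold tD; rw [if_pos (M.idx_lt q s), idx_div, idx_mod, dq_cq, dgm_cg]

noncomputable def istep (κ : Par) (s : ℕ × ℕ × ℕ) : ℕ × ℕ × ℕ :=
  if s.2.1 = 0 ∨ s.2.1 = κ.b + 1 ∨ M.tOut s.1 ≠ 0 then s else
    (M.tQ (s.1 * M.al + dg M.al s.2.2 (s.2.1 - 1)),
     s.2.1 + M.tD (s.1 * M.al + dg M.al s.2.2 (s.2.1 - 1)) - 1,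
     odM M.al κ.b κ.HN (fun i => if i = s.2.1 - 1 then M.tG (s.1 * M.al + dg M.al s.2.2 (s.2.1 - 1))
       else dg M.al s.2.2 i))

noncomputable def y0 (κ : Par) (l : ℕ) : ℕ :=
  if l % M.al % 4 = 1 then 1 else if l % M.al % 4 = 2 then κ.b else κ.o + 1

noncomputable def sim (κ : Par) (l c : ℕ) : ℕ × ℕ × ℕ :=
  precG (l % M.al / 4, M.y0 κ l, c) (fun _ s => M.istep κ s) κ.T

omit [Fintype σ] in
theorem odM_le (a n m : ℕ) (f : ℕ → ℕ) : odM a n m f ≤ m - 1 := by
  by_cases h : m = 0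
  · subst h; simp [odM, powM, prodM]
  · have := odM_lt (a := a) (n := n) (f := f) h; omega

noncomputable def sys : Sys σ where
  α := M.al
  V1 := fun κ l c => if l % M.al % 4 = 3 then l % M.al else
    (4 * (M.sim κ l c).1 + (if M.tOut (M.sim κ l c).1 ≠ 0 then 0 else if (M.sim κ l c).2.1 = 0 then 2
      else if (M.sim κ l c).2.1 = κ.b + 1 then 1 else 3)) % M.al
  V2 := fun κ l c => min (M.sim κ l c).2.2 (κ.HN - 1)
  nxt := fun κ l a => min ((if a % 4 = 1 then l / M.al + 1 else if a % 4 = 2 then l / M.al - 1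
    else l / M.al) * M.al + a) (κ.Z - 1)
  blk := fun l => l / M.al
  ini := fun w κ j => odM M.al κ.b κ.HN (fun y =>
    if j * κ.b + y < (κ.N * κ.g + 1) * κ.b + κ.o then M.cg M.blank
    else M.tInp (symAt w (j * κ.b + y - ((κ.N * κ.g + 1) * κ.b + κ.o))))
  l0 := fun κ => min ((κ.N * κ.g + 1) * M.al + 4 * M.cq M.start) (κ.Z - 1)
  fin := fun l => if l % M.al % 4 = 3 then 0 else M.tOut (l % M.al / 4)
  two_le := by unfold al; omega
  V1_lt := fun κ l c => by
    split_ifs <;> exact Nat.mod_lt _ M.al_pos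
  V2_le := fun κ l c => min_le_right _ _
  nxt_le := fun κ l a => min_le_right _ _
  blk_le := fun l => Nat.div_le_self _ _
  ini_le := fun w κ j => odM_le _ _ _ _
  l0_le := fun κ => min_le_right _ _
  fin_le := fun l => by
    split_ifs
    · omega
    · unfold tOut
      split_ifs
      · rcases M.out (M.dq (l % M.al / 4)) with _ | _ | _ <;> simp [outC]
      · omega

section
variable {X : Type} [Enc σ X]

@[fun_prop] theorem _root_.Vale.Agent.P312.LS.min {f g : X → ℕ} (hf : LS σ f) (hg : LS σ g) :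
    LS σ (fun x => min (f x) (g x)) := by
  have : LS σ (fun x => if f x ≤ g x then f x else g x) := by fun_prop
  refine this.congr (fun x => ?_)
  split_ifs <;> omega

@[fun_prop] theorem ls_tOut {f : X → ℕ} (hf : LS σ f) : LS σ (fun x => M.tOut (f x)) :=
  LS.table M.nQ M.tOut (fun _ hi => if_neg (not_lt.2 hi)) hf

@[fun_prop] theorem ls_tQ {f : X → ℕ} (hf : LS σ f) : LS σ (fun x => M.tQ (f x)) :=
  LS.table (M.nQ * M.al) M.tQ (fun _ hi => if_neg (not_lt.2 hi)) hf

@[fun_prop] theorem ls_tG {f : X → ℕ} (hf : LS σ f) : LS σ (fun x => M.tG (f x)) :=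
  LS.table (M.nQ * M.al) M.tG (fun _ hi => if_neg (not_lt.2 hi)) hf

@[fun_prop] theorem ls_tD {f : X → ℕ} (hf : LS σ f) : LS σ (fun x => M.tD (f x)) :=
  LS.table (M.nQ * M.al) M.tD (fun _ hi => if_neg (not_lt.2 hi)) hf

@[fun_prop] theorem ls_tInp {f : X → ℕ} (hf : LS σ f) : LS σ (fun x => M.tInp (f x)) :=
  LS.table (Fintype.card σ + 1) _ (fun i hi => by
    unfold tInp; rw [if_neg (by omega), dif_neg (by omega)]) hf

@[fun_prop] theorem ls_istep {κ : X → Par} {s : X → ℕ × ℕ × ℕ} (h1 : LS σ κ) (h2 : LS σ s) :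
    LS σ (fun x => M.istep (κ x) (s x)) := by
  unfold istep; fun_prop

@[fun_prop] theorem ls_y0 {κ : X → Par} {l : X → ℕ} (h1 : LS σ κ) (h2 : LS σ l) :
    LS σ (fun x => M.y0 (κ x) (l x)) := by
  unfold y0; fun_prop

omit [Fintype σ] in
theorem sim_bound (κ : Par) (s : ℕ × ℕ × ℕ) (j : ℕ) :
    (precG s (fun _ s => M.istep κ s) j).1 ≤ s.1 + M.nQ ∧
    (precG s (fun _ s => M.istep κ s) j).2.1 ≤ s.2.1 + j ∧
    (precG s (fun _ s => M.istep κ s) j).2.2 ≤ s.2.2 + κ.HN := by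
  induction j with
  | zero => simp [precG]
  | succ j ih =>
    simp only [precG]
    set t := precG s (fun _ s => M.istep κ s) j
    unfold istep
    split_ifs
    · omega
    · refine ⟨?_, ?_, (odM_le _ _ _ _).trans (by omega)⟩
      · show M.tQ _ ≤ _
        unfold tQ
        split_ifs
        · exact (M.cq_lt _).le.trans (by omega)
        · omega
      · have : ∀ n, M.tD n ≤ 2 := by
          intro n
          unfold tD
          split_ifs
          · rcases (M.δ (M.dq (n / M.al)) (M.dgm (n % M.al))).2.2 with _ | _ | _ <;> simp [dirC]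
          · omega
        have := this (t.1 * M.al + dg M.al t.2.2 (t.2.1 - 1))
        show t.2.1 + _ - 1 ≤ _
        omega

@[fun_prop] theorem ls_sim {κ : X → Par} {l c : X → ℕ} (h1 : LS σ κ) (h2 : LS σ l) (h3 : LS σ c) :
    LS σ (fun x => M.sim (κ x) (l x) (c x)) := by
  unfold sim
  refine LS.precG (b := fun x => l x % M.al / 4 + M.nQ + M.y0 (κ x) (l x) + (κ x).T + c x + (κ x).HN)
    (f := fun x _ s => M.istep (κ x) s) (by fun_prop) (by fun_prop) (by fun_prop)
    (LS.pb (by fun_prop)) (fun x j hj => ?_)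
  obtain ⟨a1, a2, a3⟩ := M.sim_bound (κ x) (l x % M.al / 4, M.y0 (κ x) (l x), c x) j
  dsimp only at a1 a2 a3
  refine bd_prod.2 ⟨bd_nat.2 ?_, bd_prod.2 ⟨bd_nat.2 ?_, bd_nat.2 ?_⟩⟩
  · exact a1.trans (by omega)
  · exact a2.trans (by omega)
  · exact a3.trans (by omega)

theorem sys_isLS : M.sys.IsLS where
  V1 := by unfold sys; dsimp only; fun_prop
  V2 := by unfold sys; dsimp only; fun_prop
  nxt := by unfold sys; dsimp only; fun_prop
  blk := by unfold sys; dsimp only; fun_prop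
  ini := by unfold sys; dsimp only; fun_prop
  l0 := by unfold sys; dsimp only; fun_prop
  fin := by unfold sys; dsimp only; fun_prop

end

end OneTape

end Vale.Agent.P312
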