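import Vale.Agent.P312.Block

namespace Vale.Agent.P312

open Finset

variable {σ : Type} [Fintype σ]

namespace OneTape
variable (M : OneTape σ) (w : List σ)

def run (τ : ℕ) : M.Cfg := M.step^[τ] (M.startCfg w)

omit [Fintype σ] in
theorem run_succ (τ : ℕ) : M.run w (τ + 1) = M.step (M.run w τ) := Function.iterate_succ_apply' _ _ _

omit [Fintype σ] in
theorem step_running {c : M.Cfg} (h : M.out c.q = none) :
    M.step c = ⟨(M.δ c.q (c.tape c.head)).1, Function.update c.tape c.head (M.δ c.q (c.tape c.head)).2.1,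
      c.head + (M.δ c.q (c.tape c.head)).2.2.toInt⟩ := by
  unfold step; rw [h]

omit [Fintype σ] in
theorem step_halted {c : M.Cfg} {b : Bool} (h : M.out c.q = some b) : M.step c = c := by
  unfold step; rw [h]

omit [Fintype σ] in
theorem run_halted {τ : ℕ} {b : Bool} (h : M.out (M.run w τ).q = some b) {τ' : ℕ} (hτ : τ ≤ τ') :
    M.run w τ' = M.run w τ := by
  induction τ', hτ using Nat.le_induction with
  | base => rfl
  | succ n _ ih => rw [run_succ, ih, M.step_halted h]

/-- Step `s` crosses a block boundary for block length `b` and offset `o`. -/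
def Cross (b o s : ℕ) : Prop :=
  ((M.run w (s + 1)).head = (M.run w s).head + 1 ∧ (b : ℤ) ∣ (M.run w s).head + 1 + o) ∨
  ((M.run w (s + 1)).head = (M.run w s).head - 1 ∧ (b : ℤ) ∣ (M.run w s).head + o)

open Classical in
noncomputable def cross (b o τ : ℕ) : ℕ := ∑ s ∈ range τ, if M.Cross w b o s then 1 else 0

omit [Fintype σ] in
theorem cross_mono (b o : ℕ) {τ τ' : ℕ} (h : τ ≤ τ') : M.cross w b o τ ≤ M.cross w b o τ' :=
  Finset.sum_le_sum_of_subset (Finset.range_mono h)

omit [Fintype σ] in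
theorem cross_succ (b o : ℕ) {τ : ℕ} (h : M.Cross w b o τ) :
    M.cross w b o (τ + 1) = M.cross w b o τ + 1 := by
  unfold cross; rw [Finset.sum_range_succ, if_pos h]

omit [Fintype σ] in
theorem exists_offset {b : ℕ} (hb : 0 < b) (t : ℕ) : ∃ o < b, b * M.cross w b o t ≤ t := by
  classical
  have h1 : ∑ o ∈ range b, M.cross w b o t ≤ t := by
    unfold cross
    rw [Finset.sum_comm]
    calc _ ≤ ∑ s ∈ range t, 1 := Finset.sum_le_sum (fun s _ => ?_)
      _ = t := by simp
    rw [← Finset.card_filter, Finset.card_le_one]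
    intro o ho o' ho'
    obtain ⟨h2, h3⟩ := Finset.mem_filter.1 ho
    obtain ⟨h4, h5⟩ := Finset.mem_filter.1 ho'
    have h6 := mem_range.1 h2
    have h7 := mem_range.1 h4
    have key : (b : ℤ) ∣ (o : ℤ) - o' := by
      rcases h3 with ⟨a1, a2⟩ | ⟨a1, a2⟩ <;> rcases h5 with ⟨a3, a4⟩ | ⟨a3, a4⟩
      · simpa using dvd_sub a2 a4
      · omega
      · omega
      · simpa using dvd_sub a2 a4
    have := Int.eq_zero_of_abs_lt_dvd key (by rw [abs_lt]; omega)
    omega
  by_contra hc
  push Not at hc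
  have h2 : ∑ o ∈ range b, (t + 1) ≤ ∑ o ∈ range b, b * M.cross w b o t :=
    Finset.sum_le_sum (fun o ho => hc o (mem_range.1 ho))
  rw [← Finset.mul_sum] at h2
  simp only [Finset.sum_const, card_range, smul_eq_mul] at h2
  have := Nat.le_of_mul_le_mul_left h2 hb
  omega

omit [Fintype σ] in
theorem outC_eq_zero {o : Option Bool} : outC o = 0 ↔ o = none := by
  rcases o with _ | _ | _ <;> simp [outC]

structure SimInv (κ : Par) (B0 : ℤ) (τ n : ℕ) (s : ℕ × ℕ × ℕ) (τ' : ℕ) : Prop where
  le : τ ≤ τ'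
  q : s.1 = M.cq (M.run w τ').q
  c_lt : s.2.2 < M.al ^ κ.b
  dig : ∀ y < κ.b, dg M.al s.2.2 y = M.cg ((M.run w τ').tape (B0 + y))
  outside : ∀ x : ℤ, (∀ y < κ.b, x ≠ B0 + y) → (M.run w τ').tape x = (M.run w τ).tape x
  head : (M.run w τ').head = B0 + s.2.1 - 1
  y_le : s.2.1 ≤ κ.b + 1
  time : s.2.1 ≠ 0 → s.2.1 ≠ κ.b + 1 → M.out (M.run w τ').q = none → τ' = τ + n
  cr : s.2.1 = 0 ∨ s.2.1 = κ.b + 1 → M.cross w κ.b κ.o τ + 1 ≤ M.cross w κ.b κ.o τ'

omit [Fintype σ] in
theorem sim_inv (κ : Par) (hHN : κ.HN = M.al ^ κ.b) (B0 : ℤ) (hB : (κ.b : ℤ) ∣ B0 + κ.o) (τ : ℕ)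
    (s0 : ℕ × ℕ × ℕ) (h0 : M.SimInv w κ B0 τ 0 s0 τ) (n : ℕ) :
    ∃ τ', M.SimInv w κ B0 τ n (precG s0 (fun _ s => M.istep κ s) n) τ' := by
  induction n with
  | zero => exact ⟨τ, h0⟩
  | succ n ih =>
    obtain ⟨τ', I⟩ := ih
    simp only [precG]
    set s := precG s0 (fun _ s => M.istep κ s) n
    unfold istep
    split_ifs with hstop
    · refine ⟨τ', { I with time := fun h1 h2 h3 => ?_ }⟩
      rcases hstop with h | h | h
      · exact absurd h h1
      · exact absurd h h2
      · rw [I.q, tOut_cq, h3] at h; exact absurd rfl h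
    · push Not at hstop
      obtain ⟨h1, h2, h3⟩ := hstop
      have hrun : M.out (M.run w τ').q = none := by rwa [I.q, tOut_cq, outC_eq_zero] at h3
      have hy := I.y_le
      have hhead : B0 + ((s.2.1 - 1 : ℕ) : ℤ) = (M.run w τ').head := by
        rw [I.head, Nat.cast_sub (by omega)]; push_cast; ring
      have hd : dg M.al s.2.2 (s.2.1 - 1) = M.cg ((M.run w τ').tape (M.run w τ').head) := by
        rw [I.dig _ (by omega), hhead]
      have hs := M.run_succ w τ'
      rw [M.step_running hrun] at hs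
      rw [hd, I.q, tQ_eq, tG_eq, tD_eq]
      set r := M.δ (M.run w τ').q ((M.run w τ').tape (M.run w τ').head) with hr
      have hlt : ∀ i < κ.b, (fun i => if i = s.2.1 - 1 then M.cg r.2.1 else dg M.al s.2.2 i) i < M.al := by
        intro i _
        dsimp only
        split_ifs
        · exact M.cg_lt_al _
        · exact dg_lt M.al_pos _ _
      have hod := odM_eq (m := κ.HN) (by rw [hHN]; exact ofD_lt hlt)
      have hcr := M.cross_mono w κ.b κ.o I.le
      refine ⟨τ' + 1, ⟨I.le.trans (by omega), by rw [hs], ?_, ?_, ?_, ?_, ?_, ?_, ?_⟩⟩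
      · show odM _ _ _ _ < _
        rw [hod]; exact ofD_lt hlt
      · intro y hy'
        show dg M.al (odM _ _ _ _) y = _
        rw [hod, dg_ofD hlt hy', hs]
        dsimp only
        by_cases e : y = s.2.1 - 1
        · rw [if_pos e, e, hhead, Function.update_self]
        · rw [if_neg e, Function.update_of_ne (by rw [← hhead]; omega), I.dig y hy']
      · intro x hx
        rw [hs]
        dsimp only
        rw [Function.update_of_ne (by rw [← hhead]; exact hx _ (by omega)), I.outside x hx]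
      · rw [hs]
        dsimp only
        rw [I.head]
        rcases r.2.2 with _ | _ | _ <;> simp only [dirC, Dir.toInt] <;> omega
      · dsimp only
        rcases r.2.2 with _ | _ | _ <;> simp only [dirC] <;> omega
      · intro _ _ _
        rw [I.time h1 h2 hrun]; ring
      · dsimp only
        intro hex
        have hc : M.Cross w κ.b κ.o τ' := by
          unfold Cross
          rw [hs]
          dsimp only
          revert hex
          rcases r.2.2 with _ | _ | _ <;> simp only [dirC, Dir.toInt] <;> intro hex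
          · right
            refine ⟨by ring, ?_⟩
            rw [I.head, show s.2.1 = 1 by omega]
            simpa using hB
          · omega
          · left
            refine ⟨trivial, ?_⟩
            rw [I.head, show s.2.1 = κ.b by omega,
              show B0 + (κ.b : ℤ) - 1 + 1 + κ.o = (B0 + κ.o) + κ.b by ring]
            exact dvd_add hB dvd_rfl
        rw [M.cross_succ w _ _ hc]; omega

omit [Fintype σ] in
theorem sim_halted (κ : Par) (s0 : ℕ × ℕ × ℕ) (h : M.tOut s0.1 ≠ 0) (n : ℕ) :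
    precG s0 (fun _ s => M.istep κ s) n = s0 := by
  induction n with
  | zero => rfl
  | succ n ih =>
    simp only [precG, ih]
    unfold istep
    rw [if_pos (Or.inr (Or.inr h))]

def base (κ : Par) (j : ℕ) : ℤ := ((j : ℤ) - (κ.N * κ.g + 1 : ℕ)) * κ.b - κ.o

theorem base_inj (κ : Par) {j j' y y' : ℕ} (hy : y < κ.b) (hy' : y' < κ.b)
    (h : base κ j + y = base κ j' + y') : j = j' := by
  unfold base at h
  have h1 : ((j : ℤ) - j') * κ.b = y' - y := by linarith
  have h2 : (κ.b : ℤ) ∣ (y' : ℤ) - y := ⟨(j : ℤ) - j', by rw [← h1]; ring⟩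
  have h3 := Int.eq_zero_of_abs_lt_dvd h2 (by rw [abs_lt]; omega)
  rw [h3] at h1
  rcases mul_eq_zero.1 h1 with h4 | h4 <;> omega

structure PInv (κ : Par) (v : ℕ) : Prop where
  pos_lo : κ.N * κ.g + 1 ≤ M.sys.loc w κ v / M.al + v
  pos_hi : M.sys.loc w κ v / M.al ≤ κ.N * κ.g + 1 + v
  main : (M.sys.loc w κ v % M.al % 4 = 3 ∧ M.out (M.run w κ.T).q = none) ∨
    (M.sys.loc w κ v % M.al % 4 ≠ 3 ∧ ∃ τ, M.sys.loc w κ v % M.al / 4 = M.cq (M.run w τ).q ∧
      (∀ j, M.sys.cont w κ v j < M.al ^ κ.b) ∧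
      (∀ j, ∀ y < κ.b, dg M.al (M.sys.cont w κ v j) y = M.cg ((M.run w τ).tape (base κ j + y))) ∧
      (M.out (M.run w τ).q = none →
        (M.run w τ).head = base κ (M.sys.loc w κ v / M.al) + M.y0 κ (M.sys.loc w κ v) - 1 ∧
        v ≤ M.cross w κ.b κ.o τ))

theorem tInp_symAt (x : ℕ) : M.tInp (symAt w x) = M.cg ((M.startCfg w).tape x) := by
  unfold symAt startCfg
  dsimp only
  rw [if_pos (by omega), Int.toNat_natCast]
  rcases w[x]? with _ | a
  · simp [code, tInp]
  · show M.tInp ((Fintype.equivFin σ a : ℕ) + 1) = _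
    unfold tInp
    rw [if_neg (by omega), dif_pos (by simp)]
    simp

variable {M w}

theorem pinv_zero {κ : Par} (hHN : κ.HN = M.al ^ κ.b) (hZ : κ.Z = M.al * (2 * (κ.N * κ.g) + 3)) :
    M.PInv w κ 0 := by
  have hq := M.cq_lt M.start
  have ha : 4 * M.cq M.start < M.al := by unfold al; omega
  have hl : M.sys.loc w κ 0 = (κ.N * κ.g + 1) * M.al + 4 * M.cq M.start := by
    show min _ _ = _
    refine min_eq_left ?_
    rw [hZ]
    have : (κ.N * κ.g + 1) * M.al + M.al ≤ M.al * (2 * (κ.N * κ.g) + 3) := by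
      nlinarith [Nat.zero_le (κ.N * κ.g * M.al)]
    omega
  have h1 : M.sys.loc w κ 0 / M.al = κ.N * κ.g + 1 := by
    rw [hl, add_comm, Nat.add_mul_div_right _ _ M.al_pos, Nat.div_eq_of_lt ha, zero_add]
  have h2 : M.sys.loc w κ 0 % M.al = 4 * M.cq M.start := by
    rw [hl, add_comm, Nat.add_mul_mod_self_right, Nat.mod_eq_of_lt ha]
  have hlt : ∀ j, ∀ y < κ.b, (fun y => if j * κ.b + y < (κ.N * κ.g + 1) * κ.b + κ.o then M.cg M.blank
      else M.tInp (symAt w (j * κ.b + y - ((κ.N * κ.g + 1) * κ.b + κ.o)))) y < M.al := by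
    intro j y _
    dsimp only
    split_ifs
    · exact M.cg_lt_al _
    · rw [tInp_symAt]; exact M.cg_lt_al _
  have hc : ∀ j, M.sys.cont w κ 0 j = ofD M.al κ.b (fun y =>
      if j * κ.b + y < (κ.N * κ.g + 1) * κ.b + κ.o then M.cg M.blank
      else M.tInp (symAt w (j * κ.b + y - ((κ.N * κ.g + 1) * κ.b + κ.o)))) := by
    intro j
    exact odM_eq (by rw [hHN]; exact ofD_lt (hlt j))
  refine ⟨by omega, by omega, Or.inr ⟨by omega, 0, ?_, ?_, ?_, fun _ => ⟨?_, Nat.zero_le _⟩⟩⟩
  · rw [h2]; show _ = M.cq M.start; omega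
  · intro j; rw [hc]; exact ofD_lt (hlt j)
  · intro j y hy
    rw [hc, dg_ofD (hlt j) hy]
    have e : base κ j + y = ((j * κ.b + y : ℕ) : ℤ) - (((κ.N * κ.g + 1) * κ.b + κ.o : ℕ) : ℤ) := by
      unfold base; push_cast; ring
    split_ifs with h
    · show _ = M.cg ((M.startCfg w).tape _)
      unfold startCfg
      dsimp only
      rw [if_neg (by omega)]
    · rw [tInp_symAt, e, Nat.cast_sub (by omega)]; rfl
  · rw [h1]
    unfold y0
    rw [h2, if_neg (by omega), if_neg (by omega)]
    show (0 : ℤ) = _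
    unfold base; push_cast; ring

theorem pinv_succ {κ : Par} (hHN : κ.HN = M.al ^ κ.b) (hZ : κ.Z = M.al * (2 * (κ.N * κ.g) + 3))
    (ho : κ.o < κ.b) {v : ℕ} (hv : v < κ.N * κ.g) (I : M.PInv w κ v) : M.PInv w κ (v + 1) := by
  obtain ⟨lo, hi, main⟩ := I
  set l := M.sys.loc w κ v with hl
  set a' := M.sys.msg w κ v with ha'
  have ha : a' < M.al := M.sys.msg_lt w κ v
  have hpos := M.al_pos
  set pos' := (if a' % 4 = 1 then l / M.al + 1 else if a' % 4 = 2 then l / M.al - 1 else l / M.al)
    with hpos'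
  have hp1 : pos' ≤ l / M.al + 1 := by rw [hpos']; split_ifs <;> omega
  have hp2 : l / M.al ≤ pos' + 1 := by rw [hpos']; split_ifs <;> omega
  have hl' : M.sys.loc w κ (v + 1) = pos' * M.al + a' := by
    rw [Sys.loc_succ]
    show min _ _ = _
    refine min_eq_left ?_
    rw [hZ]
    have h1 : pos' + 1 ≤ 2 * (κ.N * κ.g) + 3 := by omega
    have : (pos' + 1) * M.al ≤ (2 * (κ.N * κ.g) + 3) * M.al := Nat.mul_le_mul_right _ h1
    show pos' * M.al + a' ≤ _
    rw [mul_comm M.al]
    have e : (pos' + 1) * M.al = pos' * M.al + M.al := by ring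
    omega
  have h1 : M.sys.loc w κ (v + 1) / M.al = pos' := by
    rw [hl', add_comm, Nat.add_mul_div_right _ _ hpos, Nat.div_eq_of_lt ha, zero_add]
  have h2 : M.sys.loc w κ (v + 1) % M.al = a' := by
    rw [hl', add_comm, Nat.add_mul_mod_self_right, Nat.mod_eq_of_lt ha]
  refine ⟨by omega, by omega, ?_⟩
  rw [h1, h2]
  set c := M.sys.cont w κ v (l / M.al) with hc
  have hmsg : a' = if l % M.al % 4 = 3 then l % M.al else
    (4 * (M.sim κ l c).1 + (if M.tOut (M.sim κ l c).1 ≠ 0 then 0 else if (M.sim κ l c).2.1 = 0 then 2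
      else if (M.sim κ l c).2.1 = κ.b + 1 then 1 else 3)) % M.al := rfl
  have hcont : M.sys.cont w κ (v + 1) = Function.update (M.sys.cont w κ v) (l / M.al)
      (min (M.sim κ l c).2.2 (κ.HN - 1)) := rfl
  rcases main with ⟨m1, m2⟩ | ⟨m1, τ, m2, m3, m4, m5⟩
  · left
    rw [hmsg, if_pos m1]; exact ⟨m1, m2⟩
  rw [if_neg m1] at hmsg
  have small : ∀ (q : M.Q) (e : ℕ), e ≤ 3 → (4 * M.cq q + e) % M.al = 4 * M.cq q + e := by
    intro q e he
    have := M.cq_lt q
    exact Nat.mod_eq_of_lt (by unfold al; omega)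
  by_cases hrun : M.out (M.run w τ).q = none
  · obtain ⟨m6, m7⟩ := m5 hrun
    have hy0 : 1 ≤ M.y0 κ l ∧ M.y0 κ l ≤ κ.b := by unfold y0; split_ifs <;> omega
    obtain ⟨τ', I⟩ := M.sim_inv w κ hHN (base κ (l / M.al))
      ⟨((l / M.al : ℕ) : ℤ) - (κ.N * κ.g + 1 : ℕ), by unfold base; ring⟩ τ
      (l % M.al / 4, M.y0 κ l, c)
      ⟨le_rfl, m2, m3 _, m4 _, fun _ _ => rfl, m6, by dsimp only; omega, fun _ _ _ => rfl,
        by dsimp only; omega⟩ κ.T
    change M.SimInv w κ _ τ κ.T (M.sim κ l c) τ' at I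
    have hmin : min (M.sim κ l c).2.2 (κ.HN - 1) = (M.sim κ l c).2.2 := by
      have := I.c_lt
      exact min_eq_left (by omega)
    rw [hmin] at hcont
    have c1 : ∀ j, M.sys.cont w κ (v + 1) j < M.al ^ κ.b := by
      intro j
      rw [hcont, Function.update_apply]
      split_ifs
      · exact I.c_lt
      · exact m3 j
    have c2 : ∀ j, ∀ y < κ.b, dg M.al (M.sys.cont w κ (v + 1) j) y =
        M.cg ((M.run w τ').tape (base κ j + y)) := by
      intro j y hy
      rw [hcont, Function.update_apply]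
      split_ifs with e
      · rw [e]; exact I.dig y hy
      · rw [m4 j y hy, I.outside _ (fun y' hy' h => e (base_inj κ hy hy' h))]
    rw [I.q, tOut_cq] at hmsg
    by_cases e1 : M.out (M.run w τ').q = none
    · rw [if_neg (by rw [e1]; simp [outC])] at hmsg
      by_cases e2 : (M.sim κ l c).2.1 = 0
      · rw [if_pos e2, small _ _ (by omega)] at hmsg
        have hcr := I.cr (Or.inl e2)
        right
        refine ⟨by omega, τ', by omega, c1, c2, fun _ => ⟨?_, by omega⟩⟩
        have e3 : pos' = l / M.al - 1 := by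
          rw [hpos', if_neg (by omega), if_pos (by omega)]
        rw [I.head, e2, e3]
        unfold y0
        rw [h2, if_neg (by omega), if_pos (by omega)]
        unfold base
        rw [Nat.cast_sub (by omega)]
        push_cast; ring
      · rw [if_neg e2] at hmsg
        by_cases e3 : (M.sim κ l c).2.1 = κ.b + 1
        · rw [if_pos e3, small _ _ (by omega)] at hmsg
          have hcr := I.cr (Or.inr e3)
          right
          refine ⟨by omega, τ', by omega, c1, c2, fun _ => ⟨?_, by omega⟩⟩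
          have e4 : pos' = l / M.al + 1 := by
            rw [hpos', if_pos (by omega)]
          rw [I.head, e3, e4]
          unfold y0
          rw [h2, if_pos (by omega)]
          unfold base
          push_cast; ring
        · rw [if_neg e3, small _ _ (by omega)] at hmsg
          left
          refine ⟨by omega, ?_⟩
          have ht := I.time e2 e3 e1
          rcases hT : M.out (M.run w κ.T).q with _ | b
          · rfl
          · rw [M.run_halted w hT (by omega : κ.T ≤ τ'), hT] at e1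
            exact absurd e1 (by simp)
    · rw [if_pos (by rwa [ne_eq, outC_eq_zero]), small _ _ (by omega)] at hmsg
      right
      exact ⟨by omega, τ', by omega, c1, c2, fun h => absurd h e1⟩
  · have hs : M.sim κ l c = (l % M.al / 4, M.y0 κ l, c) :=
      M.sim_halted κ _ (by dsimp only; rwa [m2, tOut_cq, ne_eq, outC_eq_zero]) _
    rw [hs] at hmsg hcont
    dsimp only at hmsg hcont
    rw [m2, tOut_cq, if_pos (by rwa [ne_eq, outC_eq_zero]), small _ _ (by omega)] at hmsg
    have hmin : min c (κ.HN - 1) = c := by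
      have := m3 (l / M.al)
      exact min_eq_left (by omega)
    rw [hmin, hc, Function.update_eq_self] at hcont
    right
    rw [hcont]
    exact ⟨by omega, τ, by omega, m3, m4, fun h => absurd h hrun⟩

theorem pinv_par {u o : ℕ} (ho : o < (setup M.al u).b) :
    M.PInv w (par M.al u o) (u * u * (par M.al u o).g) := by
  have hHN : (par M.al u o).HN = M.al ^ (par M.al u o).b := by
    show hOf M.al u ^ (u * u) = M.al ^ (u * u * Nat.size u)
    rw [hOf_eq, ← pow_mul, mul_comm]
  have : ∀ v ≤ u * u * (par M.al u o).g, M.PInv w (par M.al u o) v := by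
    intro v hv
    induction v with
    | zero => exact pinv_zero hHN rfl
    | succ v ih => exact pinv_succ hHN rfl ho hv (ih (by omega))
  exact this _ le_rfl

theorem verdict_sound {t : ℕ} {b : Bool} (ht : M.out (M.run w t).q = some b) {u o : ℕ}
    (ho : o < (setup M.al u).b) (hv : M.sys.verdict w u o ≠ 0) :
    (M.sys.verdict w u o - 1 ≠ 0 ↔ b = true) := by
  have e : M.sys.verdict w u o =
      if M.sys.loc w (par M.al u o) (u * u * (par M.al u o).g) % M.al % 4 = 3 then 0
      else M.tOut (M.sys.loc w (par M.al u o) (u * u * (par M.al u o).g) % M.al / 4) := rfl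
  rcases (pinv_par (w := w) ho).main with ⟨m1, _⟩ | ⟨m1, τ, m2, _⟩
  · rw [e, if_pos m1] at hv; exact absurd rfl hv
  · rw [e, if_neg m1, m2, tOut_cq] at hv ⊢
    rcases hτ : M.out (M.run w τ).q with _ | b'
    · rw [hτ] at hv; exact absurd rfl hv
    · have h1 := M.run_halted w ht (le_max_left t τ)
      have h2 := M.run_halted w hτ (le_max_right t τ)
      have : b' = b := by
        rw [← h1, h2, hτ] at ht; exact Option.some.inj ht
      subst this
      cases b' <;> simp [outC]

theorem verdict_complete {t : ℕ} {b : Bool} (ht : M.out (M.run w t).q = some b) {u : ℕ} (hu : 1 ≤ u)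
    (hT : t < (setup M.al u).T) : ∃ o < (setup M.al u).b, M.sys.verdict w u o ≠ 0 := by
  have hb : 0 < (setup M.al u).b := Nat.mul_pos (Nat.mul_pos hu hu) (Nat.size_pos.2 hu)
  obtain ⟨o, ho, hc⟩ := M.exists_offset w hb t
  refine ⟨o, ho, ?_⟩
  have e : M.sys.verdict w u o =
      if M.sys.loc w (par M.al u o) (u * u * (par M.al u o).g) % M.al % 4 = 3 then 0
      else M.tOut (M.sys.loc w (par M.al u o) (u * u * (par M.al u o).g) % M.al / 4) := rfl
  rcases (pinv_par (w := w) ho).main with ⟨_, m2⟩ | ⟨m1, τ, m2, _, _, m5⟩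
  · rw [M.run_halted w ht (show t ≤ (par M.al u o).T from hT.le), ht] at m2
    exact absurd m2 (by simp)
  · rw [e, if_neg m1, m2, tOut_cq, ne_eq, outC_eq_zero]
    intro hrun
    have h1 := (m5 hrun).2
    have h2 : τ ≤ t := by
      by_contra h
      rw [M.run_halted w ht (by omega : t ≤ τ), ht] at hrun
      exact absurd hrun (by simp)
    have h3 := M.cross_mono w (setup M.al u).b o h2
    have h4 : u * u * (par M.al u o).g ≤ M.cross w (setup M.al u).b o t := h1.trans h3
    have h5 : (setup M.al u).T = u * u * (par M.al u o).g * (setup M.al u).b := rfl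
    have h6 := Nat.mul_le_mul_left (setup M.al u).b h4
    rw [mul_comm] at h6
    omega

end OneTape

end Vale.Agent.P312
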