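import Vale.Agent.P312.Mach

namespace Vale.Agent.P312

variable {σ : Type}

@[reducible] def atom (v : ℕ) (f : Option Bool → Option σ → Act) : Mach σ where
  L := Unit
  fin := inferInstance
  entry := ()
  var := fun _ => v
  nx := fun _ t s => (f t s, none)

@[reducible] def mseq (M N : Mach σ) : Mach σ where
  L := M.L ⊕ N.L
  fin := by haveI := M.fin; haveI := N.fin; infer_instance
  entry := .inl M.entry
  var := Sum.elim M.var N.var
  nx := fun l t s => match l with
    | .inl l => ((M.nx l t s).1, ((M.nx l t s).2.map Sum.inl).or (some (.inr N.entry)))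
    | .inr l => ((N.nx l t s).1, ((N.nx l t s).2.map Sum.inr).or none)

@[reducible] def whileM (v : ℕ) (cond : Option Bool → Option σ → Bool) (M : Mach σ) : Mach σ where
  L := Option M.L
  fin := by haveI := M.fin; infer_instance
  entry := none
  var := fun l => match l with
    | none => v
    | some l => M.var l
  nx := fun l t s => match l with
    | none => (.nop, if cond t s then some (some M.entry) else none)
    | some l => ((M.nx l t s).1, ((M.nx l t s).2.map some).or (some none))

theorem Exec.lift {M M' : Mach σ} {w : List σ} {B : ℕ} (φ : M.L → M'.L) (ex : Option M'.L)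
    (hv : ∀ l, M'.var (φ l) = M.var l)
    (hn : ∀ l t s, M'.nx (φ l) t s = ((M.nx l t s).1, ((M.nx l t s).2.map φ).or ex))
    {o : Option M.L} {c c1 c2 : MCfg} (e1 : Exec M w B o c c1) (e2 : Exec M' w B ex c1 c2) :
    Exec M' w B ((o.map φ).or ex) c c2 := by
  induction e1 with
  | done c => simpa using e2
  | step l c c' hb _ ih =>
    have hres : M'.res w (φ l) c = ((M.res w l c).1, ((M.res w l c).2.map φ).or ex) := by
      unfold Mach.res; rw [hv, hn]
    have hnext : M'.next w (φ l) c = M.next w l c := by
      unfold Mach.next; rw [hres, hv]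
    simp only [Option.map_some, Option.some_or]
    refine Exec.step _ _ _ ?_ ?_
    · rw [hnext, hv]; exact hb
    · rw [hnext, hres]; exact ih e2

def Runs (M : Mach σ) (w : List σ) (B : ℕ) (c c' : MCfg) : Prop := Exec M w B (some M.entry) c c'

theorem runs_atom {v : ℕ} {f : Option Bool → Option σ → Act} {w : List σ} {B : ℕ} {c : MCfg}
    (h : (applyAct w.length v c (f (top (c.vars v)) (readInput w c.ip))).vars v ≤ max B (c.vars v)) :
    Runs (atom v f) w B c (applyAct w.length v c (f (top (c.vars v)) (readInput w c.ip))) :=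
  Exec.step (M := atom v f) () c _ h (Exec.done _)

theorem runs_seq {M N : Mach σ} {w : List σ} {B : ℕ} {c c1 c2 : MCfg}
    (h1 : Runs M w B c c1) (h2 : Runs N w B c1 c2) : Runs (mseq M N) w B c c2 := by
  have e2 : Exec (mseq M N) w B (some (.inr N.entry)) c1 c2 := by
    have := Exec.lift (M := N) (M' := mseq M N) Sum.inr none (fun _ => rfl) (fun _ _ _ => rfl) h2
      (Exec.done c2)
    simpa using this
  have := Exec.lift (M := M) (M' := mseq M N) Sum.inl (some (.inr N.entry)) (fun _ => rfl)
    (fun _ _ _ => rfl) h1 e2
  exact this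

theorem runs_while_done {v : ℕ} {cond : Option Bool → Option σ → Bool} {M : Mach σ} {w : List σ}
    {B : ℕ} {c : MCfg} (h : cond (top (c.vars v)) (readInput w c.ip) = false) :
    Runs (whileM v cond M) w B c c := by
  refine Exec.step (M := whileM v cond M) none c c (le_max_right _ _) ?_
  have : ((whileM v cond M).res w none c).2 = none := by
    simp [Mach.res, h]
  rw [this]
  exact Exec.done c

theorem runs_while_step {v : ℕ} {cond : Option Bool → Option σ → Bool} {M : Mach σ} {w : List σ}
    {B : ℕ} {c c1 c2 : MCfg} (h : cond (top (c.vars v)) (readInput w c.ip) = true)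
    (h1 : Runs M w B c c1) (h2 : Runs (whileM v cond M) w B c1 c2) :
    Runs (whileM v cond M) w B c c2 := by
  refine Exec.step (M := whileM v cond M) none c c2 (le_max_right _ _) ?_
  have : ((whileM v cond M).res w none c).2 = some (some M.entry) := by
    simp [Mach.res, h]
  rw [this]
  have := Exec.lift (M := M) (M' := whileM v cond M) some (some none) (fun _ => rfl)
    (fun _ _ _ => rfl) h1 h2
  exact this

/-- Input-position-independent specification. -/
def Hoare (M : Mach σ) (w : List σ) (B : ℕ) (x y : ℕ → ℕ) : Prop :=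
  ∀ ip ≤ w.length + 1, ∃ ip' ≤ w.length + 1, Runs M w B ⟨x, ip⟩ ⟨y, ip'⟩

theorem Hoare.seq {M N : Mach σ} {w : List σ} {B : ℕ} {x y z : ℕ → ℕ}
    (h1 : Hoare M w B x y) (h2 : Hoare N w B y z) : Hoare (mseq M N) w B x z := by
  intro ip hip
  obtain ⟨ip1, hip1, r1⟩ := h1 ip hip
  obtain ⟨ip2, hip2, r2⟩ := h2 ip1 hip1
  exact ⟨ip2, hip2, runs_seq r1 r2⟩

theorem Hoare.cast {M : Mach σ} {w : List σ} {B : ℕ} {x y y' : ℕ → ℕ}
    (h : Hoare M w B x y) (e : y = y') : Hoare M w B x y' := e ▸ h

def whileV (v : ℕ) (p : Option Bool → Bool) (M : Mach σ) : Mach σ := whileM v (fun t _ => p t) M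

theorem Hoare.while_done {v : ℕ} {p : Option Bool → Bool} {M : Mach σ} {w : List σ} {B : ℕ}
    {x : ℕ → ℕ} (h : p (top (x v)) = false) : Hoare (whileV v p M) w B x x :=
  fun ip hip => ⟨ip, hip, runs_while_done (c := ⟨x, ip⟩) h⟩

theorem Hoare.while_step {v : ℕ} {p : Option Bool → Bool} {M : Mach σ} {w : List σ} {B : ℕ}
    {x y z : ℕ → ℕ} (h : p (top (x v)) = true) (h1 : Hoare M w B x y)
    (h2 : Hoare (whileV v p M) w B y z) : Hoare (whileV v p M) w B x z := by
  intro ip hip
  obtain ⟨ip1, hip1, r1⟩ := h1 ip hip
  obtain ⟨ip2, hip2, r2⟩ := h2 ip1 hip1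
  exact ⟨ip2, hip2, runs_while_step (c := ⟨x, ip⟩) h r1 r2⟩

def pushM (v : ℕ) (b : Bool) : Mach σ := atom v (fun _ _ => .push b)
def popM (v : ℕ) : Mach σ := atom v (fun _ _ => .pop)
def nopM : Mach σ := atom 0 (fun _ _ => .nop)

theorem hoare_push {v : ℕ} {b : Bool} {w : List σ} {B : ℕ} {x : ℕ → ℕ}
    (h : 2 * x v + bitv b ≤ max B (x v)) :
    Hoare (pushM v b) w B x (Function.update x v (2 * x v + bitv b)) :=
  fun ip hip => ⟨ip, hip, runs_atom (c := ⟨x, ip⟩) (f := fun _ _ => .push b)
    (by simpa [applyAct] using h)⟩

theorem hoare_pop {v : ℕ} {w : List σ} {B : ℕ} {x : ℕ → ℕ} :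
    Hoare (popM v) w B x (Function.update x v (x v / 2)) :=
  fun ip hip => ⟨ip, hip, runs_atom (c := ⟨x, ip⟩) (f := fun _ _ => .pop)
    (by simp only [applyAct, Function.update_self]; omega)⟩

theorem hoare_nop {w : List σ} {B : ℕ} {x : ℕ → ℕ} : Hoare nopM w B x x :=
  fun ip hip => ⟨ip, hip, runs_atom (c := ⟨x, ip⟩) (f := fun _ _ => .nop) (le_max_right _ _)⟩

def nz (t : Option Bool) : Bool := t.isSome
def isOne (t : Option Bool) : Bool := t == some true
def isZero (t : Option Bool) : Bool := t == some false

theorem nz_top (x : ℕ) : nz (top x) = decide (x ≠ 0) := by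
  unfold nz top; by_cases h : x = 0 <;> simp [h]

theorem isOne_top (x : ℕ) : isOne (top x) = decide (x % 2 = 1) := by
  unfold isOne top
  by_cases h : x = 0
  · simp [h]
  · by_cases h2 : x % 2 = 1 <;> simp [h, h2]

theorem isZero_top (x : ℕ) : isZero (top x) = decide (x ≠ 0 ∧ x % 2 = 0) := by
  unfold isZero top
  by_cases h : x = 0
  · simp [h]
  · by_cases h2 : x % 2 = 1
    · simp [h, h2]
    · have : x % 2 = 0 := by omega
      simp [h, this]

def clr (v : ℕ) : Mach σ := whileV v nz (popM v)

theorem hoare_clr {v : ℕ} {w : List σ} {B : ℕ} (x : ℕ → ℕ) :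
    Hoare (clr v) w B x (Function.update x v 0) := by
  induction h : x v using Nat.strong_induction_on generalizing x with
  | _ n ih =>
    by_cases h0 : n = 0
    · refine (Hoare.while_done (by rw [nz_top]; simp [h, h0])).cast ?_
      rw [eq_comm, Function.update_eq_self_iff, h, h0]
    · refine Hoare.while_step (by rw [nz_top]; simp [h, h0]) hoare_pop ?_
      refine (ih (n / 2) (by omega) _ (by simp [h])).cast (by simp)

/-- Move the unary counter `t` back onto `v`, pushing the bit `b` for each of its ones. -/
def back (v t : ℕ) (b : Bool) : Mach σ := whileV t nz (mseq (popM t) (pushM v b))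

theorem hoare_back {v t : ℕ} (hvt : v ≠ t) {b : Bool} {w : List σ} {B : ℕ} (j : ℕ) :
    ∀ x : ℕ → ℕ, x t + 1 = 2 ^ j → x v * 2 ^ j + bitv b * (2 ^ j - 1) ≤ B →
    Hoare (back v t b) w B x
      (Function.update (Function.update x t 0) v (x v * 2 ^ j + bitv b * (2 ^ j - 1))) := by
  induction j with
  | zero =>
    intro x h1 _
    refine (Hoare.while_done (by rw [nz_top]; simp; omega)).cast ?_
    funext i
    by_cases hi : i = v
    · subst hi; simp
    · by_cases hi' : i = t
      · subst hi'; simp [Function.update_of_ne hi]; omega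
      · simp [Function.update_of_ne hi, Function.update_of_ne hi']
  | succ j ih =>
    intro x h1 h2
    have hp : 0 < 2 ^ j := by positivity
    have e : (2 * x v + bitv b) * 2 ^ j + bitv b * (2 ^ j - 1) =
        x v * 2 ^ (j + 1) + bitv b * (2 ^ (j + 1) - 1) := by
      rw [pow_succ]
      obtain ⟨y, hy⟩ : ∃ y, 2 ^ j = y + 1 := ⟨2 ^ j - 1, by omega⟩
      rw [hy]
      have : (y + 1) * 2 - 1 = 2 * y + 1 := by omega
      rw [this]; simp; ring
    have hle : 2 * x v + bitv b ≤ B := by
      have : 2 * x v + bitv b ≤ (2 * x v + bitv b) * 2 ^ j := Nat.le_mul_of_pos_right _ hp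
      omega
    refine Hoare.while_step (by rw [nz_top]; simp; rw [pow_succ] at h1; omega)
      (Hoare.seq hoare_pop (hoare_push ?_)) ?_
    · rw [Function.update_of_ne hvt]; omega
    · refine (ih _ ?_ ?_).cast ?_
      · rw [Function.update_of_ne hvt.symm, Function.update_self]; rw [pow_succ] at h1; omega
      · simp only [Function.update_self, Function.update_of_ne hvt]; omega
      · simp only [Function.update_self, Function.update_of_ne hvt, e]
        funext i
        by_cases hi : i = v
        · subst hi; simp
        · by_cases hi' : i = t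
          · subst hi'; simp [Function.update_of_ne hi]
          · simp [Function.update_of_ne hi, Function.update_of_ne hi']

/-- Strip low bits selected by `p` from `v`, counting them in unary on `t`. -/
def strip (v t : ℕ) (p : Option Bool → Bool) : Mach σ := whileV v p (mseq (popM v) (pushM t true))

theorem hoare_strip {v t : ℕ} (hvt : v ≠ t) (p : Option Bool → Bool) {w : List σ} {B : ℕ}
    (y : ℕ) (hy : p (top y) = false) (val : ℕ → ℕ) (h0 : val 0 = y)
    (hs : ∀ j, val (j + 1) / 2 = val j) (j : ℕ) :
    (∀ i < j, p (top (val (i + 1))) = true) →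
    ∀ (x : ℕ → ℕ) (i : ℕ), x v = val j → x t + 1 = 2 ^ i → 2 ^ (i + j) ≤ B + 1 →
    Hoare (strip v t p) w B x
      (Function.update (Function.update x v y) t (2 ^ (i + j) - 1)) := by
  induction j with
  | zero =>
    intro _ x i h1 h2 _
    refine (Hoare.while_done (by rw [h1, h0, hy])).cast ?_
    funext k
    by_cases hk : k = t
    · subst hk; simp; omega
    · by_cases hk' : k = v
      · subst hk'; simp [Function.update_of_ne hk, h1, h0]
      · simp [Function.update_of_ne hk, Function.update_of_ne hk']
  | succ j ih =>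
    intro hp x i h1 h2 h3
    have hle : 2 ^ (i + 1) ≤ 2 ^ (i + (j + 1)) := Nat.pow_le_pow_right (by norm_num) (by omega)
    refine Hoare.while_step (by rw [h1]; exact hp j (by omega))
      (Hoare.seq hoare_pop (hoare_push ?_)) ?_
    · rw [Function.update_of_ne hvt.symm]; simp only [bitv]; rw [pow_succ] at hle; simp; omega
    · refine (ih (fun i hi => hp i (by omega)) _ (i + 1) ?_ ?_ ?_).cast ?_
      · rw [Function.update_of_ne hvt, Function.update_self, h1, hs]
      · simp only [Function.update_self, Function.update_of_ne hvt.symm, bitv]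
        rw [pow_succ]; simp; omega
      · rwa [show i + 1 + j = i + (j + 1) by ring]
      · rw [show i + 1 + j = i + (j + 1) by ring]
        funext k
        by_cases hk : k = t
        · subst hk; simp
        · by_cases hk' : k = v
          · subst hk'; simp [Function.update_of_ne hk]
          · simp [Function.update_of_ne hk, Function.update_of_ne hk']

def incM (v t : ℕ) : Mach σ :=
  mseq (strip v t isOne) (mseq (popM v) (mseq (pushM v true) (back v t false)))

theorem hoare_inc {v t : ℕ} (hvt : v ≠ t) {w : List σ} {B : ℕ} (x : ℕ → ℕ) (ht : x t = 0)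
    (hB : x v + 1 ≤ B) : Hoare (incM v t) w B x (Function.update x v (x v + 1)) := by
  obtain ⟨j, m, hm, hx⟩ := Nat.exists_eq_two_pow_mul_odd (n := x v + 1) (by omega)
  obtain ⟨y, rfl⟩ := hm
  have hp : 0 < 2 ^ j := by positivity
  have hle : 2 ^ j ≤ x v + 1 := by rw [hx]; exact Nat.le_mul_of_pos_right _ (by omega)
  have s1 := hoare_strip (w := w) (B := B) hvt isOne (2 * y) (by rw [isOne_top]; simp)
    (fun i => 2 ^ i * (2 * y + 1) - 1) (by simp)
    (by
      intro i
      have : 0 < 2 ^ i * (2 * y + 1) := by positivity
      rw [pow_succ, show 2 ^ i * 2 * (2 * y + 1) = 2 * (2 ^ i * (2 * y + 1)) by ring]; omega)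
    j (by
      intro i _
      have : 0 < 2 ^ i * (2 * y + 1) := by positivity
      rw [isOne_top, pow_succ, show 2 ^ i * 2 * (2 * y + 1) = 2 * (2 ^ i * (2 * y + 1)) by ring]
      simp; omega) x 0 (by omega) (by simp [ht]) (by simp; omega)
  refine Hoare.seq s1 (Hoare.seq hoare_pop (Hoare.seq (hoare_push ?_) ((hoare_back hvt j _ ?_ ?_).cast ?_)))
  · simp only [Function.update_self, Function.update_of_ne hvt, bitv]
    have : 2 * y + 1 ≤ 2 ^ j * (2 * y + 1) := Nat.le_mul_of_pos_left _ hp
    simp; omega
  · simp only [Function.update_self, Function.update_of_ne hvt.symm]; simp; omega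
  · simp only [Function.update_self, Function.update_of_ne hvt, bitv]
    simp; rw [mul_comm] at hx; omega
  · funext k
    by_cases hk : k = v
    · subst hk
      simp only [Function.update_self, Function.update_of_ne hvt, bitv]
      simp; rw [mul_comm] at hx; omega
    · by_cases hk' : k = t
      · subst hk'; simp [Function.update_of_ne hk, ht]
      · simp [Function.update_of_ne hk, Function.update_of_ne hk']

def decM (v t : ℕ) : Mach σ :=
  mseq (strip v t isZero) (mseq (popM v) (mseq (pushM v false) (back v t true)))

theorem hoare_dec {v t : ℕ} (hvt : v ≠ t) {w : List σ} {B : ℕ} (x : ℕ → ℕ) (ht : x t = 0)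
    (h0 : x v ≠ 0) (hB : x v ≤ B) : Hoare (decM v t) w B x (Function.update x v (x v - 1)) := by
  obtain ⟨j, m, hm, hx⟩ := Nat.exists_eq_two_pow_mul_odd (n := x v) h0
  obtain ⟨y, rfl⟩ := hm
  have hp : 0 < 2 ^ j := by positivity
  have hle : 2 ^ j ≤ x v := by rw [hx]; exact Nat.le_mul_of_pos_right _ (by omega)
  have s1 := hoare_strip (w := w) (B := B) hvt isZero (2 * y + 1) (by rw [isZero_top]; simp)
    (fun i => 2 ^ i * (2 * y + 1)) (by simp)
    (by
      intro i
      rw [pow_succ, show 2 ^ i * 2 * (2 * y + 1) = 2 * (2 ^ i * (2 * y + 1)) by ring]; omega)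
    j (by
      intro i _
      have : 0 < 2 ^ i * (2 * y + 1) := by positivity
      rw [isZero_top, pow_succ, show 2 ^ i * 2 * (2 * y + 1) = 2 * (2 ^ i * (2 * y + 1)) by ring]
      simp) x 0 (by omega) (by simp [ht]) (by simp; omega)
  have e : 2 * y * 2 ^ j + (2 ^ j - 1) = x v - 1 := by
    rw [hx, show 2 ^ j * (2 * y + 1) = 2 * y * 2 ^ j + 2 ^ j by ring]; omega
  refine Hoare.seq s1 (Hoare.seq hoare_pop (Hoare.seq (hoare_push ?_) ((hoare_back hvt j _ ?_ ?_).cast ?_)))
  · simp only [Function.update_self, Function.update_of_ne hvt, bitv]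
    have : 2 * y + 1 ≤ 2 ^ j * (2 * y + 1) := Nat.le_mul_of_pos_left _ hp
    simp; omega
  · simp only [Function.update_self, Function.update_of_ne hvt.symm]; simp; omega
  · simp only [Function.update_self, Function.update_of_ne hvt, bitv]
    have : (2 * y + 1) / 2 = y := by omega
    simp [this]; omega
  · funext k
    by_cases hk : k = v
    · subst hk
      simp only [Function.update_self, Function.update_of_ne hvt, bitv]
      have : (2 * y + 1) / 2 = y := by omega
      simp [this]; omega
    · by_cases hk' : k = t
      · subst hk'; simp [Function.update_of_ne hk, ht]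
      · simp [Function.update_of_ne hk, Function.update_of_ne hk']

/-- Move `s` onto `d`. -/
def moveM (s d t : ℕ) : Mach σ := whileV s nz (mseq (decM s t) (incM d t))

theorem hoare_move {s d t : ℕ} (hsd : s ≠ d) (hst : s ≠ t) (hdt : d ≠ t) {w : List σ} {B : ℕ}
    (n : ℕ) : ∀ x : ℕ → ℕ, x s = n → x t = 0 → x d + n ≤ B →
    Hoare (moveM s d t) w B x (Function.update (Function.update x s 0) d (x d + n)) := by
  induction n with
  | zero =>
    intro x h1 _ _
    refine (Hoare.while_done (by rw [nz_top]; simp [h1])).cast ?_
    funext k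
    by_cases hk : k = d
    · subst hk; simp
    · by_cases hk' : k = s
      · subst hk'; simp [Function.update_of_ne hk, h1]
      · simp [Function.update_of_ne hk, Function.update_of_ne hk']
  | succ n ih =>
    intro x h1 h2 h3
    refine Hoare.while_step (by rw [nz_top]; simp [h1])
      (Hoare.seq (hoare_dec hst x h2 (by omega) (by omega)) (hoare_inc hdt _ ?_ ?_)) ?_
    · rw [Function.update_of_ne hst.symm, h2]
    · rw [Function.update_of_ne hsd.symm]; omega
    · refine (ih _ ?_ ?_ ?_).cast ?_
      · simp [Function.update_of_ne hsd, h1]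
      · simp [Function.update_of_ne hdt.symm, Function.update_of_ne hst.symm, h2]
      · simp [Function.update_of_ne hsd.symm]; omega
      · funext k
        by_cases hk : k = d
        · subst hk; simp [Function.update_of_ne hsd.symm]; ring
        · by_cases hk' : k = s
          · subst hk'; simp [Function.update_of_ne hk]
          · simp [Function.update_of_ne hk, Function.update_of_ne hk']

/-- Move `s` onto both `d` and `e`. -/
def move2M (s d e t : ℕ) : Mach σ := whileV s nz (mseq (decM s t) (mseq (incM d t) (incM e t)))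

theorem hoare_move2 {s d e t : ℕ} (hsd : s ≠ d) (hse : s ≠ e) (hst : s ≠ t) (hde : d ≠ e)
    (hdt : d ≠ t) (het : e ≠ t) {w : List σ} {B : ℕ}
    (n : ℕ) : ∀ x : ℕ → ℕ, x s = n → x t = 0 → x d + n ≤ B → x e + n ≤ B →
    Hoare (move2M s d e t) w B x
      (Function.update (Function.update (Function.update x s 0) d (x d + n)) e (x e + n)) := by
  induction n with
  | zero =>
    intro x h1 _ _ _
    refine (Hoare.while_done (by rw [nz_top]; simp [h1])).cast ?_
    funext k
    by_cases hk : k = e
    · subst hk; simp
    · by_cases hk' : k = d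
      · subst hk'; simp [Function.update_of_ne hk]
      · by_cases hk'' : k = s
        · subst hk''; simp [Function.update_of_ne hk, Function.update_of_ne hk', h1]
        · simp [Function.update_of_ne hk, Function.update_of_ne hk', Function.update_of_ne hk'']
  | succ n ih =>
    intro x h1 h2 h3 h4
    refine Hoare.while_step (by rw [nz_top]; simp [h1])
      (Hoare.seq (hoare_dec hst x h2 (by omega) (by omega))
        (Hoare.seq (hoare_inc hdt _ ?_ ?_) (hoare_inc het _ ?_ ?_))) ?_
    · rw [Function.update_of_ne hst.symm, h2]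
    · rw [Function.update_of_ne hsd.symm]; omega
    · simp [Function.update_of_ne hdt.symm, Function.update_of_ne hst.symm, h2]
    · simp [Function.update_of_ne hde.symm, Function.update_of_ne hse.symm]; omega
    · refine (ih _ ?_ ?_ ?_ ?_).cast ?_
      · simp [Function.update_of_ne hsd, Function.update_of_ne hse, h1]
      · simp [Function.update_of_ne hdt.symm, Function.update_of_ne hst.symm,
          Function.update_of_ne het.symm, h2]
      · simp [Function.update_of_ne hsd.symm, Function.update_of_ne hde]; omega
      · simp [Function.update_of_ne hde.symm, Function.update_of_ne hse.symm]; omega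
      · funext k
        by_cases hk : k = e
        · subst hk
          simp [Function.update_of_ne hde.symm, Function.update_of_ne hse.symm]; ring
        · by_cases hk' : k = d
          · subst hk'
            simp [Function.update_of_ne hk, Function.update_of_ne hsd.symm]; ring
          · by_cases hk'' : k = s
            · subst hk''; simp [Function.update_of_ne hk, Function.update_of_ne hk']
            · simp [Function.update_of_ne hk, Function.update_of_ne hk', Function.update_of_ne hk'']

/-- `d := d + s` with the two scratch registers `e`, `t`. -/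
def copyM (s d e t : ℕ) : Mach σ := mseq (move2M s d e t) (moveM e s t)

theorem hoare_copy {s d e t : ℕ} (hsd : s ≠ d) (hse : s ≠ e) (hst : s ≠ t) (hde : d ≠ e)
    (hdt : d ≠ t) (het : e ≠ t) {w : List σ} {B : ℕ} (x : ℕ → ℕ) (he : x e = 0) (ht : x t = 0)
    (hB : x d + x s ≤ B) :
    Hoare (copyM s d e t) w B x (Function.update x d (x d + x s)) := by
  refine Hoare.seq (hoare_move2 hsd hse hst hde hdt het (x s) x rfl ht hB (by omega))
    ((hoare_move hse.symm het hst (x s) _ ?_ ?_ ?_).cast ?_)
  · simp [he]
  · simp [Function.update_of_ne hdt.symm, Function.update_of_ne hst.symm,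
      Function.update_of_ne het.symm, ht]
  · simp [Function.update_of_ne hsd, Function.update_of_ne hse]; omega
  · funext k
    by_cases hk : k = s
    · subst hk; simp [Function.update_of_ne hsd, Function.update_of_ne hse]
    · by_cases hk' : k = e
      · subst hk'; simp [Function.update_of_ne hk, Function.update_of_ne hde.symm, he]
      · by_cases hk'' : k = d
        · subst hk''; simp [Function.update_of_ne hk, Function.update_of_ne hk']
        · simp [Function.update_of_ne hk, Function.update_of_ne hk', Function.update_of_ne hk'']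

end Vale.Agent.P312
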