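import Vale.Agent.P312.LS2

namespace Vale.Agent.P312

variable {σ : Type} [Fintype σ]

theorem LS.hoare {g : List σ → ℕ → ℕ} (hg : LS σ (fun p : List σ × ℕ => g p.1 p.2)) (a k : ℕ)
    (hak : a < k) : ∃ (T : Mach σ) (c : ℕ), ∀ (w : List σ) (x : ℕ → ℕ) (M : ℕ), 2 ≤ M → x a ≤ M →
    (∀ j, k ≤ j → x j = 0) → Hoare T w (M ^ c) x (Function.update x k (g w (x a))) := by
  obtain ⟨e, c, h⟩ := LS.nat_iff.1 hg
  refine ⟨compile e (fun _ => a) k, c, fun w x M h1 h2 h3 => ?_⟩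
  obtain ⟨h4, h5⟩ := h w (w, x a) M (fun _ => x a) ⟨rfl, trivial⟩ h1
    (bd_prod.2 ⟨fun i hi => absurd hi (Nat.not_lt_zero _), bd_nat.2 h2⟩) (by
      intro i hi
      simp [Enc.env, Enc.ar])
  have := hoare_compile w (M ^ c) e (fun _ => a) k x (fun _ => hak) h3 h5
  rwa [h4] at this

omit [Fintype σ] in
theorem Hoare.mono {T : Mach σ} {w : List σ} {B B' : ℕ} {x y : ℕ → ℕ} (h : Hoare T w B x y)
    (hB : B ≤ B') : Hoare T w B' x y := by
  intro ip hip
  obtain ⟨ip', h1, h2⟩ := h ip hip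
  exact ⟨ip', h1, Exec.mono hB h2⟩

/-- Iterating a linear-space step function until a flag drops. -/
theorem exists_tm_iter (step cont ans : List σ → ℕ → ℕ) (s0 : ℕ)
    (hstep : LS σ (fun p : List σ × ℕ => step p.1 p.2))
    (hcont : LS σ (fun p : List σ × ℕ => cont p.1 p.2))
    (hans : LS σ (fun p : List σ × ℕ => ans p.1 p.2)) :
    ∃ (T : MultiTape σ) (c : ℕ), ∀ (w : List σ) (N S : ℕ),
      (∀ i ≤ N, (step w)^[i] s0 ≤ 2 ^ S) → (∀ i < N, cont w ((step w)^[i] s0) ≠ 0) →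
      cont w ((step w)^[N] s0) = 0 →
      T.UsesSpace w (c * (S + 1)) ∧ ∃ (j : ℕ) (b : Bool),
        T.out ((T.step w)^[j] T.startCfg).q = some b ∧ (b = true ↔ ans w ((step w)^[N] s0) ≠ 0) := by
  obtain ⟨T0, c0, h0⟩ := LS.hoare (σ := σ) (g := fun _ _ => s0) (by fun_prop) 0 1 (by omega)
  obtain ⟨T1, c1, h1⟩ := hstep.hoare 1 2 (by omega)
  obtain ⟨T2, c2, h2⟩ := hcont.hoare 1 2 (by omega)
  obtain ⟨T3, c3, h3⟩ := hans.hoare 1 2 (by omega)
  let body : Mach σ := mseq (clr 2) (mseq T1 (mseq (clr 1) (mseq (moveM 2 1 3) T2)))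
  let P : Mach σ := mseq T0 (mseq T2 (mseq (whileV 2 nz body) T3))
  set c := c0 + c1 + c2 + c3 + 1 with hc
  refine ⟨P.tm 2, P.K 2 * (c + 2), fun w N S hb hcon hfin => ?_⟩
  set M := 2 ^ (S + 1) with hM
  have hM2 : 2 ≤ M := by rw [hM, pow_succ]; have : 0 < 2 ^ S := by positivity
                         omega
  have hbM : ∀ i ≤ N, (step w)^[i] s0 ≤ M := fun i hi =>
    (hb i hi).trans (Nat.pow_le_pow_right (by norm_num) (by omega))
  have hle : ∀ d ≤ c, M ^ d ≤ M ^ c := fun d hd => Nat.pow_le_pow_right (by omega) hd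
  have hMc : M ≤ M ^ c := le_pow_self hM2 (by omega)
  let st : ℕ → ℕ → ℕ := fun i j =>
    if j = 1 then (step w)^[i] s0 else if j = 2 then cont w ((step w)^[i] s0) else 0
  have loop : ∀ m i, i + m = N → Hoare (whileV 2 nz body) w (M ^ c) (st i) (st N) := by
    intro m
    induction m with
    | zero =>
      intro i hi
      obtain rfl : i = N := by omega
      exact Hoare.while_done (by simp [nz_top, st, hfin])
    | succ m ih =>
      intro i hi
      refine Hoare.while_step (by simp [nz_top, st]; exact hcon i (by omega)) ?_ (ih (i + 1) (by omega))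
      have b1 := hbM (i + 1) (by omega)
      refine Hoare.seq (hoare_clr _) (Hoare.seq ((h1 w _ M hM2 ?_ ?_).mono (hle _ (by omega)))
        (Hoare.seq (hoare_clr _) (Hoare.seq (hoare_move (by omega) (by omega) (by omega)
          ((step w)^[i + 1] s0) _ ?_ ?_ ?_) (((h2 w _ M hM2 ?_ ?_).mono (hle _ (by omega))).cast ?_))))
      · simp [st]; exact hbM i (by omega)
      · intro j hj
        simp only [Function.update_apply, st]
        split_ifs <;> omega
      · simp [st, Function.iterate_succ_apply']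
      · simp [st]
      · simp only [Function.update_self, zero_add]; exact b1.trans hMc
      · simp only [Function.update_self, zero_add]; exact b1
      · intro j hj
        simp only [Function.update_apply, st]
        split_ifs <;> omega
      · funext j
        simp only [Function.update_apply, st]
        split_ifs <;> simp_all
  have hP : Hoare P w (M ^ c) (fun _ => 0) (Function.update (st N) 2 (ans w ((step w)^[N] s0))) := by
    refine Hoare.seq ((h0 w _ M hM2 (by omega) (fun _ _ => rfl)).mono (hle _ (by omega)))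
      (Hoare.seq (((h2 w _ M hM2 ?_ ?_).mono (hle _ (by omega))).cast (y' := st 0) ?_)
        (Hoare.seq (loop N 0 (by omega)) (((h3 w _ M hM2 ?_ ?_).mono (hle _ (by omega))).cast ?_)))
    · simpa using hbM 0 (by omega)
    · intro j hj
      rw [Function.update_of_ne (by omega)]
    · funext j
      simp only [Function.update_apply, st]
      split_ifs <;> simp_all
    · simpa [st] using hbM N le_rfl
    · intro j hj
      simp only [st]
      split_ifs <;> omega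
    · simp [st]
  obtain ⟨ip', _, r⟩ := hP 0 (by omega)
  obtain ⟨⟨V, hV, hV'⟩, j, b, hj, hb'⟩ := tm_decides P 2 (M ^ c) w _ r
  refine ⟨⟨V, hV.trans ?_, hV'⟩, j, b, hj, by simpa using hb'⟩
  rw [hM, ← pow_mul, Nat.size_pow, mul_assoc]
  refine Nat.mul_le_mul_left _ ?_
  nlinarith

/-! ### Recursive schemes -/

variable {F R : Type} [Enc σ F] [Enc σ R] [Pack σ F] [Pack σ R]

/-- `act w f ρ = (tag, f', ρ', g)`: tag `0` returns, tag `1` continues with `f'`, and any other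
tag calls `g` and then continues with `f'`. -/
inductive Run (σ : Type) {F R : Type} [Enc σ F] [Enc σ R] (act : F → R → ℕ × F × R × F) (S : ℕ) :
    ℕ → F → R → R → Prop
  | ret (W : ℕ) (f : F) (ρ : R) : (act f ρ).1 = 0 → Bd σ (2 ^ W) f → Bd σ (2 ^ S) (act f ρ).2.2.1 →
      Run σ act S W f ρ (act f ρ).2.2.1
  | goto (W : ℕ) (f : F) (ρ ρ2 : R) : (act f ρ).1 = 1 → Bd σ (2 ^ W) f →
      Bd σ (2 ^ S) (act f ρ).2.2.1 → Run σ act S W (act f ρ).2.1 (act f ρ).2.2.1 ρ2 →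
      Run σ act S W f ρ ρ2
  | call (W W1 l : ℕ) (f : F) (ρ ρ1 ρ2 : R) : (act f ρ).1 = 2 → Bd σ (2 ^ W) f →
      Bd σ (2 ^ S) (act f ρ).2.2.1 → Bd σ (2 ^ l) (act f ρ).2.1 → W1 + l + 1 ≤ W →
      Run σ act S W1 (act f ρ).2.2.2 (act f ρ).2.2.1 ρ1 → Run σ act S W (act f ρ).2.1 ρ1 ρ2 →
      Run σ act S W f ρ ρ2

omit [Fintype σ] [Pack σ F] [Pack σ R] in
theorem Run.bd_frame {act : F → R → ℕ × F × R × F} {S W : ℕ} {f : F} {ρ ρ' : R}
    (h : Run σ act S W f ρ ρ') : Bd σ (2 ^ W) f := by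
  cases h <;> assumption

omit [Fintype σ] [Pack σ F] [Pack σ R] in
theorem Run.mono {act : F → R → ℕ × F × R × F} {S W : ℕ} {f : F} {ρ ρ' : R}
    (h : Run σ act S W f ρ ρ') {W' : ℕ} (hW : W ≤ W') : Run σ act S W' f ρ ρ' := by
  have hp : ∀ {W}, W ≤ W' → 2 ^ W ≤ 2 ^ W' := fun h => Nat.pow_le_pow_right (by norm_num) h
  induction h with
  | ret W f ρ h1 h2 h3 => exact Run.ret _ f ρ h1 (h2.mono (hp hW)) h3
  | goto W f ρ ρ2 h1 h2 h3 _ ih => exact Run.goto _ f ρ ρ2 h1 (h2.mono (hp hW)) h3 (ih hW)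
  | call W W1 l f ρ ρ1 ρ2 h1 h2 h3 h4 h5 r1 _ _ ih2 =>
    exact Run.call _ W1 l f ρ ρ1 ρ2 h1 (h2.mono (hp hW)) h3 h4 (h5.trans hW) r1 (ih2 hW)

omit [Fintype σ] [Pack σ F] [Pack σ R] in
theorem Run.ret' {act : F → R → ℕ × F × R × F} {S W : ℕ} {f f' g : F} {ρ ρ' : R}
    (h : act f ρ = (0, f', ρ', g)) (h2 : Bd σ (2 ^ W) f) (h3 : Bd σ (2 ^ S) ρ') :
    Run σ act S W f ρ ρ' := by
  have := Run.ret (σ := σ) (act := act) (S := S) W f ρ (by rw [h]) h2 (by rw [h]; exact h3)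
  rwa [h] at this

omit [Fintype σ] [Pack σ F] [Pack σ R] in
theorem Run.goto' {act : F → R → ℕ × F × R × F} {S W : ℕ} {f f' g : F} {ρ ρ' ρ2 : R}
    (h : act f ρ = (1, f', ρ', g)) (h2 : Bd σ (2 ^ W) f) (h3 : Bd σ (2 ^ S) ρ')
    (r : Run σ act S W f' ρ' ρ2) : Run σ act S W f ρ ρ2 :=
  Run.goto W f ρ ρ2 (by rw [h]) h2 (by rw [h]; exact h3) (by rw [h]; exact r)

omit [Fintype σ] [Pack σ F] [Pack σ R] in
theorem Run.call' {act : F → R → ℕ × F × R × F} {S W W1 l : ℕ} {f f' g : F} {ρ ρ' ρ1 ρ2 : R}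
    (h : act f ρ = (2, f', ρ', g)) (h2 : Bd σ (2 ^ W) f) (h3 : Bd σ (2 ^ S) ρ')
    (h4 : Bd σ (2 ^ l) f') (h5 : W1 + l + 1 ≤ W)
    (r1 : Run σ act S W1 g ρ' ρ1) (r2 : Run σ act S W f' ρ1 ρ2) : Run σ act S W f ρ ρ2 :=
  Run.call W W1 l f ρ ρ1 ρ2 (by rw [h]) h2 (by rw [h]; exact h3) (by rw [h]; exact h4) h5
    (by rw [h]; exact r1) (by rw [h]; exact r2)

def flat (σ : Type) [Fintype σ] {F R : Type} [Enc σ F] [Enc σ R] [Pack σ F]
    (act : F → R → ℕ × F × R × F) (s : ℕ × R) : ℕ × R :=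
  let r := act (Pack.unpack σ (prR s.1)) s.2
  if r.1 = 0 then (prL s.1, r.2.2.1)
  else if r.1 = 1 then (pr (prL s.1) (Pack.pack σ r.2.1), r.2.2.1)
  else (pr (pr (prL s.1) (Pack.pack σ r.2.1)) (Pack.pack σ r.2.2.2), r.2.2.1)

omit [Pack σ R] in
theorem flat_run (act : F → R → ℕ × F × R × F) (c : ℕ)
    (hc : ∀ (f : F) (M : ℕ), 2 ≤ M → Bd σ M f → Pack.pack σ f ≤ M ^ c) (S Wt : ℕ)
    {W : ℕ} {f : F} {ρ ρ' : R} (h : Run σ act S W f ρ ρ') :
    ∀ (rest A : ℕ), rest ≤ 2 ^ ((2 * c + 4) * A) → A + W + 1 ≤ Wt → Bd σ (2 ^ S) ρ →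
    ∃ N, (flat σ act)^[N] (pr rest (Pack.pack σ f), ρ) = (rest, ρ') ∧ Bd σ (2 ^ S) ρ' ∧
      ∀ i < N, ((flat σ act)^[i] (pr rest (Pack.pack σ f), ρ)).1 ≠ 0 ∧
        ((flat σ act)^[i] (pr rest (Pack.pack σ f), ρ)).1 ≤ 2 ^ ((2 * c + 4) * Wt) ∧
        Bd σ (2 ^ S) ((flat σ act)^[i] (pr rest (Pack.pack σ f), ρ)).2 := by
  have push : ∀ (rest A l : ℕ) (f : F), rest ≤ 2 ^ ((2 * c + 4) * A) → Bd σ (2 ^ l) f →
      pr rest (Pack.pack σ f) ≤ 2 ^ ((2 * c + 4) * (A + l + 1)) := by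
    intro rest A l f h1 h2
    have h3 : Pack.pack σ f ≤ 2 ^ ((l + 1) * c) := by
      rw [pow_mul]
      refine hc f _ ?_ (h2.mono (Nat.pow_le_pow_right (by norm_num) (by omega)))
      rw [pow_succ]; have : 0 < 2 ^ l := by positivity
      omega
    refine (pr_le h1 h3).trans (Nat.pow_le_pow_right (by norm_num) ?_)
    nlinarith
  have first : ∀ (rest A W : ℕ) (f : F) (ρ : R), rest ≤ 2 ^ ((2 * c + 4) * A) → A + W + 1 ≤ Wt →
      Bd σ (2 ^ W) f → Bd σ (2 ^ S) ρ →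
      ((flat σ act)^[0] (pr rest (Pack.pack σ f), ρ)).1 ≠ 0 ∧
        ((flat σ act)^[0] (pr rest (Pack.pack σ f), ρ)).1 ≤ 2 ^ ((2 * c + 4) * Wt) ∧
        Bd σ (2 ^ S) ((flat σ act)^[0] (pr rest (Pack.pack σ f), ρ)).2 := by
    intro rest A W f ρ h1 h2 h3 h4
    exact ⟨pr_ne_zero _ _, (push rest A W f h1 h3).trans
      (Nat.pow_le_pow_right (by norm_num) (Nat.mul_le_mul_left _ h2)), h4⟩
  induction h with
  | ret W f ρ h1 h2 h3 =>
    intro rest A hr hA hρ
    refine ⟨1, by simp [flat, Pack.unpack_pack, h1], h3, fun i hi => ?_⟩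
    obtain rfl : i = 0 := by omega
    exact first rest A W f ρ hr hA h2 hρ
  | goto W f ρ ρ2 h1 h2 h3 _ ih =>
    intro rest A hr hA hρ
    obtain ⟨N, e, hb, g⟩ := ih rest A hr hA h3
    have s : flat σ act (pr rest (Pack.pack σ f), ρ) =
        (pr rest (Pack.pack σ (act f ρ).2.1), (act f ρ).2.2.1) := by
      simp [flat, Pack.unpack_pack, h1]
    refine ⟨N + 1, by rw [Function.iterate_succ_apply, s, e], hb, fun i hi => ?_⟩
    rcases i with _ | i
    · exact first rest A W f ρ hr hA h2 hρ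
    · rw [Function.iterate_succ_apply, s]; exact g i (by omega)
  | call W W1 l f ρ ρ1 ρ2 h1 h2 h3 h4 h5 _ _ ih1 ih2 =>
    intro rest A hr hA hρ
    obtain ⟨N1, e1, hb1, g1⟩ := ih1 (pr rest (Pack.pack σ (act f ρ).2.1)) (A + l + 1)
      (push rest A l _ hr h4) (by omega) h3
    obtain ⟨N2, e2, hb2, g2⟩ := ih2 rest A hr hA hb1
    have s : flat σ act (pr rest (Pack.pack σ f), ρ) =
        (pr (pr rest (Pack.pack σ (act f ρ).2.1)) (Pack.pack σ (act f ρ).2.2.2), (act f ρ).2.2.1) := by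
      simp [flat, Pack.unpack_pack, h1]
    refine ⟨N2 + N1 + 1, by rw [Function.iterate_succ_apply, s, Function.iterate_add_apply, e1, e2],
      hb2, fun i hi => ?_⟩
    rcases i with _ | i
    · exact first rest A W f ρ hr hA h2 hρ
    · rw [Function.iterate_succ_apply, s]
      by_cases h : i < N1
      · exact g1 i h
      · obtain ⟨i', rfl⟩ : ∃ i', i = i' + N1 := ⟨i - N1, by omega⟩
        rw [Function.iterate_add_apply, e1]
        exact g2 i' (by omega)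

/-- A recursive scheme with linear-space actions is run by a Turing machine in space
proportional to the register size plus the stack budget. -/
theorem exists_tm_run (act : List σ → F → R → ℕ × F × R × F) (ans : R → ℕ) (f0 : F) (ρ0 : R)
    (hact : LS σ (fun p : List σ × F × R => act p.1 p.2.1 p.2.2)) (hans : LS σ ans) :
    ∃ (T : MultiTape σ) (c : ℕ), ∀ (w : List σ) (S W : ℕ) (ρ' : R),
      Bd σ (2 ^ S) ρ0 → Run σ (act w) S W f0 ρ0 ρ' →
      T.UsesSpace w (c * (S + W + 1)) ∧ ∃ (j : ℕ) (b : Bool),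
        T.out ((T.step w)^[j] T.startCfg).q = some b ∧ (b = true ↔ ans ρ' ≠ 0) := by
  have hflat : LS σ (fun p : List σ × (ℕ × R) => flat σ (act p.1) p.2) := by
    have h1 : LS σ (fun p : List σ × (ℕ × R) => act p.1 (Pack.unpack σ (prR p.2.1)) p.2.2) :=
      LS.comp (f := fun p : List σ × (ℕ × R) => (p.1, (Pack.unpack σ (prR p.2.1) : F), p.2.2)) hact
        (by fun_prop)
    unfold flat
    fun_prop
  obtain ⟨T, c1, hT⟩ := exists_tm_iter (σ := σ)
    (fun w n => Pack.pack σ (flat σ (act w) (Pack.unpack σ n : ℕ × R)))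
    (fun _ n => (Pack.unpack σ n : ℕ × R).1) (fun _ n => ans (Pack.unpack σ n : ℕ × R).2)
    (Pack.pack σ ((pr 0 (Pack.pack σ f0), ρ0) : ℕ × R))
    (LS.pack (LS.comp (f := fun p : List σ × ℕ => (p.1, (Pack.unpack σ p.2 : ℕ × R))) hflat
      (by fun_prop))) (by fun_prop) (LS.comp hans (by fun_prop))
  obtain ⟨c, hc⟩ := pack_bound (σ := σ) F
  obtain ⟨c2, hc2⟩ := pack_bound (σ := σ) (ℕ × R)
  refine ⟨T, c1 * (c2 * (2 * c + 5) + 1), fun w S W ρ' h0 hr => ?_⟩
  obtain ⟨N, e, hb, g⟩ := flat_run (act w) c hc S (W + 1) hr 0 0 (by positivity) (by omega) h0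
  have it : ∀ i, (fun n => Pack.pack σ (flat σ (act w) (Pack.unpack σ n : ℕ × R)))^[i]
      (Pack.pack σ ((pr 0 (Pack.pack σ f0), ρ0) : ℕ × R)) =
      Pack.pack σ ((flat σ (act w))^[i] (pr 0 (Pack.pack σ f0), ρ0)) := by
    intro i
    induction i with
    | zero => rfl
    | succ i ih => rw [Function.iterate_succ_apply', ih, Pack.unpack_pack, Function.iterate_succ_apply']
  set E := (2 * c + 5) * (S + W + 1) with hE
  have hE1 : (2 * c + 4) * (W + 1) ≤ E := by rw [hE]; nlinarith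
  have hE2 : S ≤ E := by rw [hE]; nlinarith
  have hE3 : 1 ≤ E := by rw [hE]; nlinarith
  have hp : ∀ {a}, a ≤ E → 2 ^ a ≤ 2 ^ E := fun h => Nat.pow_le_pow_right (by norm_num) h
  obtain ⟨⟨V, hV, hV'⟩, j, b, hj, hb'⟩ := hT w N (E * c2) (by
      intro i hi
      rw [it, pow_mul]
      refine hc2 _ _ (by simpa using hp hE3) ?_
      rcases Nat.lt_or_ge i N with h | h
      · obtain ⟨_, g2, g3⟩ := g i h
        exact bd_prod.2 ⟨bd_nat.2 (g2.trans (hp hE1)), g3.mono (hp hE2)⟩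
      · obtain rfl : i = N := by omega
        rw [e]
        exact bd_prod.2 ⟨bd_nat.2 (by positivity), hb.mono (hp hE2)⟩)
    (by
      intro i hi
      rw [it, Pack.unpack_pack]; exact (g i hi).1)
    (by rw [it, Pack.unpack_pack, e])
  refine ⟨⟨V, hV.trans ?_, hV'⟩, j, b, hj, ?_⟩
  · rw [mul_assoc c1]
    refine Nat.mul_le_mul_left _ ?_
    rw [hE]; nlinarith
  · rw [hb', it, Pack.unpack_pack, e]

end Vale.Agent.P312
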