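import Vale.Agent.P312.Poly
import Vale.Agent.P312.Interp

namespace Vale.Agent.P312

structure Par where
  u : ℕ
  L : ℕ
  g : ℕ
  N : ℕ
  p : ℕ
  h : ℕ
  PN : ℕ
  HN : ℕ
  Z : ℕ
  ZB : ℕ
  b : ℕ
  o : ℕ
  T : ℕ

def Par.tup (x : Par) : ℕ × ℕ × ℕ × ℕ × ℕ × ℕ × ℕ × ℕ × ℕ × ℕ × ℕ × ℕ × ℕ := (x.u, x.L, x.g, x.N, x.p, x.h, x.PN, x.HN, x.Z, x.ZB, x.b, x.o, x.T)

instance instEncPar (σ : Type) : Enc σ Par := Enc.ofFun σ Par.tup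

section
variable {σ : Type} [Fintype σ] {X : Type} [Enc σ X]

theorem LS.tupPar : LS σ Par.tup := ⟨fun _ _ h => h, LSn.var (X := Par)⟩

@[fun_prop] theorem LS.Par_u {f : X → Par} (hf : LS σ f) : LS σ (fun x => (f x).u) := by
  have h : LS σ (fun y : ℕ × ℕ × ℕ × ℕ × ℕ × ℕ × ℕ × ℕ × ℕ × ℕ × ℕ × ℕ × ℕ => y.1) := by fun_prop
  have h2 := LS.comp h (LS.comp LS.tupPar hf)
  exact h2

@[fun_prop] theorem LS.Par_L {f : X → Par} (hf : LS σ f) : LS σ (fun x => (f x).L) := by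
  have h : LS σ (fun y : ℕ × ℕ × ℕ × ℕ × ℕ × ℕ × ℕ × ℕ × ℕ × ℕ × ℕ × ℕ × ℕ => y.2.1) := by fun_prop
  have h2 := LS.comp h (LS.comp LS.tupPar hf)
  exact h2

@[fun_prop] theorem LS.Par_g {f : X → Par} (hf : LS σ f) : LS σ (fun x => (f x).g) := by
  have h : LS σ (fun y : ℕ × ℕ × ℕ × ℕ × ℕ × ℕ × ℕ × ℕ × ℕ × ℕ × ℕ × ℕ × ℕ => y.2.2.1) := by fun_prop
  have h2 := LS.comp h (LS.comp LS.tupPar hf)
  exact h2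

@[fun_prop] theorem LS.Par_N {f : X → Par} (hf : LS σ f) : LS σ (fun x => (f x).N) := by
  have h : LS σ (fun y : ℕ × ℕ × ℕ × ℕ × ℕ × ℕ × ℕ × ℕ × ℕ × ℕ × ℕ × ℕ × ℕ => y.2.2.2.1) := by fun_prop
  have h2 := LS.comp h (LS.comp LS.tupPar hf)
  exact h2

@[fun_prop] theorem LS.Par_p {f : X → Par} (hf : LS σ f) : LS σ (fun x => (f x).p) := by
  have h : LS σ (fun y : ℕ × ℕ × ℕ × ℕ × ℕ × ℕ × ℕ × ℕ × ℕ × ℕ × ℕ × ℕ × ℕ => y.2.2.2.2.1) := by fun_prop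
  have h2 := LS.comp h (LS.comp LS.tupPar hf)
  exact h2

@[fun_prop] theorem LS.Par_h {f : X → Par} (hf : LS σ f) : LS σ (fun x => (f x).h) := by
  have h : LS σ (fun y : ℕ × ℕ × ℕ × ℕ × ℕ × ℕ × ℕ × ℕ × ℕ × ℕ × ℕ × ℕ × ℕ => y.2.2.2.2.2.1) := by fun_prop
  have h2 := LS.comp h (LS.comp LS.tupPar hf)
  exact h2

@[fun_prop] theorem LS.Par_PN {f : X → Par} (hf : LS σ f) : LS σ (fun x => (f x).PN) := by
  have h : LS σ (fun y : ℕ × ℕ × ℕ × ℕ × ℕ × ℕ × ℕ × ℕ × ℕ × ℕ × ℕ × ℕ × ℕ => y.2.2.2.2.2.2.1) := by fun_prop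
  have h2 := LS.comp h (LS.comp LS.tupPar hf)
  exact h2

@[fun_prop] theorem LS.Par_HN {f : X → Par} (hf : LS σ f) : LS σ (fun x => (f x).HN) := by
  have h : LS σ (fun y : ℕ × ℕ × ℕ × ℕ × ℕ × ℕ × ℕ × ℕ × ℕ × ℕ × ℕ × ℕ × ℕ => y.2.2.2.2.2.2.2.1) := by fun_prop
  have h2 := LS.comp h (LS.comp LS.tupPar hf)
  exact h2

@[fun_prop] theorem LS.Par_Z {f : X → Par} (hf : LS σ f) : LS σ (fun x => (f x).Z) := by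
  have h : LS σ (fun y : ℕ × ℕ × ℕ × ℕ × ℕ × ℕ × ℕ × ℕ × ℕ × ℕ × ℕ × ℕ × ℕ => y.2.2.2.2.2.2.2.2.1) := by fun_prop
  have h2 := LS.comp h (LS.comp LS.tupPar hf)
  exact h2

@[fun_prop] theorem LS.Par_ZB {f : X → Par} (hf : LS σ f) : LS σ (fun x => (f x).ZB) := by
  have h : LS σ (fun y : ℕ × ℕ × ℕ × ℕ × ℕ × ℕ × ℕ × ℕ × ℕ × ℕ × ℕ × ℕ × ℕ => y.2.2.2.2.2.2.2.2.2.1) := by fun_prop
  have h2 := LS.comp h (LS.comp LS.tupPar hf)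
  exact h2

@[fun_prop] theorem LS.Par_b {f : X → Par} (hf : LS σ f) : LS σ (fun x => (f x).b) := by
  have h : LS σ (fun y : ℕ × ℕ × ℕ × ℕ × ℕ × ℕ × ℕ × ℕ × ℕ × ℕ × ℕ × ℕ × ℕ => y.2.2.2.2.2.2.2.2.2.2.1) := by fun_prop
  have h2 := LS.comp h (LS.comp LS.tupPar hf)
  exact h2

@[fun_prop] theorem LS.Par_o {f : X → Par} (hf : LS σ f) : LS σ (fun x => (f x).o) := by
  have h : LS σ (fun y : ℕ × ℕ × ℕ × ℕ × ℕ × ℕ × ℕ × ℕ × ℕ × ℕ × ℕ × ℕ × ℕ => y.2.2.2.2.2.2.2.2.2.2.2.1) := by fun_prop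
  have h2 := LS.comp h (LS.comp LS.tupPar hf)
  exact h2

@[fun_prop] theorem LS.Par_T {f : X → Par} (hf : LS σ f) : LS σ (fun x => (f x).T) := by
  have h : LS σ (fun y : ℕ × ℕ × ℕ × ℕ × ℕ × ℕ × ℕ × ℕ × ℕ × ℕ × ℕ × ℕ × ℕ => y.2.2.2.2.2.2.2.2.2.2.2.2) := by fun_prop
  have h2 := LS.comp h (LS.comp LS.tupPar hf)
  exact h2

@[fun_prop] theorem LS.mkPar {a0 : X → ℕ} {a1 : X → ℕ} {a2 : X → ℕ} {a3 : X → ℕ} {a4 : X → ℕ} {a5 : X → ℕ} {a6 : X → ℕ} {a7 : X → ℕ} {a8 : X → ℕ} {a9 : X → ℕ} {a10 : X → ℕ} {a11 : X → ℕ} {a12 : X → ℕ}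
    (h0 : LS σ a0) (h1 : LS σ a1) (h2 : LS σ a2) (h3 : LS σ a3) (h4 : LS σ a4) (h5 : LS σ a5) (h6 : LS σ a6) (h7 : LS σ a7) (h8 : LS σ a8) (h9 : LS σ a9) (h10 : LS σ a10) (h11 : LS σ a11) (h12 : LS σ a12) :
    LS σ (fun x => Par.mk (a0 x) (a1 x) (a2 x) (a3 x) (a4 x) (a5 x) (a6 x) (a7 x) (a8 x) (a9 x) (a10 x) (a11 x) (a12 x)) := by
  have h : LS σ (fun x => (a0 x, a1 x, a2 x, a3 x, a4 x, a5 x, a6 x, a7 x, a8 x, a9 x, a10 x, a11 x, a12 x)) := by fun_prop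
  exact h

def Par.ofTup (y : ℕ × ℕ × ℕ × ℕ × ℕ × ℕ × ℕ × ℕ × ℕ × ℕ × ℕ × ℕ × ℕ) : Par := Par.mk (y.1) (y.2.1) (y.2.2.1) (y.2.2.2.1) (y.2.2.2.2.1) (y.2.2.2.2.2.1) (y.2.2.2.2.2.2.1) (y.2.2.2.2.2.2.2.1) (y.2.2.2.2.2.2.2.2.1) (y.2.2.2.2.2.2.2.2.2.1) (y.2.2.2.2.2.2.2.2.2.2.1) (y.2.2.2.2.2.2.2.2.2.2.2.1) (y.2.2.2.2.2.2.2.2.2.2.2.2)

instance instPackPar : Pack σ Par where
  pack := fun x => Pack.pack σ x.tup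
  unpack := fun n => Par.ofTup (Pack.unpack σ n)
  unpack_pack := fun x => by rw [Pack.unpack_pack]; rfl
  ls_pack := LS.pack LS.tupPar
  ls_unpack := by unfold Par.ofTup; fun_prop
  ok_all := fun w x => Pack.ok_all w x.tup

omit [Fintype σ] in
theorem bd_Par {M : ℕ} {x : Par} : Bd σ M x ↔ x.u ≤ M ∧ x.L ≤ M ∧ x.g ≤ M ∧ x.N ≤ M ∧ x.p ≤ M ∧ x.h ≤ M ∧ x.PN ≤ M ∧ x.HN ≤ M ∧ x.Z ≤ M ∧ x.ZB ≤ M ∧ x.b ≤ M ∧ x.o ≤ M ∧ x.T ≤ M := by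
  show Bd σ M x.tup ↔ _
  simp only [Par.tup, bd_prod, bd_nat]
end

structure Fr where
  pc : ℕ
  k : ℕ
  i : ℕ
  j : ℕ
  om : ℕ
  ga : ℕ
  r : ℕ
  pd : ℕ

def Fr.tup (x : Fr) : ℕ × ℕ × ℕ × ℕ × ℕ × ℕ × ℕ × ℕ := (x.pc, x.k, x.i, x.j, x.om, x.ga, x.r, x.pd)

instance instEncFr (σ : Type) : Enc σ Fr := Enc.ofFun σ Fr.tup

section
variable {σ : Type} [Fintype σ] {X : Type} [Enc σ X]

theorem LS.tupFr : LS σ Fr.tup := ⟨fun _ _ h => h, LSn.var (X := Fr)⟩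

@[fun_prop] theorem LS.Fr_pc {f : X → Fr} (hf : LS σ f) : LS σ (fun x => (f x).pc) := by
  have h : LS σ (fun y : ℕ × ℕ × ℕ × ℕ × ℕ × ℕ × ℕ × ℕ => y.1) := by fun_prop
  have h2 := LS.comp h (LS.comp LS.tupFr hf)
  exact h2

@[fun_prop] theorem LS.Fr_k {f : X → Fr} (hf : LS σ f) : LS σ (fun x => (f x).k) := by
  have h : LS σ (fun y : ℕ × ℕ × ℕ × ℕ × ℕ × ℕ × ℕ × ℕ => y.2.1) := by fun_prop
  have h2 := LS.comp h (LS.comp LS.tupFr hf)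
  exact h2

@[fun_prop] theorem LS.Fr_i {f : X → Fr} (hf : LS σ f) : LS σ (fun x => (f x).i) := by
  have h : LS σ (fun y : ℕ × ℕ × ℕ × ℕ × ℕ × ℕ × ℕ × ℕ => y.2.2.1) := by fun_prop
  have h2 := LS.comp h (LS.comp LS.tupFr hf)
  exact h2

@[fun_prop] theorem LS.Fr_j {f : X → Fr} (hf : LS σ f) : LS σ (fun x => (f x).j) := by
  have h : LS σ (fun y : ℕ × ℕ × ℕ × ℕ × ℕ × ℕ × ℕ × ℕ => y.2.2.2.1) := by fun_prop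
  have h2 := LS.comp h (LS.comp LS.tupFr hf)
  exact h2

@[fun_prop] theorem LS.Fr_om {f : X → Fr} (hf : LS σ f) : LS σ (fun x => (f x).om) := by
  have h : LS σ (fun y : ℕ × ℕ × ℕ × ℕ × ℕ × ℕ × ℕ × ℕ => y.2.2.2.2.1) := by fun_prop
  have h2 := LS.comp h (LS.comp LS.tupFr hf)
  exact h2

@[fun_prop] theorem LS.Fr_ga {f : X → Fr} (hf : LS σ f) : LS σ (fun x => (f x).ga) := by
  have h : LS σ (fun y : ℕ × ℕ × ℕ × ℕ × ℕ × ℕ × ℕ × ℕ => y.2.2.2.2.2.1) := by fun_prop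
  have h2 := LS.comp h (LS.comp LS.tupFr hf)
  exact h2

@[fun_prop] theorem LS.Fr_r {f : X → Fr} (hf : LS σ f) : LS σ (fun x => (f x).r) := by
  have h : LS σ (fun y : ℕ × ℕ × ℕ × ℕ × ℕ × ℕ × ℕ × ℕ => y.2.2.2.2.2.2.1) := by fun_prop
  have h2 := LS.comp h (LS.comp LS.tupFr hf)
  exact h2

@[fun_prop] theorem LS.Fr_pd {f : X → Fr} (hf : LS σ f) : LS σ (fun x => (f x).pd) := by
  have h : LS σ (fun y : ℕ × ℕ × ℕ × ℕ × ℕ × ℕ × ℕ × ℕ => y.2.2.2.2.2.2.2) := by fun_prop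
  have h2 := LS.comp h (LS.comp LS.tupFr hf)
  exact h2

@[fun_prop] theorem LS.mkFr {a0 : X → ℕ} {a1 : X → ℕ} {a2 : X → ℕ} {a3 : X → ℕ} {a4 : X → ℕ} {a5 : X → ℕ} {a6 : X → ℕ} {a7 : X → ℕ}
    (h0 : LS σ a0) (h1 : LS σ a1) (h2 : LS σ a2) (h3 : LS σ a3) (h4 : LS σ a4) (h5 : LS σ a5) (h6 : LS σ a6) (h7 : LS σ a7) :
    LS σ (fun x => Fr.mk (a0 x) (a1 x) (a2 x) (a3 x) (a4 x) (a5 x) (a6 x) (a7 x)) := by
  have h : LS σ (fun x => (a0 x, a1 x, a2 x, a3 x, a4 x, a5 x, a6 x, a7 x)) := by fun_prop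
  exact h

def Fr.ofTup (y : ℕ × ℕ × ℕ × ℕ × ℕ × ℕ × ℕ × ℕ) : Fr := Fr.mk (y.1) (y.2.1) (y.2.2.1) (y.2.2.2.1) (y.2.2.2.2.1) (y.2.2.2.2.2.1) (y.2.2.2.2.2.2.1) (y.2.2.2.2.2.2.2)

instance instPackFr : Pack σ Fr where
  pack := fun x => Pack.pack σ x.tup
  unpack := fun n => Fr.ofTup (Pack.unpack σ n)
  unpack_pack := fun x => by rw [Pack.unpack_pack]; rfl
  ls_pack := LS.pack LS.tupFr
  ls_unpack := by unfold Fr.ofTup; fun_prop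
  ok_all := fun w x => Pack.ok_all w x.tup

omit [Fintype σ] in
theorem bd_Fr {M : ℕ} {x : Fr} : Bd σ M x ↔ x.pc ≤ M ∧ x.k ≤ M ∧ x.i ≤ M ∧ x.j ≤ M ∧ x.om ≤ M ∧ x.ga ≤ M ∧ x.r ≤ M ∧ x.pd ≤ M := by
  show Bd σ M x.tup ↔ _
  simp only [Fr.tup, bd_prod, bd_nat]
end

structure Rg where
  κ : Par
  P : ℕ
  H : ℕ
  A : ℕ
  B : ℕ

def Rg.tup (x : Rg) : Par × ℕ × ℕ × ℕ × ℕ := (x.κ, x.P, x.H, x.A, x.B)

instance instEncRg (σ : Type) : Enc σ Rg := Enc.ofFun σ Rg.tup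

section
variable {σ : Type} [Fintype σ] {X : Type} [Enc σ X]

theorem LS.tupRg : LS σ Rg.tup := ⟨fun _ _ h => h, LSn.var (X := Rg)⟩

@[fun_prop] theorem LS.Rg_par {f : X → Rg} (hf : LS σ f) : LS σ (fun x => (f x).κ) := by
  have h : LS σ (fun y : Par × ℕ × ℕ × ℕ × ℕ => y.1) := by fun_prop
  have h2 := LS.comp h (LS.comp LS.tupRg hf)
  exact h2

@[fun_prop] theorem LS.Rg_P {f : X → Rg} (hf : LS σ f) : LS σ (fun x => (f x).P) := by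
  have h : LS σ (fun y : Par × ℕ × ℕ × ℕ × ℕ => y.2.1) := by fun_prop
  have h2 := LS.comp h (LS.comp LS.tupRg hf)
  exact h2

@[fun_prop] theorem LS.Rg_H {f : X → Rg} (hf : LS σ f) : LS σ (fun x => (f x).H) := by
  have h : LS σ (fun y : Par × ℕ × ℕ × ℕ × ℕ => y.2.2.1) := by fun_prop
  have h2 := LS.comp h (LS.comp LS.tupRg hf)
  exact h2

@[fun_prop] theorem LS.Rg_A {f : X → Rg} (hf : LS σ f) : LS σ (fun x => (f x).A) := by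
  have h : LS σ (fun y : Par × ℕ × ℕ × ℕ × ℕ => y.2.2.2.1) := by fun_prop
  have h2 := LS.comp h (LS.comp LS.tupRg hf)
  exact h2

@[fun_prop] theorem LS.Rg_B {f : X → Rg} (hf : LS σ f) : LS σ (fun x => (f x).B) := by
  have h : LS σ (fun y : Par × ℕ × ℕ × ℕ × ℕ => y.2.2.2.2) := by fun_prop
  have h2 := LS.comp h (LS.comp LS.tupRg hf)
  exact h2

@[fun_prop] theorem LS.mkRg {a0 : X → Par} {a1 : X → ℕ} {a2 : X → ℕ} {a3 : X → ℕ} {a4 : X → ℕ}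
    (h0 : LS σ a0) (h1 : LS σ a1) (h2 : LS σ a2) (h3 : LS σ a3) (h4 : LS σ a4) :
    LS σ (fun x => Rg.mk (a0 x) (a1 x) (a2 x) (a3 x) (a4 x)) := by
  have h : LS σ (fun x => (a0 x, a1 x, a2 x, a3 x, a4 x)) := by fun_prop
  exact h

def Rg.ofTup (y : Par × ℕ × ℕ × ℕ × ℕ) : Rg := Rg.mk (y.1) (y.2.1) (y.2.2.1) (y.2.2.2.1) (y.2.2.2.2)

instance instPackRg : Pack σ Rg where
  pack := fun x => Pack.pack σ x.tup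
  unpack := fun n => Rg.ofTup (Pack.unpack σ n)
  unpack_pack := fun x => by rw [Pack.unpack_pack]; rfl
  ls_pack := LS.pack LS.tupRg
  ls_unpack := by unfold Rg.ofTup; fun_prop
  ok_all := fun w x => Pack.ok_all w x.tup

omit [Fintype σ] in
theorem bd_Rg {M : ℕ} {x : Rg} : Bd σ M x ↔ Bd σ M x.κ ∧ x.P ≤ M ∧ x.H ≤ M ∧ x.A ≤ M ∧ x.B ≤ M := by
  show Bd σ M x.tup ↔ _
  simp only [Rg.tup, bd_prod, bd_nat]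
end

end Vale.Agent.P312
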