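import Mathlib

namespace Vale.Agent.P312

/-- A head move: one cell left, no move, or one cell right. -/
inductive Dir where
  | left | stay | right

/-- The displacement of a head on a two-way infinite tape. -/
def Dir.toInt : Dir → ℤ
  | .left => -1
  | .stay => 0
  | .right => 1

/-- A deterministic one-tape Turing machine with input alphabet `σ`: finite control `Q`,
finite tape alphabet `Γ` containing a blank and a copy of `σ`.  `out q = none` means that
`q` is a running state; `out q = some true` (`some false`) is an accepting (rejecting)
halting state. -/
structure OneTape (σ : Type) where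
  Q : Type
  Γ : Type
  finQ : Fintype Q
  finΓ : Fintype Γ
  blank : Γ
  inp : σ → Γ
  inp_injective : Function.Injective inp
  inp_ne_blank : ∀ a, inp a ≠ blank
  start : Q
  out : Q → Option Bool
  δ : Q → Γ → Q × Γ × Dir

/-- A configuration of a one-tape machine: state, two-way infinite tape, head position. -/
structure OneTape.Cfg {σ : Type} (M : OneTape σ) where
  q : M.Q
  tape : ℤ → M.Γ
  head : ℤ

/-- One step; a halted configuration stays as it is. -/
def OneTape.step {σ : Type} (M : OneTape σ) (c : M.Cfg) : M.Cfg :=
  match M.out c.q with
  | some _ => c
  | none =>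
    { q := (M.δ c.q (c.tape c.head)).1
      tape := Function.update c.tape c.head (M.δ c.q (c.tape c.head)).2.1
      head := c.head + (M.δ c.q (c.tape c.head)).2.2.toInt }

/-- The input is written on cells `0, …, n-1`, all other cells are blank, the head is on cell `0`. -/
def OneTape.startCfg {σ : Type} (M : OneTape σ) (w : List σ) : M.Cfg :=
  { q := M.start
    tape := fun i => if 0 ≤ i then
        (match w[i.toNat]? with
          | some a => M.inp a
          | none => M.blank) else M.blank
    head := 0 }

/-- `TIME₁[t]`: languages decided by a one-tape machine that halts within `t n` steps on every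
input of length `n`. -/
def TIME1 (σ : Type) (t : ℕ → ℕ) : Set (Set (List σ)) :=
  {L | ∃ M : OneTape σ, ∀ w : List σ, ∃ b : Bool,
    M.out (M.step^[t w.length] (M.startCfg w)).q = some b ∧ (b = true ↔ w ∈ L)}

/-- A deterministic multitape Turing machine with a read-only input tape and `k` two-way
infinite work tapes.  On the input tape it reads `some a` on an input symbol and `none` on an
end marker. -/
structure MultiTape (σ : Type) where
  k : ℕ
  Q : Type
  Γ : Type
  finQ : Fintype Q
  finΓ : Fintype Γ
  blank : Γ
  start : Q
  out : Q → Option Bool
  δ : Q → Option σ → (Fin k → Γ) → Q × Dir × (Fin k → Γ × Dir)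

/-- A configuration: state, input head position, work tapes, work head positions. -/
structure MultiTape.Cfg {σ : Type} (M : MultiTape σ) where
  q : M.Q
  ipos : ℕ
  tape : Fin M.k → ℤ → M.Γ
  head : Fin M.k → ℤ

/-- The input tape has cells `0, …, n+1`: end markers on `0` and `n+1`, the input in between. -/
def readInput {σ : Type} (w : List σ) (p : ℕ) : Option σ :=
  if p = 0 then none else w[p - 1]?

/-- The input head cannot leave the cells `0, …, n+1`. -/
def moveInput (n p : ℕ) : Dir → ℕ
  | .left => p - 1
  | .stay => p
  | .right => min (p + 1) (n + 1)

/-- One step on input `w`; a halted configuration stays as it is. -/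
def MultiTape.step {σ : Type} (M : MultiTape σ) (w : List σ) (c : M.Cfg) : M.Cfg :=
  match M.out c.q with
  | some _ => c
  | none =>
    let r := M.δ c.q (readInput w c.ipos) (fun i => c.tape i (c.head i))
    { q := r.1
      ipos := moveInput w.length c.ipos r.2.1
      tape := fun i => Function.update (c.tape i) (c.head i) (r.2.2 i).1
      head := fun i => c.head i + (r.2.2 i).2.toInt }

/-- Start state, input head on the left end marker, blank work tapes. -/
def MultiTape.startCfg {σ : Type} (M : MultiTape σ) : M.Cfg :=
  { q := M.start
    ipos := 0
    tape := fun _ _ => M.blank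
    head := fun _ => 0 }

/-- On input `w` the work heads only ever scan cells of a set of at most `s` work-tape cells. -/
def MultiTape.UsesSpace {σ : Type} (M : MultiTape σ) (w : List σ) (s : ℕ) : Prop :=
  ∃ V : Finset (Fin M.k × ℤ), V.card ≤ s ∧
    ∀ (j : ℕ) (i : Fin M.k), (i, ((M.step w)^[j] M.startCfg).head i) ∈ V

/-- `SPACE[s]`: languages decided (the machine halts on every input, with no time bound) by a
multitape machine that uses `O(s n)` work-tape cells on inputs of length `n`. -/
def SPACE (σ : Type) (s : ℕ → ℝ) : Set (Set (List σ)) :=
  {L | ∃ (M : MultiTape σ) (f : ℕ → ℕ),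
    Asymptotics.IsBigO Filter.atTop (fun n => (f n : ℝ)) s ∧
    ∀ w : List σ, M.UsesSpace w (f w.length) ∧ ∃ (j : ℕ) (b : Bool),
      M.out ((M.step w)^[j] M.startCfg).q = some b ∧ (b = true ↔ w ∈ L)}

end Vale.Agent.P312
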