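import Vale.Agent.P312.Comb

namespace Vale.Agent.P312

variable {σ : Type} [Fintype σ]

noncomputable def code (s : Option σ) : ℕ :=
  match s with
  | none => 0
  | some a => (Fintype.equivFin σ a : ℕ) + 1

theorem code_le (s : Option σ) : code s ≤ Fintype.card σ := by
  cases s with
  | none => simp [code]
  | some a => exact (Fintype.equivFin σ a).2

noncomputable def symAt (w : List σ) (p : ℕ) : ℕ := code w[p]?

omit [Fintype σ] in
theorem runs_rewind_loop (w : List σ) (B : ℕ) (x : ℕ → ℕ) (ip : ℕ) (h : ip ≤ w.length) :
    Runs (whileM 0 (fun _ s => s.isSome) (atom 0 (fun _ _ => .inL))) w B ⟨x, ip⟩ ⟨x, 0⟩ := by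
  induction ip with
  | zero => exact runs_while_done (by simp [readInput])
  | succ ip ih =>
    refine runs_while_step (c1 := ⟨x, ip⟩) ?_ ?_ (ih (by omega))
    · simp [readInput]; omega
    · exact runs_atom (c := ⟨x, ip + 1⟩) (f := fun _ _ => .inL) (le_max_right _ _)

def rewindM : Mach σ :=
  mseq (atom 0 (fun _ _ => .inL)) (whileM 0 (fun _ s => s.isSome) (atom 0 (fun _ _ => .inL)))

omit [Fintype σ] in
theorem runs_rewind (w : List σ) (B : ℕ) (x : ℕ → ℕ) (ip : ℕ) (h : ip ≤ w.length + 1) :
    Runs rewindM w B ⟨x, ip⟩ ⟨x, 0⟩ :=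
  runs_seq (c1 := ⟨x, ip - 1⟩) (runs_atom (c := ⟨x, ip⟩) (f := fun _ _ => .inL) (le_max_right _ _))
    (runs_rewind_loop w B x _ (by omega))

def inRM : Mach σ := atom 0 (fun _ _ => .inR)

omit [Fintype σ] in
theorem runs_inR (w : List σ) (B : ℕ) (x : ℕ → ℕ) (ip : ℕ) :
    Runs inRM w B ⟨x, ip⟩ ⟨x, min (ip + 1) (w.length + 1)⟩ :=
  runs_atom (c := ⟨x, ip⟩) (f := fun _ _ => .inR) (le_max_right _ _)

/-- Programs that do not touch the input head. -/
def NoIn (M : Mach σ) : Prop := ∀ l t s, (M.nx l t s).1 ≠ .inL ∧ (M.nx l t s).1 ≠ .inR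

omit [Fintype σ] in
theorem Exec.ip_eq {M : Mach σ} (hM : NoIn M) {w : List σ} {B : ℕ} {o : Option M.L} {c c' : MCfg}
    (e : Exec M w B o c c') : c'.ip = c.ip := by
  induction e with
  | done c => rfl
  | step l c c' _ _ ih =>
    rw [ih]
    have := hM l (top (c.vars (M.var l))) (readInput w c.ip)
    unfold Mach.next
    change (M.res w l c).1 ≠ _ ∧ (M.res w l c).1 ≠ _ at this
    revert this
    cases (M.res w l c).1 <;> simp [applyAct]

omit [Fintype σ] in
theorem NoIn.seq {M N : Mach σ} (h1 : NoIn M) (h2 : NoIn N) : NoIn (mseq M N) := by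
  rintro (l | l) t s
  · exact h1 l t s
  · exact h2 l t s

omit [Fintype σ] in
theorem NoIn.whileV {v : ℕ} {p : Option Bool → Bool} {M : Mach σ} (h : NoIn M) :
    NoIn (whileV v p M) := by
  rintro (_ | l) t s
  · simp [P312.whileV]
  · exact h l t s

omit [Fintype σ] in
theorem noIn_dec (v t : ℕ) : NoIn (decM v t : Mach σ) := by
  have hp : ∀ v, NoIn (popM v : Mach σ) := fun v l t s => by simp [popM]
  have hq : ∀ v b, NoIn (pushM v b : Mach σ) := fun v b l t s => by simp [pushM]
  exact ((hp _).seq (hq _ _)).whileV.seq ((hp _).seq ((hq _ _).seq ((hp _).seq (hq _ _)).whileV))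

omit [Fintype σ] in
theorem Hoare.runs {M : Mach σ} (hM : NoIn M) {w : List σ} {B : ℕ} {x y : ℕ → ℕ}
    (h : Hoare M w B x y) (ip : ℕ) (hip : ip ≤ w.length + 1) : Runs M w B ⟨x, ip⟩ ⟨y, ip⟩ := by
  obtain ⟨ip', _, r⟩ := h ip hip
  have : ip' = ip := Exec.ip_eq hM r
  rwa [this] at r

def walkM (k t : ℕ) : Mach σ := whileV k nz (mseq (decM k t) inRM)

omit [Fintype σ] in
theorem runs_walk {k t : ℕ} (hkt : k ≠ t) (w : List σ) (B : ℕ) (n : ℕ) :
    ∀ (x : ℕ → ℕ) (ip : ℕ), x k = n → x t = 0 → n ≤ B → ip ≤ w.length + 1 →
    Runs (walkM k t) w B ⟨x, ip⟩ ⟨Function.update x k 0, min (ip + n) (w.length + 1)⟩ := by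
  induction n with
  | zero =>
    intro x ip h1 _ _ h4
    have e1 : Function.update x k 0 = x := by rw [Function.update_eq_self_iff, h1]
    rw [e1, add_zero, min_eq_left h4]
    exact runs_while_done (by simp [nz_top, h1])
  | succ n ih =>
    intro x ip h1 h2 h3 h4
    have r1 := (hoare_dec (w := w) (B := B) hkt x h2 (by omega) (by omega)).runs (noIn_dec k t) ip h4
    have r2 := ih (Function.update x k (x k - 1)) (min (ip + 1) (w.length + 1)) (by simp [h1])
      (by simp [Function.update_of_ne hkt.symm, h2]) (by omega) (min_le_right _ _)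
    have e : min (min (ip + 1) (w.length + 1) + n) (w.length + 1) = min (ip + (n + 1)) (w.length + 1) := by
      omega
    rw [e, Function.update_idem] at r2
    exact runs_while_step (by simp [nz_top, h1]) (runs_seq r1 (runs_inR w B _ _)) r2

noncomputable def pushBits (v : ℕ) : ℕ → Mach σ
  | 0 => nopM
  | j + 1 => mseq (atom v (fun _ s => .push (decide (code s / 2 ^ j % 2 = 1)))) (pushBits v j)

theorem runs_pushBits (v : ℕ) (w : List σ) (B : ℕ) (hB : Fintype.card σ ≤ B) (ip : ℕ) (j : ℕ) :
    ∀ x : ℕ → ℕ, x v = code (readInput w ip) / 2 ^ j →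
    Runs (pushBits v j) w B ⟨x, ip⟩ ⟨Function.update x v (code (readInput w ip)), ip⟩ := by
  induction j with
  | zero =>
    intro x h
    have e1 : Function.update x v (code (readInput w ip)) = x := by
      rw [Function.update_eq_self_iff, h]; simp
    rw [e1]
    exact runs_atom (c := ⟨x, ip⟩) (f := fun _ _ => .nop) (le_max_right _ _)
  | succ j ih =>
    intro x h
    have e : 2 * x v + bitv (decide (code (readInput w ip) / 2 ^ j % 2 = 1)) =
        code (readInput w ip) / 2 ^ j := by
      rw [h, pow_succ, ← Nat.div_div_eq_div_mul]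
      by_cases h2 : code (readInput w ip) / 2 ^ j % 2 = 1 <;> simp [bitv, h2] <;> omega
    have r1 := runs_atom (v := v) (c := ⟨x, ip⟩) (w := w) (B := B)
      (f := fun _ s => .push (decide (code s / 2 ^ j % 2 = 1))) (by
        simp only [applyAct, Function.update_self, e]
        exact le_max_of_le_left (((Nat.div_le_self _ _).trans (code_le _)).trans hB))
    simp only [applyAct, e] at r1
    have r2 := ih (Function.update x v (code (readInput w ip) / 2 ^ j)) (by simp)
    rw [Function.update_idem] at r2
    exact runs_seq r1 r2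

noncomputable def symM (k t : ℕ) : Mach σ :=
  mseq rewindM (mseq inRM (mseq (walkM k t) (pushBits k (Fintype.card σ))))

theorem hoare_sym {k t : ℕ} (hkt : k ≠ t) (w : List σ) (B : ℕ) (hB : Fintype.card σ ≤ B)
    (x : ℕ → ℕ) (ht : x t = 0) (hk : x k ≤ B) :
    Hoare (symM k t) w B x (Function.update x k (symAt w (x k))) := by
  intro ip hip
  refine ⟨min (min (0 + 1) (w.length + 1) + x k) (w.length + 1), min_le_right _ _, ?_⟩
  have e : code (readInput w (min (min (0 + 1) (w.length + 1) + x k) (w.length + 1))) =
      symAt w (x k) := by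
    unfold symAt readInput
    rw [if_neg (by omega)]
    by_cases h : x k < w.length
    · congr 2; omega
    · rw [List.getElem?_eq_none (by omega), List.getElem?_eq_none (by omega)]
  have r := runs_pushBits k w B hB (min (min (0 + 1) (w.length + 1) + x k) (w.length + 1))
    (Fintype.card σ) (Function.update x k 0) (by
      rw [Function.update_self, eq_comm]
      exact Nat.div_eq_of_lt ((code_le _).trans_lt Nat.lt_two_pow_self))
  rw [e, Function.update_idem] at r
  exact runs_seq (runs_rewind w B x ip hip) (runs_seq (runs_inR w B x 0)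
    (runs_seq (runs_walk hkt w B (x k) x _ rfl ht hk (min_le_right _ _)) r))

/-! ### Expressions -/

inductive Exp where
  | var (i : ℕ)
  | zero
  | succ (e : Exp)
  | sym (e : Exp)
  | rc (n a b : Exp)

def cons (a : ℕ) (f : ℕ → ℕ) : ℕ → ℕ
  | 0 => a
  | i + 1 => f i

def prec (a : ℕ) (f : ℕ → ℕ → ℕ) : ℕ → ℕ
  | 0 => a
  | j + 1 => f j (prec a f j)

noncomputable def eval (w : List σ) : Exp → (ℕ → ℕ) → ℕ
  | .var i, env => env i
  | .zero, _ => 0
  | .succ e, env => eval w e env + 1
  | .sym e, env => symAt w (eval w e env)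
  | .rc n a b, env => prec (eval w a env) (fun j acc => eval w b (cons j (cons acc env))) (eval w n env)

def Ok (w : List σ) (B : ℕ) : Exp → (ℕ → ℕ) → Prop
  | .var i, env => env i ≤ B
  | .zero, _ => True
  | .succ e, env => Ok w B e env ∧ eval w e env + 1 ≤ B
  | .sym e, env => Ok w B e env ∧ Fintype.card σ ≤ B
  | .rc n a b, env => Ok w B n env ∧ Ok w B a env ∧ ∀ j < eval w n env,
      Ok w B b (cons j (cons (prec (eval w a env) (fun j acc => eval w b (cons j (cons acc env))) j) env))

theorem Ok.le {w : List σ} {B : ℕ} {e : Exp} : ∀ {env : ℕ → ℕ}, Ok w B e env → eval w e env ≤ B := by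
  induction e with
  | var i => intro env h; exact h
  | zero => intro env _; exact Nat.zero_le _
  | succ e _ => intro env h; exact h.2
  | sym e _ => intro env h; exact (code_le _).trans h.2
  | rc n a b _ iha ihb =>
    intro env h
    obtain ⟨_, h2, h3⟩ := h
    simp only [eval]
    rcases hn : eval w n env with _ | m
    · exact iha h2
    · exact ihb (h3 m (by omega))

theorem Ok.mono {w : List σ} {B B' : ℕ} (hB : B ≤ B') {e : Exp} :
    ∀ {env : ℕ → ℕ}, Ok w B e env → Ok w B' e env := by
  induction e with
  | var i => intro env h; exact le_trans h hB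
  | zero => intro env _; trivial
  | succ e ih => intro env h; exact ⟨ih h.1, h.2.trans hB⟩
  | sym e ih => intro env h; exact ⟨ih h.1, h.2.trans hB⟩
  | rc n a b ihn iha ihb => intro env h; exact ⟨ihn h.1, iha h.2.1, fun j hj => ihb (h.2.2 j hj)⟩

def rcBody (b : Mach σ) (k : ℕ) : Mach σ :=
  mseq b (mseq (clr k) (mseq (moveM (k + 3) k (k + 4)) (mseq (decM (k + 1) (k + 3)) (incM (k + 2) (k + 3)))))

noncomputable def compile : Exp → (ℕ → ℕ) → ℕ → Mach σ
  | .var i, ρ, k => copyM (ρ i) k (k + 1) (k + 2)
  | .zero, _, _ => nopM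
  | .succ e, ρ, k => mseq (compile e ρ k) (incM k (k + 1))
  | .sym e, ρ, k => mseq (compile e ρ k) (symM k (k + 1))
  | .rc n a b, ρ, k => mseq (compile a ρ k) (mseq (compile n ρ (k + 1))
      (mseq (whileV (k + 1) nz (rcBody (compile b (cons (k + 2) (cons k ρ)) (k + 3)) k)) (clr (k + 2))))

theorem hoare_compile (w : List σ) (B : ℕ) (e : Exp) : ∀ (ρ : ℕ → ℕ) (k : ℕ) (x : ℕ → ℕ),
    (∀ i, ρ i < k) → (∀ j, k ≤ j → x j = 0) → Ok w B e (fun i => x (ρ i)) →
    Hoare (compile e ρ k) w B x (Function.update x k (eval w e (fun i => x (ρ i)))) := by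
  induction e with
  | var i =>
    intro ρ k x hρ hz hok
    have := hρ i
    refine (hoare_copy (by omega) (by omega) (by omega) (by omega) (by omega) (by omega) x
      (hz _ (by omega)) (hz _ (by omega)) ?_).cast ?_
    · rw [hz k le_rfl, zero_add]; exact hok
    · rw [hz k le_rfl, zero_add]; rfl
  | zero =>
    intro ρ k x _ hz _
    refine hoare_nop.cast ?_
    rw [eq_comm, Function.update_eq_self_iff, hz k le_rfl]; rfl
  | succ e ih =>
    intro ρ k x hρ hz hok
    refine Hoare.seq (ih ρ k x hρ hz hok.1) ((hoare_inc (by omega) _ ?_ ?_).cast ?_)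
    · rw [Function.update_of_ne (by omega)]; exact hz _ (by omega)
    · rw [Function.update_self]; exact hok.2
    · simp [eval]
  | sym e ih =>
    intro ρ k x hρ hz hok
    refine Hoare.seq (ih ρ k x hρ hz hok.1) ((hoare_sym (by omega) w B hok.2 _ ?_ ?_).cast ?_)
    · rw [Function.update_of_ne (by omega)]; exact hz _ (by omega)
    · rw [Function.update_self]; exact hok.1.le
    · simp [eval]
  | rc n a b ihn iha ihb =>
    intro ρ k x hρ hz hok
    obtain ⟨hn, ha, hb⟩ := hok
    set env : ℕ → ℕ := fun i => x (ρ i) with henv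
    set N := eval w n env with hN
    set val : ℕ → ℕ := prec (eval w a env) (fun j acc => eval w b (cons j (cons acc env))) with hval
    have hNB : N ≤ B := hn.le
    let st : ℕ → ℕ → ℕ := fun j i =>
      if i = k then val j else if i = k + 1 then N - j else if i = k + 2 then j else x i
    have loop : ∀ m j, j + m = N → Hoare (whileV (k + 1) nz
        (rcBody (compile b (cons (k + 2) (cons k ρ)) (k + 3)) k)) w B (st j) (st N) := by
      intro m
      induction m with
      | zero =>
        intro j hj
        obtain rfl : j = N := by omega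
        exact Hoare.while_done (by simp [nz_top, st])
      | succ m ihm =>
        intro j hj
        refine Hoare.while_step (by simp [nz_top, st]; omega) ?_ (ihm (j + 1) (by omega))
        have henv' : (fun i => st j (cons (k + 2) (cons k ρ) i)) = cons j (cons (val j) env) := by
          funext i
          rcases i with _ | _ | i
          · simp [cons, st]
          · simp [cons, st]
          · have := hρ i
            simp only [cons, st, henv]
            rw [if_neg (by omega), if_neg (by omega), if_neg (by omega)]
        have okb := hb j (by omega)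
        have s1 := ihb (cons (k + 2) (cons k ρ)) (k + 3) (st j)
          (by
            intro i
            rcases i with _ | _ | i
            · simp [cons]
            · simp [cons]
            · have := hρ i
              simp only [cons]; omega)
          (by
            intro i hi
            simp only [st]
            rw [if_neg (by omega), if_neg (by omega), if_neg (by omega)]
            exact hz i (by omega))
          (by rw [henv']; exact okb)
        rw [henv'] at s1
        have hv : eval w b (cons j (cons (val j) env)) = val (j + 1) := rfl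
        rw [hv] at s1
        have hvB : val (j + 1) ≤ B := by rw [← hv]; exact okb.le
        have z3 := hz (k + 3) (by omega)
        have z4 := hz (k + 4) (by omega)
        refine Hoare.seq s1 (Hoare.seq (hoare_clr _) (Hoare.seq
          (hoare_move (by omega) (by omega) (by omega) (val (j + 1)) _ ?_ ?_ ?_)
          (Hoare.seq (hoare_dec (by omega) _ ?_ ?_ ?_) ((hoare_inc (by omega) _ ?_ ?_).cast ?_))))
        · simp
        · simp [st, z4]
        · simpa using hvB
        · simp
        · simp [st]; omega
        · simp [st]; omega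
        · simp
        · simp [st]; omega
        · funext i
          simp only [Function.update_apply, st]
          split_ifs <;> first | omega | simp_all
    have s0 := iha ρ k x hρ hz ha
    have henv1 : (fun i => Function.update x k (eval w a env) (ρ i)) = env := by
      funext i
      have := hρ i
      rw [Function.update_of_ne (by omega)]
    have s1 := ihn ρ (k + 1) (Function.update x k (eval w a env))
      (fun i => (hρ i).trans (by omega))
      (by
        intro j hj
        rw [Function.update_of_ne (by omega)]; exact hz j (by omega))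
      (by rw [henv1]; exact hn)
    rw [henv1] at s1
    have z1 := hz (k + 1) (by omega)
    have z2 := hz (k + 2) (by omega)
    have e0 : Function.update (Function.update x k (eval w a env)) (k + 1) N = st 0 := by
      funext i
      simp only [Function.update_apply, st]
      split_ifs <;> first | omega | simp_all [prec]
    refine Hoare.seq s0 (Hoare.seq (s1.cast e0) (Hoare.seq (loop N 0 (by omega))
      ((hoare_clr _).cast ?_)))
    funext i
    simp only [Function.update_apply, st]
    split_ifs <;> first | omega | simp_all [eval]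

end Vale.Agent.P312
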