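import Vale.Agent.P312.BlockSpec

namespace Vale.Agent.P312

variable {σ : Type}

def EB (L k x : ℕ) : Prop := x ≤ 2 ^ (k * L)

theorem EB.mul {L a b x y : ℕ} (h1 : EB L a x) (h2 : EB L b y) : EB L (a + b) (x * y) := by
  unfold EB at *
  rw [add_mul, pow_add]; exact Nat.mul_le_mul h1 h2

theorem EB.mono {L a b x : ℕ} (h1 : EB L a x) (h : a ≤ b) : EB L b x :=
  le_trans h1 (Nat.pow_le_pow_right (by norm_num) (Nat.mul_le_mul_right _ h))

theorem EB.add {L a x y : ℕ} (hL : 1 ≤ L) (h1 : EB L a x) (h2 : EB L a y) : EB L (a + 1) (x + y) := by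
  unfold EB at *
  have : 2 ^ (a * L + 1) ≤ 2 ^ ((a + 1) * L) := Nat.pow_le_pow_right (by norm_num) (by nlinarith)
  rw [pow_succ] at this; omega

theorem EB.const {L : ℕ} (hL : 1 ≤ L) (c : ℕ) : EB L c c :=
  Nat.lt_two_pow_self.le.trans (Nat.pow_le_pow_right (by norm_num) (Nat.le_mul_of_pos_right _ hL))

theorem EB.of_le {L a x y : ℕ} (h : EB L a y) (hx : x ≤ y) : EB L a x := hx.trans h

theorem lim_of_le (S : Sys σ) {u u0 : ℕ} (h1 : 1 ≤ u) (h2 : u ≤ u0) :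
    S.Lim u ((S.α + 40) * Nat.size u0) ((S.α + 40) * Nat.size u0 * u0)
      ((u0 * u0 + 1) * ((S.α + 40) * Nat.size u0))
      ((u0 + 1) * (2 * ((S.α + 40) * Nat.size u0 * u0) + 2 +
        (2 * u0 + 1) * ((S.α + 40) * Nat.size u0 + 1)) + (S.α + 40) * Nat.size u0 + 1) := by
  set L0 := Nat.size u0 with hL0
  have hL : 1 ≤ L0 := Nat.size_pos.2 (by omega)
  have hs : Nat.size u ≤ L0 := Nat.size_le_size h2
  have eu : EB L0 1 u := by
    unfold EB; rw [one_mul]; exact h2.trans (Nat.lt_size_self u0).le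
  have eL : EB L0 1 (Nat.size u) := eu.of_le (Nat.size_le.2 Nat.lt_two_pow_self)
  have eh : EB L0 S.α (hOf S.α u) := by
    unfold EB
    rw [hOf_eq, pow_mul]
    exact (Nat.pow_le_pow_left Nat.lt_two_pow_self.le _).trans (Nat.pow_le_pow_right (by positivity) hs)
  have eN : EB L0 2 (u * u) := eu.mul eu
  have eg : EB L0 2 (u * Nat.size u) := eu.mul eL
  have eZ : EB L0 (S.α + 7) (S.α * (2 * (u * u * (u * Nat.size u)) + 3)) :=
    (EB.const hL _).mul (EB.add hL ((EB.const hL 2).mul (eN.mul eg)) ((EB.const hL 3).mono (by omega)))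
  have ep : EB L0 (S.α + 10) (setup S.α u).p := by
    have h3 := (nextPrime_spec
      (n := u * Nat.size u * (2 * (u * u) * hOf S.α u) + hOf S.α u + 2) (by omega)).2.2
    have h4 : EB L0 (2 + (4 + S.α)) (u * Nat.size u * (2 * (u * u) * hOf S.α u)) :=
      eg.mul (((EB.const hL 2).mul eN).mul eh)
    have h5 := EB.add hL (EB.add hL h4 (eh.mono (by omega))) ((EB.const hL 2).mono (by omega))
    exact (((EB.const hL 2).mul h5).mono (by omega)).of_le h3
  have eb : EB L0 3 (u * u * Nat.size u) := eN.mul eL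
  have eT : EB L0 7 (u * u * (u * Nat.size u) * (u * u * Nat.size u)) := (eN.mul eg).mul eb
  have up : ∀ {a x}, EB L0 a x → a ≤ S.α + 40 → x ≤ 2 ^ ((u0 * u0 + 1) * ((S.α + 40) * L0)) := by
    intro a x h ha
    exact le_trans (h.mono ha) (Nat.pow_le_pow_right (by norm_num) (Nat.le_mul_of_pos_left _ (by omega)))
  have upN : ∀ {a x n}, EB L0 a x → a ≤ S.α + 40 → n ≤ u * u + 1 →
      x ^ n ≤ 2 ^ ((u0 * u0 + 1) * ((S.α + 40) * L0)) := by
    intro a x n h ha hn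
    have h3 : n ≤ u0 * u0 + 1 := hn.trans (by nlinarith)
    rw [mul_comm, pow_mul]
    exact (Nat.pow_le_pow_left (h.mono ha) _).trans (Nat.pow_le_pow_right (by positivity) h3)
  refine ⟨h1, ?_, ?_, Nat.le_mul_of_pos_right _ (by omega), ?_, ?_⟩
  · have := EB.add hL (EB.add hL (EB.add hL (EB.add hL (EB.add hL
      ((EB.const hL 30).mono (show 30 ≤ S.α + 30 by omega)) (eu.mono (by omega))) (eN.mono (by omega)))
      (eZ.mono (by omega))) (ep.mono (by omega))) (eg.mono (by omega))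
    exact this.mono (by omega)
  · rw [pow_mul]
    exact (Nat.pow_le_pow_left (eh.mono (by omega)) _).trans (Nat.pow_le_pow_right (by positivity) h2)
  · rw [bd_Par]
    exact ⟨up eu (by omega), up eL (by omega), up eg (by omega), up eN (by omega), up ep (by omega),
      up eh (by omega), upN ep (by omega) (by omega), upN eh (by omega) (by omega), up eZ (by omega),
      upN eZ (by omega) le_rfl, up eb (by omega), up eb (by omega), up eT (by omega)⟩
  · gcongr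

theorem exists_u (t : ℕ) : ∃ u, 1 ≤ u ∧ t < u * u * (u * Nat.size u) * (u * u * Nat.size u) := by
  refine ⟨t + 1, by omega, ?_⟩
  have h1 : 1 ≤ Nat.size (t + 1) := Nat.size_pos.2 (by omega)
  have h2 : 0 < (t + 1) * ((t + 1) * Nat.size (t + 1)) * ((t + 1) * (t + 1) * Nat.size (t + 1)) := by
    positivity
  calc t < (t + 1) * 1 := by omega
    _ ≤ (t + 1) * ((t + 1) * ((t + 1) * Nat.size (t + 1)) * ((t + 1) * (t + 1) * Nat.size (t + 1))) :=
      Nat.mul_le_mul_left _ h2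
    _ = _ := by ring

open Classical in
noncomputable def uOf (t : ℕ) : ℕ := Nat.find (exists_u t)

theorem uOf_spec (t : ℕ) : 1 ≤ uOf t ∧
    t < uOf t * uOf t * (uOf t * Nat.size (uOf t)) * (uOf t * uOf t * Nat.size (uOf t)) :=
  Nat.find_spec (exists_u t)

theorem uOf_bound {t : ℕ} (ht : 1 ≤ t) :
    (uOf t * uOf t * Nat.size (uOf t)) ^ 5 ≤ 128 ^ 2 * t ^ 2 * (Nat.size t + 1) := by
  obtain ⟨h1, _⟩ := uOf_spec t
  rcases Nat.eq_or_lt_of_le h1 with h | h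
  · rw [← h]
    have : 0 < 128 ^ 2 * t ^ 2 * (Nat.size t + 1) := by positivity
    rw [Nat.size_one]
    exact this
  · obtain ⟨u, hu⟩ : ∃ u, uOf t = u + 1 := ⟨uOf t - 1, by omega⟩
    have hmin := Nat.find_min (exists_u t) (m := u) (by change u < uOf t; omega)
    push Not at hmin
    have hu1 : 1 ≤ u := by omega
    have h2 := hmin hu1
    have hs : 1 ≤ Nat.size u := Nat.size_pos.2 hu1
    have h3 : Nat.size (u + 1) ≤ Nat.size u + 1 := by
      rw [Nat.size_le, pow_succ]; have := Nat.lt_size_self u; omega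
    have h4 : u ≤ t := by
      refine le_trans ?_ h2
      have : 0 < u * (u * Nat.size u) * (u * u * Nat.size u) := by positivity
      calc u = u * 1 := by ring
        _ ≤ u * (u * (u * Nat.size u) * (u * u * Nat.size u)) := Nat.mul_le_mul_left _ this
        _ = _ := by ring
    have h5 : Nat.size (u + 1) ≤ Nat.size t + 1 := h3.trans (by have := Nat.size_le_size h4; omega)
    have h6 : (u + 1) ^ 5 * Nat.size (u + 1) ^ 2 ≤ 128 * t := by
      calc (u + 1) ^ 5 * Nat.size (u + 1) ^ 2 ≤ (2 * u) ^ 5 * (2 * Nat.size u) ^ 2 := by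
            gcongr <;> omega
        _ = 128 * (u * u * (u * Nat.size u) * (u * u * Nat.size u)) := by ring
        _ ≤ 128 * t := Nat.mul_le_mul_left _ h2
    rw [hu]
    calc ((u + 1) * (u + 1) * Nat.size (u + 1)) ^ 5
        = ((u + 1) ^ 5 * Nat.size (u + 1) ^ 2) ^ 2 * Nat.size (u + 1) := by ring
      _ ≤ (128 * t) ^ 2 * (Nat.size t + 1) := by gcongr
      _ = _ := by ring

theorem size_le_log {t : ℕ} (ht : 1 ≤ t) : ((Nat.size t + 1 : ℕ) : ℝ) ≤ 5 * Real.log (t + 2) := by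
  obtain ⟨s, hs⟩ : ∃ s, Nat.size t = s + 1 := ⟨Nat.size t - 1, by have := Nat.size_pos.2 ht; omega⟩
  have h1 : 2 ^ s ≤ t := Nat.lt_size.1 (by omega)
  have h2 : (s : ℝ) * Real.log 2 ≤ Real.log (t + 2) := by
    rw [← Real.log_pow]
    refine Real.log_le_log (by positivity) ?_
    have : ((2 ^ s : ℕ) : ℝ) ≤ t := by exact_mod_cast h1
    push_cast at this; linarith
  have h3 : Real.log 2 ≤ Real.log (t + 2) :=
    Real.log_le_log (by norm_num) (by have : (0 : ℝ) ≤ t := by positivity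
                                      linarith)
  have h4 := Real.log_two_gt_d9
  rw [hs]; push_cast
  have h5 : (0 : ℝ) ≤ s := by positivity
  nlinarith

theorem uOf_real {t : ℕ} (ht : 1 ≤ t) : ((uOf t * uOf t * Nat.size (uOf t) : ℕ) : ℝ) ≤
    10 * ((t : ℝ) ^ (2 / 5 : ℝ) * Real.log (t + 2) ^ (1 / 5 : ℝ)) := by
  have hl : 0 ≤ Real.log ((t : ℝ) + 2) := Real.log_nonneg (by have : (0 : ℝ) ≤ t := by positivity
                                                              linarith)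
  have ht0 : (0 : ℝ) ≤ t := by positivity
  refine le_of_pow_le_pow_left₀ (n := 5) (by norm_num) (by positivity) ?_
  have e1 : ((t : ℝ) ^ (2 / 5 : ℝ)) ^ 5 = (t : ℝ) ^ 2 := by
    rw [← Real.rpow_natCast, ← Real.rpow_mul ht0]; norm_num
  have e2 : (Real.log ((t : ℝ) + 2) ^ (1 / 5 : ℝ)) ^ 5 = Real.log ((t : ℝ) + 2) := by
    rw [← Real.rpow_natCast, ← Real.rpow_mul hl]; norm_num
  rw [mul_pow, mul_pow, e1, e2]
  have h1 : (((uOf t * uOf t * Nat.size (uOf t)) ^ 5 : ℕ) : ℝ) ≤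
      ((128 ^ 2 * t ^ 2 * (Nat.size t + 1) : ℕ) : ℝ) := by exact_mod_cast uOf_bound ht
  have h2 := size_le_log ht
  rw [Nat.cast_pow] at h1
  refine h1.trans ?_
  rw [Nat.cast_mul, Nat.cast_mul]
  calc ((128 ^ 2 : ℕ) : ℝ) * ((t ^ 2 : ℕ) : ℝ) * ((Nat.size t + 1 : ℕ) : ℝ)
      ≤ ((128 ^ 2 : ℕ) : ℝ) * ((t ^ 2 : ℕ) : ℝ) * (5 * Real.log (t + 2)) := by gcongr
    _ = 81920 * ((t : ℝ) ^ 2 * Real.log (t + 2)) := by push_cast; ring
    _ ≤ _ := by gcongr; norm_num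

theorem space_total (α u : ℕ) (hu : 1 ≤ u) :
    (u * u + 1) * ((α + 40) * Nat.size u) +
      ((u + 1) * (2 * ((α + 40) * Nat.size u * u) + 2 + (2 * u + 1) * ((α + 40) * Nat.size u + 1)) +
        (α + 40) * Nat.size u + 1) + 1 ≤ 30 * (α + 40) * (u * u * Nat.size u) := by
  have hs : 1 ≤ Nat.size u := Nat.size_pos.2 hu
  set l := (α + 40) * Nat.size u with hl
  have hl1 : 1 ≤ l := by rw [hl]; nlinarith
  have e : 30 * (α + 40) * (u * u * Nat.size u) = 30 * (u * u * l) := by rw [hl]; ring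
  rw [e]
  have h1 : 1 ≤ u * u := Nat.mul_pos hu hu
  have h2 : (u * u + 1) * l ≤ (2 * (u * u)) * l := Nat.mul_le_mul_right _ (by omega)
  have h3 : (u + 1) * (2 * (l * u) + 2 + (2 * u + 1) * (l + 1)) ≤
      (2 * u) * (2 * (l * u) + 2 * (l * u) + (3 * u) * (2 * l)) := by
    have : 1 ≤ l * u := Nat.mul_pos hl1 hu
    gcongr <;> omega
  have h4 : l ≤ u * u * l := Nat.le_mul_of_pos_left _ h1
  nlinarith

theorem main_bound [Fintype σ] (t : ℕ → ℕ) (ht : ∀ n, n ≤ t n) :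
    TIME1 σ t ⊆ SPACE σ (fun n => (t n : ℝ) ^ (2 / 5 : ℝ) * Real.log (t n + 2) ^ (1 / 5 : ℝ)) := by
  rintro L ⟨M, hM⟩
  have : Fact M.sys.IsLS := ⟨M.sys_isLS⟩
  obtain ⟨T, c, hT⟩ := exists_tm_run (σ := σ) M.sys.act (fun ρ : Rg => ρ.A) (fT 20 1 0)
    ⟨⟨0, 0, 0, 0, 0, 0, 0, 0, 0, 0, 0, 0, 0⟩, 0, 0, 0, 0⟩ ls_act (by fun_prop)
  refine ⟨T, fun n => c * (30 * (M.al + 40) * (uOf (t n) * uOf (t n) * Nat.size (uOf (t n)))), ?_, ?_⟩
  · refine Asymptotics.IsBigO.of_bound (c * (30 * (M.al + 40)) * 10) ?_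
    filter_upwards [Filter.eventually_ge_atTop 1] with n hn
    have h1 := uOf_real (hn.trans (ht n))
    have hl : 0 ≤ Real.log ((t n : ℝ) + 2) := Real.log_nonneg (by
      have : (0 : ℝ) ≤ t n := by positivity
      linarith)
    rw [Real.norm_of_nonneg (by positivity), Real.norm_of_nonneg (by positivity), Nat.cast_mul,
      Nat.cast_mul]
    calc _ ≤ (c : ℝ) * (((30 * (M.al + 40) : ℕ) : ℝ) *
          (10 * ((t n : ℝ) ^ (2 / 5 : ℝ) * Real.log (t n + 2) ^ (1 / 5 : ℝ)))) := by gcongr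
      _ = _ := by push_cast; ring
  · intro w
    obtain ⟨b, hb1, hb2⟩ := hM w
    obtain ⟨u1, u2⟩ := uOf_spec (t w.length)
    set u0 := uOf (t w.length) with hu0
    obtain ⟨ρ', r1, r2⟩ := Sys.top_run M.sys w (w ∈ L) u0 _ _ _ _
      (fun u h1 h2 => lim_of_le M.sys h1 h2)
      (fun u _ o ho hv => (OneTape.verdict_sound hb1 ho hv).trans hb2)
      (OneTape.verdict_complete hb1 u1 u2) (u0 - 1) 1 (by omega) le_rfl
      ⟨⟨0, 0, 0, 0, 0, 0, 0, 0, 0, 0, 0, 0, 0⟩, 0, 0, 0, 0⟩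
    obtain ⟨⟨V, hV, hV'⟩, j, b', hj, hb'⟩ := hT w _ _ ρ' (by simp [bd_Rg, bd_Par]) r1
    exact ⟨⟨V, hV.trans (Nat.mul_le_mul_left _ (space_total _ _ u1)), hV'⟩, j, b', hj, hb'.trans r2⟩

theorem SPACE_mono {s s' : ℕ → ℝ} (h : Asymptotics.IsBigO Filter.atTop s s') : SPACE σ s ⊆ SPACE σ s' := by
  rintro L ⟨M, f, h1, h2⟩
  exact ⟨M, f, h1.trans h, h2⟩

theorem exponent_bound [Fintype σ] {e : ℝ} (he : 2 / 5 < e) (t : ℕ → ℕ) (ht : ∀ n, n ≤ t n) :
    TIME1 σ t ⊆ SPACE σ (fun n => (t n : ℝ) ^ e) := by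
  refine (main_bound t ht).trans (SPACE_mono ?_)
  set ε := 5 * (e - 2 / 5) with hε
  have hε0 : 0 < ε := by rw [hε]; linarith
  refine Asymptotics.IsBigO.of_bound ((3 ^ ε / ε) ^ (1 / 5 : ℝ)) ?_
  filter_upwards [Filter.eventually_ge_atTop 1] with n hn
  have h1 : (1 : ℝ) ≤ t n := by exact_mod_cast hn.trans (ht n)
  have hl : 0 ≤ Real.log ((t n : ℝ) + 2) := Real.log_nonneg (by linarith)
  rw [Real.norm_of_nonneg (by positivity), Real.norm_of_nonneg (by positivity)]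
  have h2 : Real.log ((t n : ℝ) + 2) ≤ 3 ^ ε / ε * (t n : ℝ) ^ ε := by
    calc Real.log ((t n : ℝ) + 2) ≤ ((t n : ℝ) + 2) ^ ε / ε := Real.log_le_rpow_div (by linarith) hε0
      _ ≤ (3 * (t n : ℝ)) ^ ε / ε := by gcongr; linarith
      _ = _ := by rw [Real.mul_rpow (by norm_num) (by linarith)]; ring
  have h3 : Real.log ((t n : ℝ) + 2) ^ (1 / 5 : ℝ) ≤ (3 ^ ε / ε) ^ (1 / 5 : ℝ) * (t n : ℝ) ^ (e - 2 / 5) := by
    calc _ ≤ (3 ^ ε / ε * (t n : ℝ) ^ ε) ^ (1 / 5 : ℝ) := by gcongr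
      _ = _ := by
        rw [Real.mul_rpow (by positivity) (by positivity), ← Real.rpow_mul (by linarith)]
        congr 2; rw [hε]; ring
  calc _ ≤ (t n : ℝ) ^ (2 / 5 : ℝ) * ((3 ^ ε / ε) ^ (1 / 5 : ℝ) * (t n : ℝ) ^ (e - 2 / 5)) := by gcongr
    _ = (3 ^ ε / ε) ^ (1 / 5 : ℝ) * ((t n : ℝ) ^ (2 / 5 : ℝ) * (t n : ℝ) ^ (e - 2 / 5)) := by ring
    _ = _ := by rw [← Real.rpow_add (by linarith)]; congr 2; ring

end Vale.Agent.P312
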