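import Vale.Agent.P312.Exp

namespace Vale.Agent.P312

/-! ### Renaming and substitution -/

def lift2 (r : ℕ → ℕ) : ℕ → ℕ := cons 0 (cons 1 (fun i => r i + 2))

def rename : Exp → (ℕ → ℕ) → Exp
  | .var i, r => .var (r i)
  | .zero, _ => .zero
  | .succ e, r => .succ (rename e r)
  | .sym e, r => .sym (rename e r)
  | .rc n a b, r => .rc (rename n r) (rename a r) (rename b (lift2 r))

variable {σ : Type} [Fintype σ]

theorem cons_lift2 (j a : ℕ) (env r : ℕ → ℕ) :
    (fun i => cons j (cons a env) (lift2 r i)) = cons j (cons a (fun i => env (r i))) := by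
  funext i
  rcases i with _ | _ | i <;> rfl

theorem eval_rename (w : List σ) (e : Exp) : ∀ (r env : ℕ → ℕ),
    eval w (rename e r) env = eval w e (fun i => env (r i)) := by
  induction e with
  | var i => intro r env; rfl
  | zero => intro r env; rfl
  | succ e ih => intro r env; simp [rename, eval, ih]
  | sym e ih => intro r env; simp [rename, eval, ih]
  | rc n a b ihn iha ihb => intro r env; simp [rename, eval, ihn, iha, ihb, cons_lift2]

theorem ok_rename (w : List σ) (B : ℕ) (e : Exp) : ∀ (r env : ℕ → ℕ),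
    Ok w B e (fun i => env (r i)) → Ok w B (rename e r) env := by
  induction e with
  | var i => intro r env h; exact h
  | zero => intro r env _; trivial
  | succ e ih => intro r env h; exact ⟨ih _ _ h.1, by rw [eval_rename]; exact h.2⟩
  | sym e ih => intro r env h; exact ⟨ih _ _ h.1, h.2⟩
  | rc n a b ihn iha ihb =>
    intro r env h
    refine ⟨ihn _ _ h.1, iha _ _ h.2.1, fun j hj => ihb _ _ ?_⟩
    rw [eval_rename] at hj
    simpa [eval_rename, cons_lift2] using h.2.2 j hj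

def up2 (s : ℕ → Exp) : ℕ → Exp
  | 0 => .var 0
  | 1 => .var 1
  | i + 2 => rename (s i) (fun i => i + 2)

def subst : Exp → (ℕ → Exp) → Exp
  | .var i, s => s i
  | .zero, _ => .zero
  | .succ e, s => .succ (subst e s)
  | .sym e, s => .sym (subst e s)
  | .rc n a b, s => .rc (subst n s) (subst a s) (subst b (up2 s))

theorem eval_up2 (w : List σ) (j a : ℕ) (env : ℕ → ℕ) (s : ℕ → Exp) :
    (fun i => eval w (up2 s i) (cons j (cons a env))) = cons j (cons a (fun i => eval w (s i) env)) := by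
  funext i
  rcases i with _ | _ | i
  · rfl
  · rfl
  · simp only [up2, eval_rename]; rfl

theorem eval_subst (w : List σ) (e : Exp) : ∀ (s : ℕ → Exp) (env : ℕ → ℕ),
    eval w (subst e s) env = eval w e (fun i => eval w (s i) env) := by
  induction e with
  | var i => intro r env; rfl
  | zero => intro r env; rfl
  | succ e ih => intro r env; simp [subst, eval, ih]
  | sym e ih => intro r env; simp [subst, eval, ih]
  | rc n a b ihn iha ihb => intro r env; simp [subst, eval, ihn, iha, ihb, eval_up2]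

theorem ok_subst (w : List σ) (B : ℕ) (e : Exp) : ∀ (s : ℕ → Exp) (env : ℕ → ℕ),
    (∀ i, eval w (s i) env ≤ B → Ok w B (s i) env) →
    Ok w B e (fun i => eval w (s i) env) → Ok w B (subst e s) env := by
  induction e with
  | var i => intro r env hs h; exact hs i h
  | zero => intro r env _ _; trivial
  | succ e ih => intro r env hs h; exact ⟨ih _ _ hs h.1, by rw [eval_subst]; exact h.2⟩
  | sym e ih => intro r env hs h; exact ⟨ih _ _ hs h.1, h.2⟩
  | rc n a b ihn iha ihb =>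
    intro r env hs h
    refine ⟨ihn _ _ hs h.1, iha _ _ hs h.2.1, fun j hj => ihb _ _ ?_ ?_⟩
    · intro i
      rcases i with _ | _ | i
      · exact id
      · exact id
      · intro hi
        simp only [up2, eval_rename] at hi ⊢
        exact ok_rename _ _ _ _ _ (hs i hi)
    · rw [eval_subst] at hj
      simpa [eval_subst, eval_up2] using h.2.2 j hj

/-! ### Linear-space functions -/

class Enc (σ : Type) (X : Type) where
  ar : ℕ
  env : X → ℕ → ℕ
  ok : List σ → X → Prop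

instance instEncNat (σ : Type) : Enc σ ℕ := ⟨1, fun x _ => x, fun _ _ => True⟩
instance instEncList (σ : Type) : Enc σ (List σ) := ⟨0, fun _ _ => 0, fun w x => x = w⟩
open Classical in
noncomputable instance instEncProp (σ : Type) : Enc σ Prop :=
  ⟨1, fun x _ => if x then 1 else 0, fun _ _ => True⟩
instance instEncProd (σ X Y : Type) [Enc σ X] [Enc σ Y] : Enc σ (X × Y) :=
  ⟨Enc.ar σ X + Enc.ar σ Y,
   fun p i => if i < Enc.ar σ X then Enc.env σ p.1 i else Enc.env σ p.2 (i - Enc.ar σ X),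
   fun w p => Enc.ok w p.1 ∧ Enc.ok w p.2⟩

@[reducible] def Enc.ofFun (σ : Type) {S Y : Type} [Enc σ Y] (φ : S → Y) : Enc σ S :=
  ⟨Enc.ar σ Y, fun s => Enc.env σ (φ s), fun w s => Enc.ok w (φ s)⟩

def Bd (σ : Type) {X : Type} [Enc σ X] (M : ℕ) (x : X) : Prop :=
  ∀ i < Enc.ar σ X, Enc.env σ x i ≤ M

def LSn (σ : Type) [Fintype σ] {X : Type} [Enc σ X] (g : X → ℕ) : Prop :=
  ∃ (e : Exp) (c : ℕ), ∀ (w : List σ) (x : X) (M : ℕ) (ρ : ℕ → ℕ), Enc.ok w x → 2 ≤ M → Bd σ M x →
    (∀ i < Enc.ar σ X, ρ i = Enc.env σ x i) → eval w e ρ = g x ∧ Ok w (M ^ c) e ρ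

@[fun_prop]
def LS (σ : Type) [Fintype σ] {X Y : Type} [Enc σ X] [Enc σ Y] (f : X → Y) : Prop :=
  (∀ (w : List σ) (x : X), Enc.ok w x → Enc.ok w (f x)) ∧
    ∀ j < Enc.ar σ Y, LSn σ (fun x => Enc.env σ (f x) j)

/-- Polynomially bounded. -/
def PB (σ : Type) {X : Type} [Enc σ X] (b : X → ℕ) : Prop :=
  ∃ c : ℕ, ∀ (w : List σ) (x : X) (M : ℕ), Enc.ok w x → 2 ≤ M → Bd σ M x → b x ≤ M ^ c

variable {X Y Z : Type} [Enc σ X] [Enc σ Y] [Enc σ Z]

theorem LS.nat_iff {g : X → ℕ} : LS σ g ↔ LSn σ g :=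
  ⟨fun h => h.2 0 Nat.one_pos, fun h => ⟨fun _ _ _ => trivial, fun _ _ => h⟩⟩

theorem LSn.pb {g : X → ℕ} (h : LSn σ g) : PB σ g := by
  obtain ⟨e, c, h⟩ := h
  refine ⟨c, fun w x M h1 h2 h3 => ?_⟩
  obtain ⟨h4, h5⟩ := h w x M _ h1 h2 h3 (fun _ _ => rfl)
  rw [← h4]; exact h5.le

theorem LS.pb {g : X → ℕ} (h : LS σ g) : PB σ g := (LS.nat_iff.1 h).pb

omit [Fintype σ] in
theorem PB.add {f g : X → ℕ} (hf : PB σ f) (hg : PB σ g) : PB σ (fun x => f x + g x) := by
  obtain ⟨c, hc⟩ := hf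
  obtain ⟨d, hd⟩ := hg
  refine ⟨c + d + 1, fun w x M h1 h2 h3 => ?_⟩
  have a1 := hc w x M h1 h2 h3
  have a2 := hd w x M h1 h2 h3
  have a3 : M ^ c ≤ M ^ (c + d) := Nat.pow_le_pow_right (by omega) (by omega)
  have a4 : M ^ d ≤ M ^ (c + d) := Nat.pow_le_pow_right (by omega) (by omega)
  have a5 : M ^ (c + d) * 2 ≤ M ^ (c + d) * M := Nat.mul_le_mul_left _ h2
  rw [pow_succ]
  show f x + g x ≤ _
  omega

omit [Fintype σ] in
theorem PB.mul {f g : X → ℕ} (hf : PB σ f) (hg : PB σ g) : PB σ (fun x => f x * g x) := by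
  obtain ⟨c, hc⟩ := hf
  obtain ⟨d, hd⟩ := hg
  refine ⟨c + d, fun w x M h1 h2 h3 => ?_⟩
  rw [pow_add]
  exact Nat.mul_le_mul (hc w x M h1 h2 h3) (hd w x M h1 h2 h3)

omit [Fintype σ] in
theorem PB.of_le {f g : X → ℕ} (hg : PB σ g) (h : ∀ x, f x ≤ g x) : PB σ f := by
  obtain ⟨d, hd⟩ := hg
  exact ⟨d, fun w x M h1 h2 h3 => (h x).trans (hd w x M h1 h2 h3)⟩

theorem le_pow_self {M : ℕ} (h : 2 ≤ M) {c : ℕ} (hc : 1 ≤ c) : M ≤ M ^ c := by
  calc M = M ^ 1 := (pow_one M).symm
    _ ≤ M ^ c := Nat.pow_le_pow_right (by omega) hc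

theorem LS.uniform {f : X → Y} (hf : LS σ f) : ∃ (s : ℕ → Exp) (c : ℕ), 1 ≤ c ∧
    ∀ (w : List σ) (x : X) (M : ℕ) (ρ : ℕ → ℕ), Enc.ok w x → 2 ≤ M → Bd σ M x →
    (∀ i < Enc.ar σ X, ρ i = Enc.env σ x i) →
    (∀ j < Enc.ar σ Y, eval w (s j) ρ = Enc.env σ (f x) j) ∧ ∀ j, Ok w (M ^ c) (s j) ρ := by
  have h2 := hf.2
  have : Nonempty Exp := ⟨.zero⟩
  choose! e c hec using h2
  refine ⟨fun j => if j < Enc.ar σ Y then e j else .zero,
    (Finset.range (Enc.ar σ Y)).sup c + 1, by omega, ?_⟩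
  intro w x M ρ h1 h2 h3 h4
  constructor
  · intro j hj
    simp only [if_pos hj]
    exact (hec j hj w x M ρ h1 h2 h3 h4).1
  · intro j
    by_cases hj : j < Enc.ar σ Y
    · simp only [if_pos hj]
      refine Ok.mono ?_ (hec j hj w x M ρ h1 h2 h3 h4).2
      refine Nat.pow_le_pow_right (by omega) ?_
      have := Finset.le_sup (f := c) (Finset.mem_range.2 hj)
      omega
    · simp only [if_neg hj]; trivial

/-- A linear-space map has polynomially bounded components. -/
theorem LS.bd {f : X → Y} (hf : LS σ f) : ∃ c : ℕ, 1 ≤ c ∧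
    ∀ (w : List σ) (x : X) (M : ℕ), Enc.ok w x → 2 ≤ M → Bd σ M x → Bd σ (M ^ c) (f x) := by
  obtain ⟨s, c, hc, h⟩ := hf.uniform
  refine ⟨c, hc, fun w x M h1 h2 h3 j hj => ?_⟩
  obtain ⟨h4, h5⟩ := h w x M _ h1 h2 h3 (fun _ _ => rfl)
  rw [← h4 j hj]; exact (h5 j).le

theorem LSn.comp {g : Y → ℕ} {f : X → Y} (hg : LSn σ g) (hf : LS σ f) : LSn σ (fun x => g (f x)) := by
  obtain ⟨s, c, hc, hs⟩ := hf.uniform
  obtain ⟨e, d, he⟩ := hg
  refine ⟨subst e s, c * (d + 1), fun w x M ρ h1 h2 h3 h4 => ?_⟩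
  obtain ⟨h5, h6⟩ := hs w x M ρ h1 h2 h3 h4
  have hM : 2 ≤ M ^ c := h2.trans (le_pow_self h2 hc)
  obtain ⟨h7, h8⟩ := he w (f x) (M ^ c) (fun i => eval w (s i) ρ) (hf.1 w x h1) hM
    (fun j hj => by rw [← h5 j hj]; exact (h6 j).le) h5
  refine ⟨by rw [eval_subst, h7], ok_subst _ _ _ _ _ (fun i _ => Ok.mono ?_ (h6 i)) (Ok.mono ?_ h8)⟩
  · exact Nat.pow_le_pow_right (by omega) (Nat.le_mul_of_pos_right _ (by omega))
  · rw [← pow_mul]; exact Nat.pow_le_pow_right (by omega) (Nat.mul_le_mul_left _ (by omega))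

@[fun_prop] theorem LS.comp {g : Y → Z} {f : X → Y} (hg : LS σ g) (hf : LS σ f) :
    LS σ (fun x => g (f x)) :=
  ⟨fun w x h => hg.1 w _ (hf.1 w x h), fun j hj => (hg.2 j hj).comp hf⟩

theorem LSn.var (j : ℕ) (hj : j < Enc.ar σ X) : LSn σ (fun x : X => Enc.env σ x j) :=
  ⟨.var j, 1, fun _ _ _ ρ _ _ h3 h4 =>
    ⟨h4 j hj, by show ρ j ≤ _; rw [h4 j hj, pow_one]; exact h3 j hj⟩⟩

@[fun_prop] theorem LS.id : LS σ (fun x : X => x) := ⟨fun _ _ h => h, LSn.var⟩

theorem LS.fst' : LS σ (fun p : X × Y => p.1) := by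
  refine ⟨fun _ _ h => h.1, fun j hj => ?_⟩
  have := LSn.var (σ := σ) (X := X × Y) j (by show j < Enc.ar σ X + Enc.ar σ Y; omega)
  simpa [Enc.env, hj] using this

theorem LS.snd' : LS σ (fun p : X × Y => p.2) := by
  refine ⟨fun _ _ h => h.2, fun j hj => ?_⟩
  have := LSn.var (σ := σ) (X := X × Y) (Enc.ar σ X + j) (by show _ < Enc.ar σ X + Enc.ar σ Y; omega)
  simpa [Enc.env] using this

@[fun_prop] theorem LS.fst {f : X → Y × Z} (hf : LS σ f) : LS σ (fun x => (f x).1) :=
  LS.comp LS.fst' hf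

@[fun_prop] theorem LS.snd {f : X → Y × Z} (hf : LS σ f) : LS σ (fun x => (f x).2) :=
  LS.comp LS.snd' hf

@[fun_prop] theorem LS.mk {f : X → Y} {g : X → Z} (hf : LS σ f) (hg : LS σ g) :
    LS σ (fun x => (f x, g x)) := by
  refine ⟨fun w x h => ⟨hf.1 w x h, hg.1 w x h⟩, fun j hj => ?_⟩
  by_cases h : j < Enc.ar σ Y
  · simpa [Enc.env, h] using hf.2 j h
  · have hj' : j < Enc.ar σ Y + Enc.ar σ Z := hj
    simpa [Enc.env, h] using hg.2 (j - Enc.ar σ Y) (by omega)

theorem LS.succ {f : X → ℕ} (hf : LS σ f) : LS σ (fun x => f x + 1) := by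
  rw [LS.nat_iff] at hf ⊢
  obtain ⟨e, c, h⟩ := hf
  refine ⟨.succ e, c + 1, fun w x M ρ h1 h2 h3 h4 => ?_⟩
  obtain ⟨h5, h6⟩ := h w x M ρ h1 h2 h3 h4
  have a1 : M ^ c * 2 ≤ M ^ c * M := Nat.mul_le_mul_left _ h2
  have a2 : 0 < M ^ c := by positivity
  have a3 := h6.le
  refine ⟨by simp [eval, h5], Ok.mono (Nat.pow_le_pow_right (by omega) (by omega)) h6, ?_⟩
  rw [pow_succ]; omega

@[fun_prop] theorem LS.const (n : ℕ) : LS σ (fun _ : X => n) := by
  induction n with
  | zero => exact LS.nat_iff.2 ⟨.zero, 0, fun _ _ _ _ _ _ _ _ => ⟨rfl, trivial⟩⟩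
  | succ n ih => exact ih.succ

@[fun_prop] theorem LS.symAt {f : X → List σ} {g : X → ℕ} (hf : LS σ f) (hg : LS σ g) :
    LS σ (fun x => symAt (f x) (g x)) := by
  rw [LS.nat_iff] at hg ⊢
  obtain ⟨e, c, h⟩ := hg
  refine ⟨.sym e, c + Fintype.card σ, fun w x M ρ h1 h2 h3 h4 => ?_⟩
  obtain ⟨h5, h6⟩ := h w x M ρ h1 h2 h3 h4
  have hw : f x = w := hf.1 w x h1
  refine ⟨by simp [eval, h5, hw], Ok.mono (Nat.pow_le_pow_right (by omega) (by omega)) h6, ?_⟩
  calc Fintype.card σ ≤ 2 ^ Fintype.card σ := Nat.lt_two_pow_self.le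
    _ ≤ M ^ Fintype.card σ := Nat.pow_le_pow_left h2 _
    _ ≤ _ := Nat.pow_le_pow_right (by omega) (by omega)

theorem LS.prec {n a b : X → ℕ} {f : X → ℕ → ℕ → ℕ} (hn : LS σ n) (ha : LS σ a)
    (hf : LS σ (fun p : X × ℕ × ℕ => f p.1 p.2.1 p.2.2)) (hb : PB σ b)
    (hbd : ∀ x, ∀ j < n x, prec (a x) (f x) j ≤ b x) :
    LS σ (fun x => prec (a x) (f x) (n x)) := by
  rw [LS.nat_iff] at hn ha hf ⊢
  obtain ⟨en, cn, hn⟩ := hn
  obtain ⟨ea, ca, ha⟩ := ha
  obtain ⟨ef, cf, hf⟩ := hf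
  obtain ⟨cb, hb⟩ := hb
  let r : ℕ → ℕ := fun i => if i < Enc.ar σ X then i + 2 else i - Enc.ar σ X
  refine ⟨.rc en ea (rename ef r), (cn + ca + cb + 1) * (cf + 1), fun w x M ρ h1 h2 h3 h4 => ?_⟩
  obtain ⟨n1, n2⟩ := hn w x M ρ h1 h2 h3 h4
  obtain ⟨a1, a2⟩ := ha w x M ρ h1 h2 h3 h4
  have b1 := hb w x M h1 h2 h3
  set M' := M ^ (cn + ca + cb + 1) with hM'
  have hMM : M ≤ M' := le_pow_self h2 (by omega)
  have hn' : n x ≤ M' := by
    rw [← n1]; exact n2.le.trans (Nat.pow_le_pow_right (by omega) (by omega))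
  have hb' : b x ≤ M' := b1.trans (Nat.pow_le_pow_right (by omega) (by omega))
  have body : ∀ j acc, j ≤ M' → acc ≤ M' →
      eval w (rename ef r) (cons j (cons acc ρ)) = f x j acc ∧
      Ok w (M' ^ cf) (rename ef r) (cons j (cons acc ρ)) := by
    intro j acc hj hacc
    have := hf w (x, j, acc) M' (fun i => cons j (cons acc ρ) (r i)) ⟨h1, trivial, trivial⟩
      (h2.trans hMM) (by
        intro i hi
        simp only [Enc.env]
        split_ifs with h5 h6
        · exact (h3 i h5).trans hMM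
        · exact hj
        · exact hacc) (by
        intro i hi
        have hi' : i < Enc.ar σ X + (1 + 1) := hi
        simp only [Enc.env, r]
        split_ifs with h5 h6
        · exact h4 i h5
        · have h6' : i - Enc.ar σ X < 1 := h6
          rw [show i - Enc.ar σ X = 0 by omega]; rfl
        · have h6' : ¬ i - Enc.ar σ X < 1 := h6
          rw [show i - Enc.ar σ X = 1 by omega]; rfl)
    exact ⟨by rw [eval_rename]; exact this.1, ok_rename _ _ _ _ _ this.2⟩
  have key : ∀ j ≤ n x, P312.prec (a x) (fun j acc => eval w (rename ef r) (cons j (cons acc ρ))) j =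
      P312.prec (a x) (f x) j := by
    intro j hj
    induction j with
    | zero => rfl
    | succ j ih =>
      simp only [P312.prec]
      rw [ih (by omega)]
      exact (body j _ (by omega) ((hbd x j (by omega)).trans hb')).1
  have hle : ∀ c ≤ cn + ca + cb + 1, M ^ c ≤ M ^ ((cn + ca + cb + 1) * (cf + 1)) := by
    intro c hc
    exact Nat.pow_le_pow_right (by omega) (hc.trans (Nat.le_mul_of_pos_right _ (by omega)))
  refine ⟨by simp only [eval, n1, a1]; exact key _ le_rfl, Ok.mono (hle _ (by omega)) n2,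
    Ok.mono (hle _ (by omega)) a2, fun j hj => ?_⟩
  rw [n1] at hj
  rw [a1, key j hj.le]
  refine Ok.mono ?_ (body j _ (by omega) ((hbd x j hj).trans hb')).2
  rw [hM', ← pow_mul]
  exact Nat.pow_le_pow_right (by omega) (Nat.mul_le_mul_left _ (by omega))

theorem LS.congr {f g : X → Y} (hf : LS σ f) (h : ∀ x, g x = f x) : LS σ g := by
  have : g = f := funext h
  rwa [this]

@[fun_prop] theorem LS.add {f g : X → ℕ} (hf : LS σ f) (hg : LS σ g) : LS σ (fun x => f x + g x) := by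
  have e : ∀ a j, P312.prec a (fun _ acc => acc + 1) j = a + j := by
    intro a j
    induction j with
    | zero => rfl
    | succ j ih => simp only [P312.prec, ih]; ring
  refine (LS.prec (f := fun _ _ acc => acc + 1) hg hf (LS.succ (by fun_prop)) (hf.pb.add hg.pb) ?_).congr
    (fun x => (e _ _).symm)
  intro x j hj
  rw [e]; omega

@[fun_prop] theorem LS.mul {f g : X → ℕ} (hf : LS σ f) (hg : LS σ g) : LS σ (fun x => f x * g x) := by
  have e : ∀ a j, P312.prec 0 (fun _ acc => acc + a) j = a * j := by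
    intro a j
    induction j with
    | zero => rfl
    | succ j ih => simp only [P312.prec, ih]; ring
  refine (LS.prec (a := fun _ => 0) (f := fun x _ acc => acc + f x) hg (by fun_prop) (by fun_prop)
    (hf.pb.mul hg.pb) ?_).congr (fun x => (e _ _).symm)
  intro x j hj
  rw [e]; exact Nat.mul_le_mul_left _ hj.le

theorem LS.pred {f : X → ℕ} (hf : LS σ f) : LS σ (fun x => f x - 1) := by
  have e : ∀ j, P312.prec 0 (fun j _ => j) j = j - 1 := by
    intro j
    cases j <;> simp [P312.prec]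
  refine (LS.prec (a := fun _ => 0) (f := fun _ j _ => j) hf (by fun_prop) (by fun_prop)
    hf.pb ?_).congr (fun x => (e _).symm)
  intro x j hj
  rw [e]; omega

@[fun_prop] theorem LS.sub {f g : X → ℕ} (hf : LS σ f) (hg : LS σ g) : LS σ (fun x => f x - g x) := by
  have e : ∀ a j, P312.prec a (fun _ acc => acc - 1) j = a - j := by
    intro a j
    induction j with
    | zero => rfl
    | succ j ih => simp only [P312.prec, ih]; omega
  refine (LS.prec (f := fun _ _ acc => acc - 1) hg hf (LS.pred (by fun_prop)) hf.pb ?_).congr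
    (fun x => (e _ _).symm)
  intro x j hj
  rw [e]; omega

theorem LS.prop_iff {p : X → Prop} [DecidablePred p] :
    LS σ p ↔ LS σ (fun x => if p x then 1 else 0) := by
  rw [LS.nat_iff]
  constructor
  · intro h
    have := h.2 0 Nat.one_pos
    simp only [Enc.env] at this
    convert this
  · intro h
    refine ⟨fun _ _ _ => trivial, fun j _ => ?_⟩
    simp only [Enc.env]
    convert h

theorem LS.ite_nat {p : X → Prop} [DecidablePred p] {f g : X → ℕ} (hp : LS σ p) (hf : LS σ f)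
    (hg : LS σ g) : LS σ (fun x => if p x then f x else g x) := by
  rw [LS.prop_iff] at hp
  have : LS σ (fun x => (if p x then 1 else 0) * f x + (1 - (if p x then 1 else 0)) * g x) := by
    fun_prop
  refine this.congr (fun x => ?_)
  split_ifs <;> simp

@[fun_prop] theorem LS.ite {p : X → Prop} [DecidablePred p] {f g : X → Y} (hp : LS σ p) (hf : LS σ f)
    (hg : LS σ g) : LS σ (fun x => if p x then f x else g x) := by
  refine ⟨fun w x h => ?_, fun j hj => ?_⟩
  · show Enc.ok w (if p x then f x else g x)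
    split_ifs
    · exact hf.1 w x h
    · exact hg.1 w x h
  · have := LS.ite_nat hp (LS.nat_iff.2 (hf.2 j hj)) (LS.nat_iff.2 (hg.2 j hj))
    rw [← LS.nat_iff]
    refine this.congr (fun x => ?_)
    by_cases h : p x <;> simp [h]

@[fun_prop] theorem LS.le {f g : X → ℕ} (hf : LS σ f) (hg : LS σ g) : LS σ (fun x => f x ≤ g x) := by
  rw [LS.prop_iff]
  have : LS σ (fun x => 1 - (f x - g x)) := by fun_prop
  refine this.congr (fun x => ?_)
  split_ifs <;> omega

@[fun_prop] theorem LS.lt {f g : X → ℕ} (hf : LS σ f) (hg : LS σ g) : LS σ (fun x => f x < g x) :=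
  LS.le (f := fun x => f x + 1) (by fun_prop) hg

@[fun_prop] theorem LS.eq {f g : X → ℕ} (hf : LS σ f) (hg : LS σ g) : LS σ (fun x => f x = g x) := by
  rw [LS.prop_iff]
  have : LS σ (fun x => 1 - ((f x - g x) + (g x - f x))) := by fun_prop
  refine this.congr (fun x => ?_)
  split_ifs <;> omega

@[fun_prop] theorem LS.not {p : X → Prop} (hp : LS σ p) : LS σ (fun x => ¬ p x) := by
  classical
  rw [LS.prop_iff] at hp ⊢
  have : LS σ (fun x => 1 - (if p x then 1 else 0)) := by fun_prop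
  refine this.congr (fun x => ?_)
  by_cases h : p x <;> simp [h]

@[fun_prop] theorem LS.ne {f g : X → ℕ} (hf : LS σ f) (hg : LS σ g) : LS σ (fun x => f x ≠ g x) :=
  LS.not (LS.eq hf hg)

@[fun_prop] theorem LS.and {p q : X → Prop} (hp : LS σ p) (hq : LS σ q) : LS σ (fun x => p x ∧ q x) := by
  classical
  rw [LS.prop_iff] at hp hq ⊢
  have : LS σ (fun x => (if p x then 1 else 0) * (if q x then 1 else 0)) := by fun_prop
  refine this.congr (fun x => ?_)
  by_cases h : p x <;> by_cases h' : q x <;> simp [h, h']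

@[fun_prop] theorem LS.or {p q : X → Prop} (hp : LS σ p) (hq : LS σ q) : LS σ (fun x => p x ∨ q x) := by
  have : LS σ (fun x => ¬ (¬ p x ∧ ¬ q x)) := by fun_prop
  refine this.congr (fun x => ?_)
  rw [eq_iff_iff]; tauto

@[fun_prop] theorem LS.mod {f g : X → ℕ} (hf : LS σ f) (hg : LS σ g) : LS σ (fun x => f x % g x) := by
  have e : ∀ m j, P312.prec 0 (fun _ acc => if acc + 1 = m then 0 else acc + 1) j = j % m := by
    intro m j
    induction j with
    | zero => simp [P312.prec]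
    | succ j ih =>
      simp only [P312.prec, ih]
      rcases Nat.eq_zero_or_pos m with rfl | hm
      · simp
      · have h1 := Nat.mod_lt j hm
        split_ifs with h
        · rw [Nat.add_mod]
          rcases Nat.eq_or_lt_of_le (show 1 ≤ m from hm) with h2 | h2
          · subst h2; simp [Nat.mod_one]
          · rw [Nat.mod_eq_of_lt h2, h, Nat.mod_self]
        · rw [Nat.add_mod, Nat.mod_eq_of_lt (show 1 < m by omega),
            Nat.mod_eq_of_lt (show j % m + 1 < m by omega)]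
  refine (LS.prec (a := fun _ => 0) (f := fun x _ acc => if acc + 1 = g x then 0 else acc + 1) hf
    (by fun_prop) (by fun_prop) hf.pb ?_).congr (fun x => (e _ _).symm)
  intro x j hj
  rw [e]; exact (Nat.mod_le _ _).trans hj.le

@[fun_prop] theorem LS.sum {n : X → ℕ} {f : X → ℕ → ℕ} (hn : LS σ n)
    (hf : LS σ (fun p : X × ℕ => f p.1 p.2)) :
    LS σ (fun x => ∑ i ∈ Finset.range (n x), f x i) := by
  have e : ∀ (g : ℕ → ℕ) j, P312.prec 0 (fun i acc => acc + g i) j = ∑ i ∈ Finset.range j, g i := by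
    intro g j
    induction j with
    | zero => rfl
    | succ j ih => simp only [P312.prec, ih, Finset.sum_range_succ]
  have hb : PB σ (fun x => ∑ i ∈ Finset.range (n x), f x i) := by
    obtain ⟨cn, hcn⟩ := hn.pb
    obtain ⟨cf, hcf⟩ := hf.pb
    refine ⟨(cn + 1) + (cn + 1) * cf, fun w x M h1 h2 h3 => ?_⟩
    have hMM : M ≤ M ^ (cn + 1) := le_pow_self h2 (by omega)
    have a1 : n x ≤ M ^ (cn + 1) := (hcn w x M h1 h2 h3).trans (Nat.pow_le_pow_right (by omega) (by omega))
    have a2 : ∀ i ∈ Finset.range (n x), f x i ≤ (M ^ (cn + 1)) ^ cf := by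
      intro i hi
      refine hcf w (x, i) _ ⟨h1, trivial⟩ (h2.trans hMM) ?_
      intro j hj
      simp only [Enc.env]
      split_ifs with h5
      · exact (h3 j h5).trans hMM
      · exact (Finset.mem_range.1 hi).le.trans a1
    calc _ ≤ (Finset.range (n x)).card • (M ^ (cn + 1)) ^ cf := Finset.sum_le_card_nsmul _ _ _ a2
      _ = n x * (M ^ (cn + 1)) ^ cf := by simp
      _ ≤ M ^ (cn + 1) * (M ^ (cn + 1)) ^ cf := Nat.mul_le_mul_right _ a1
      _ = _ := by rw [← pow_mul, ← pow_add]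
  refine (LS.prec (a := fun _ => 0) (f := fun x i acc => acc + f x i) hn (by fun_prop)
    (LS.add (by fun_prop) (LS.comp (f := fun p : X × ℕ × ℕ => (p.1, p.2.1)) hf (by fun_prop))) hb ?_).congr
    (fun x => (e _ _).symm)
  intro x j hj
  rw [e]
  exact Finset.sum_le_sum_of_subset (Finset.range_mono hj.le)

@[fun_prop] theorem LS.div {f g : X → ℕ} (hf : LS σ f) (hg : LS σ g) : LS σ (fun x => f x / g x) := by
  have e : ∀ a m : ℕ, ∑ i ∈ Finset.range a, (if m ≠ 0 ∧ (i + 1) % m = 0 then 1 else 0) = a / m := by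
    intro a m
    induction a with
    | zero => simp
    | succ a ih =>
      rw [Finset.sum_range_succ, ih]
      rcases Nat.eq_zero_or_pos m with rfl | hm
      · simp
      · rw [Nat.succ_div]
        congr 1
        have : m ≠ 0 := by omega
        simp [this, Nat.dvd_iff_mod_eq_zero]
  have : LS σ (fun x => ∑ i ∈ Finset.range (f x), (if g x ≠ 0 ∧ (i + 1) % g x = 0 then 1 else 0)) := by
    fun_prop
  exact this.congr (fun x => (e _ _).symm)

end Vale.Agent.P312
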