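import Vale.Agent.P312.LS

namespace Vale.Agent.P312

variable {σ : Type} [Fintype σ] {X Y Z : Type} [Enc σ X] [Enc σ Y] [Enc σ Z]

theorem LS.comp2 {f : X → ℕ → ℕ} (hf : LS σ (fun p : X × ℕ => f p.1 p.2)) :
    LS σ (fun p : X × ℕ × ℕ => f p.1 p.2.1) :=
  LS.comp (f := fun p : X × ℕ × ℕ => (p.1, p.2.1)) hf (by fun_prop)

@[fun_prop] theorem LS.pow_const {f : X → ℕ} (hf : LS σ f) (k : ℕ) : LS σ (fun x => f x ^ k) := by
  induction k with
  | zero => simpa using LS.const 1
  | succ k ih => simpa [pow_succ] using ih.mul hf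

@[fun_prop] theorem LS.max {f g : X → ℕ} (hf : LS σ f) (hg : LS σ g) :
    LS σ (fun x => max (f x) (g x)) := by
  have : LS σ (fun x => if f x ≤ g x then g x else f x) := by fun_prop
  refine this.congr (fun x => ?_)
  split_ifs <;> omega

/-- Product modulo `m`. -/
def prodM (n m : ℕ) (f : ℕ → ℕ) : ℕ := if m = 0 then 0 else (∏ i ∈ Finset.range n, f i) % m

theorem prodM_eq {n m : ℕ} (hm : m ≠ 0) (f : ℕ → ℕ) :
    prodM n m f = (∏ i ∈ Finset.range n, f i) % m := if_neg hm

@[fun_prop] theorem LS.prodM {n m : X → ℕ} {f : X → ℕ → ℕ} (hn : LS σ n) (hm : LS σ m)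
    (hf : LS σ (fun p : X × ℕ => f p.1 p.2)) : LS σ (fun x => prodM (n x) (m x) (f x)) := by
  have e : ∀ (m : ℕ) (g : ℕ → ℕ) j,
      P312.prec (if m = 0 then 0 else 1 % m) (fun i acc => acc * g i % m) j = P312.prodM j m g := by
    intro m g j
    induction j with
    | zero => simp [P312.prec, P312.prodM]
    | succ j ih =>
      simp only [P312.prec, ih]
      by_cases h : m = 0
      · simp [P312.prodM, h]
      · simp [P312.prodM, h, Finset.prod_range_succ]
  have hf2 := hf.comp2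
  refine (LS.prec (a := fun x => if m x = 0 then 0 else 1 % m x)
    (f := fun x i acc => acc * f x i % m x) hn (by fun_prop)
    (LS.mod (LS.mul (by fun_prop) hf2) (by fun_prop)) hm.pb ?_).congr (fun x => (e _ _ _).symm)
  intro x j _
  rw [e]
  unfold P312.prodM
  split_ifs with h
  · omega
  · exact (Nat.mod_lt _ (by omega)).le

/-- `a ^ n % m` -/
def powM (a n m : ℕ) : ℕ := prodM n m (fun _ => a)

theorem powM_eq {a n m : ℕ} (hm : m ≠ 0) : powM a n m = a ^ n % m := by
  simp [powM, prodM_eq hm]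

theorem powM_of_lt {a n m : ℕ} (h : a ^ n < m) : powM a n m = a ^ n := by
  rw [powM_eq (by omega), Nat.mod_eq_of_lt h]

@[fun_prop] theorem LS.powM {a n m : X → ℕ} (ha : LS σ a) (hn : LS σ n) (hm : LS σ m) :
    LS σ (fun x => powM (a x) (n x) (m x)) := by
  unfold P312.powM; fun_prop

/-- `x / a ^ i` -/
def dv (a x i : ℕ) : ℕ := x / a ^ i

@[fun_prop] theorem LS.dv {a y i : X → ℕ} (ha : LS σ a) (hy : LS σ y) (hi : LS σ i) :
    LS σ (fun x => dv (a x) (y x) (i x)) := by
  have e : ∀ a y j, P312.prec y (fun _ acc => acc / a) j = P312.dv a y j := by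
    intro a y j
    induction j with
    | zero => simp [P312.prec, P312.dv]
    | succ j ih => simp only [P312.prec, ih, P312.dv, pow_succ, Nat.div_div_eq_div_mul]
  refine (LS.prec (f := fun x _ acc => acc / a x) hi hy (by fun_prop) hy.pb ?_).congr
    (fun x => (e _ _ _).symm)
  intro x j _
  rw [e]; exact Nat.div_le_self _ _

/-- The `i`-th digit of `x` in base `a`. -/
def dg (a x i : ℕ) : ℕ := x / a ^ i % a

@[fun_prop] theorem LS.dg {a y i : X → ℕ} (ha : LS σ a) (hy : LS σ y) (hi : LS σ i) :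
    LS σ (fun x => dg (a x) (y x) (i x)) := by
  show LS σ (fun x => P312.dv (a x) (y x) (i x) % a x)
  fun_prop

/-- The number with the given digits. -/
def ofD (a n : ℕ) (f : ℕ → ℕ) : ℕ := ∑ i ∈ Finset.range n, f i * a ^ i

/-- The same, computed modulo `m`. -/
def odM (a n m : ℕ) (f : ℕ → ℕ) : ℕ := (∑ i ∈ Finset.range n, f i * powM a i m) % m

@[fun_prop] theorem LS.odM {a n m : X → ℕ} {f : X → ℕ → ℕ} (ha : LS σ a) (hn : LS σ n) (hm : LS σ m)
    (hf : LS σ (fun p : X × ℕ => f p.1 p.2)) : LS σ (fun x => odM (a x) (n x) (m x) (f x)) := by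
  unfold P312.odM; fun_prop

theorem odM_eq {a n m : ℕ} {f : ℕ → ℕ} (h : ofD a n f < m) : odM a n m f = ofD a n f := by
  have hm : m ≠ 0 := by omega
  unfold odM
  simp only [powM_eq hm]
  rw [← Nat.mod_eq_of_lt h, ofD, Finset.sum_nat_mod, Finset.sum_nat_mod (f := fun i => f i * a ^ i)]
  simp

theorem odM_lt {a n m : ℕ} {f : ℕ → ℕ} (hm : m ≠ 0) : odM a n m f < m := Nat.mod_lt _ (by omega)

theorem dg_lt {a : ℕ} (ha : 0 < a) (x i : ℕ) : dg a x i < a := Nat.mod_lt _ ha

theorem ofD_succ (a n : ℕ) (f : ℕ → ℕ) : ofD a (n + 1) f = ofD a n f + f n * a ^ n :=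
  Finset.sum_range_succ _ _

theorem ofD_lt {a n : ℕ} {f : ℕ → ℕ} (h : ∀ i < n, f i < a) : ofD a n f < a ^ n := by
  induction n with
  | zero => simp [ofD]
  | succ n ih =>
    have h1 := ih (fun i hi => h i (by omega))
    have h2 : (f n + 1) * a ^ n ≤ a * a ^ n := Nat.mul_le_mul_right _ (h n (by omega))
    rw [ofD_succ, pow_succ]
    nlinarith

theorem dg_add_mul {a : ℕ} (ha : 0 < a) (x y n i : ℕ) (hi : i < n) :
    dg a (x + y * a ^ n) i = dg a x i := by
  obtain ⟨k, rfl⟩ : ∃ k, n = i + (k + 1) := ⟨n - i - 1, by omega⟩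
  unfold dg
  rw [show y * a ^ (i + (k + 1)) = a ^ i * (a * (y * a ^ k)) by ring,
    Nat.add_mul_div_left _ _ (by positivity), Nat.add_mul_mod_self_left]

theorem dg_add_mul_ge {a : ℕ} (ha : 0 < a) (x y n i : ℕ) (hx : x < a ^ n) :
    dg a (x + y * a ^ n) (n + i) = dg a y i := by
  unfold dg
  rw [pow_add, ← Nat.div_div_eq_div_mul, Nat.add_mul_div_right _ _ (by positivity),
    Nat.div_eq_of_lt hx, zero_add]

theorem dg_zero_eq {a y : ℕ} (h : y < a) : dg a y 0 = y := by
  simp [dg, Nat.mod_eq_of_lt h]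

theorem dg_ofD {a n : ℕ} {f : ℕ → ℕ} (h : ∀ i < n, f i < a) {i : ℕ} (hi : i < n) :
    dg a (ofD a n f) i = f i := by
  induction n with
  | zero => omega
  | succ n ih =>
    have ha : 0 < a := by have := h 0 (by omega); omega
    rw [ofD_succ]
    rcases Nat.lt_or_ge i n with h1 | h1
    · rw [dg_add_mul ha _ _ _ _ h1, ih (fun i hi => h i (by omega)) h1]
    · obtain rfl : i = n := by omega
      have := dg_add_mul_ge ha (ofD a i f) (f i) i 0 (ofD_lt (fun j hj => h j (by omega)))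
      rw [add_zero] at this
      rw [this, dg_zero_eq (h i (by omega))]

theorem ofD_dg (a n x : ℕ) : ofD a n (dg a x) = x % a ^ n := by
  induction n with
  | zero => simp [ofD, Nat.mod_one]
  | succ n ih => rw [ofD_succ, ih, Nat.mod_pow_succ, dg, mul_comm]

theorem ofD_congr {a n : ℕ} {f g : ℕ → ℕ} (h : ∀ i < n, f i = g i) : ofD a n f = ofD a n g :=
  Finset.sum_congr rfl (fun i hi => by rw [h i (Finset.mem_range.1 hi)])

theorem eq_of_dg {a n x y : ℕ} (hx : x < a ^ n) (hy : y < a ^ n)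
    (h : ∀ i < n, dg a x i = dg a y i) : x = y := by
  rw [← Nat.mod_eq_of_lt hx, ← Nat.mod_eq_of_lt hy, ← ofD_dg, ← ofD_dg]
  exact ofD_congr h

theorem dg_mod_pow {a : ℕ} (ha : 0 < a) (x n i : ℕ) (hi : i < n) : dg a (x % a ^ n) i = dg a x i := by
  conv_rhs => rw [← Nat.mod_add_div x (a ^ n), mul_comm]
  rw [dg_add_mul ha _ _ _ _ hi]

theorem dg_div_pow (a x n i : ℕ) : dg a (x / a ^ n) i = dg a x (n + i) := by
  unfold dg; rw [Nat.div_div_eq_div_mul, pow_add]

/-- Functions that vanish from some point on. -/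
theorem LS.table (K : ℕ) (t : ℕ → ℕ) (ht : ∀ i, K ≤ i → t i = 0) {f : X → ℕ} (hf : LS σ f) :
    LS σ (fun x => t (f x)) := by
  induction K generalizing t with
  | zero =>
    refine (LS.const 0).congr (fun x => ht _ (Nat.zero_le _))
  | succ K ih =>
    have h1 := ih (fun i => if i = K then 0 else t i) (by
      intro i hi
      split_ifs with h
      · rfl
      · exact ht i (by omega))
    have : LS σ (fun x => if f x = K then t K else (if f x = K then 0 else t (f x))) :=
      LS.ite (by fun_prop) (LS.const _) h1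
    refine this.congr (fun x => ?_)
    split_ifs with h
    · rw [h]
    · rfl

@[fun_prop] theorem LS.size {f : X → ℕ} (hf : LS σ f) : LS σ (fun x => Nat.size (f x)) := by
  have e : ∀ u : ℕ, ∑ i ∈ Finset.range u, (if P312.dv 2 u i ≠ 0 then 1 else 0) = Nat.size u := by
    intro u
    rw [← Finset.card_filter]
    have : (Finset.range u).filter (fun i => P312.dv 2 u i ≠ 0) = Finset.range (Nat.size u) := by
      ext i
      have h1 : Nat.size u ≤ u := Nat.size_le.2 Nat.lt_two_pow_self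
      simp only [Finset.mem_filter, Finset.mem_range, P312.dv, Nat.lt_size, ne_eq,
        Nat.div_eq_zero_iff, not_or, not_lt]
      constructor
      · intro h; exact h.2.2
      · intro h
        exact ⟨lt_of_lt_of_le Nat.lt_two_pow_self h, by positivity, h⟩
    rw [this, Finset.card_range]
  have : LS σ (fun x => ∑ i ∈ Finset.range (f x), (if P312.dv 2 (f x) i ≠ 0 then 1 else 0)) := by
    fun_prop
  exact this.congr (fun x => (e _).symm)

theorem two_pow_size_le (b : ℕ) : 2 ^ Nat.size b ≤ 2 * b + 1 := by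
  rcases h : Nat.size b with _ | s
  · simp
  · have : 2 ^ s ≤ b := Nat.lt_size.1 (by omega)
    rw [pow_succ]; omega

/-- The least power of two above `b`. -/
def pw (b : ℕ) : ℕ := 2 ^ Nat.size b

@[fun_prop] theorem LS.pw {f : X → ℕ} (hf : LS σ f) : LS σ (fun x => pw (f x)) := by
  have : LS σ (fun x => P312.powM 2 (Nat.size (f x)) (2 * f x + 2)) := by fun_prop
  refine this.congr (fun x => ?_)
  rw [powM_of_lt (by have := two_pow_size_le (f x); omega)]; rfl

/-- Pairing with additive size. -/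
def pr (a b : ℕ) : ℕ := pw b * (2 * (a * pw b + b) + 1)

/-- The largest power of two dividing `x`. -/
def lp (x : ℕ) : ℕ := prec 1 (fun _ acc => if x % (2 * acc) = 0 then 2 * acc else acc) x

def prL (x : ℕ) : ℕ := x / (2 * lp x) / lp x
def prR (x : ℕ) : ℕ := x / (2 * lp x) % lp x

theorem lp_aux (s y j : ℕ) :
    prec 1 (fun _ acc => if (2 ^ s * (2 * y + 1)) % (2 * acc) = 0 then 2 * acc else acc) j =
      2 ^ min j s := by
  induction j with
  | zero => simp [prec]
  | succ j ih =>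
    simp only [prec, ih]
    rcases Nat.lt_or_ge j s with h | h
    · rw [min_eq_left h.le, min_eq_left (by omega : j + 1 ≤ s), if_pos, pow_succ, mul_comm]
      rw [← Nat.dvd_iff_mod_eq_zero, ← pow_succ']
      exact Dvd.dvd.mul_right (pow_dvd_pow 2 h) _
    · rw [min_eq_right h, min_eq_right (by omega : s ≤ j + 1), if_neg]
      rw [← Nat.dvd_iff_mod_eq_zero, mul_comm 2 (2 ^ s), Nat.mul_dvd_mul_iff_left (by positivity)]
      omega

theorem lp_eq (s y : ℕ) : lp (2 ^ s * (2 * y + 1)) = 2 ^ s := by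
  unfold lp
  rw [lp_aux, min_eq_right]
  calc s ≤ 2 ^ s := Nat.lt_two_pow_self.le
    _ ≤ _ := Nat.le_mul_of_pos_right _ (by omega)

@[fun_prop] theorem LS.lp {f : X → ℕ} (hf : LS σ f) : LS σ (fun x => lp (f x)) := by
  unfold P312.lp
  refine LS.prec (a := fun _ => 1) (b := f)
    (f := fun x _ acc => if f x % (2 * acc) = 0 then 2 * acc else acc) hf (by fun_prop) (by fun_prop)
    hf.pb ?_
  intro x j hj
  obtain ⟨s, m, ⟨y, rfl⟩, hx⟩ := Nat.exists_eq_two_pow_mul_odd (n := f x) (by omega)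
  rw [hx, lp_aux]
  calc 2 ^ min j s ≤ 2 ^ s := Nat.pow_le_pow_right (by norm_num) (min_le_right _ _)
    _ ≤ _ := Nat.le_mul_of_pos_right _ (by omega)

@[fun_prop] theorem LS.pr {f g : X → ℕ} (hf : LS σ f) (hg : LS σ g) :
    LS σ (fun x => pr (f x) (g x)) := by
  unfold P312.pr; fun_prop

@[fun_prop] theorem LS.prL {f : X → ℕ} (hf : LS σ f) : LS σ (fun x => prL (f x)) := by
  unfold P312.prL; fun_prop

@[fun_prop] theorem LS.prR {f : X → ℕ} (hf : LS σ f) : LS σ (fun x => prR (f x)) := by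
  unfold P312.prR; fun_prop

theorem pr_div (a b : ℕ) : pr a b / (2 * pw b) = a * pw b + b := by
  unfold pr
  have h : 0 < pw b := by unfold pw; positivity
  rw [mul_comm 2 (pw b), Nat.mul_div_mul_left _ _ h]
  omega

theorem lp_pr (a b : ℕ) : lp (pr a b) = pw b := lp_eq _ _

theorem lt_pw (b : ℕ) : b < pw b := Nat.lt_size_self b

@[simp] theorem prL_pr (a b : ℕ) : prL (pr a b) = a := by
  unfold prL
  have h := lt_pw b
  rw [lp_pr, pr_div, add_comm, Nat.add_mul_div_right _ _ (by omega), Nat.div_eq_of_lt h, zero_add]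

@[simp] theorem prR_pr (a b : ℕ) : prR (pr a b) = b := by
  unfold prR
  rw [lp_pr, pr_div, add_comm, Nat.add_mul_mod_self_right, Nat.mod_eq_of_lt (lt_pw b)]

theorem pr_ne_zero (a b : ℕ) : pr a b ≠ 0 := by
  unfold pr pw; positivity

theorem pr_le {a b A B : ℕ} (ha : a ≤ 2 ^ A) (hb : b ≤ 2 ^ B) : pr a b ≤ 2 ^ (A + 2 * B + 4) := by
  have h1 : pw b ≤ 2 ^ (B + 1) :=
    Nat.pow_le_pow_right (by norm_num) (Nat.size_le.2 (by rw [pow_succ]; have : 0 < 2 ^ B := by positivity
                                                          omega))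
  have h2 := lt_pw b
  have h3 : a + 1 ≤ 2 ^ (A + 1) := by
    rw [pow_succ]; have : 0 < 2 ^ A := by positivity
    omega
  have h4 : 2 * (a * pw b + b) + 1 ≤ 2 * ((a + 1) * pw b) := by nlinarith
  calc pr a b ≤ pw b * (2 * ((a + 1) * pw b)) := Nat.mul_le_mul_left _ h4
    _ ≤ 2 ^ (B + 1) * (2 * (2 ^ (A + 1) * 2 ^ (B + 1))) := by gcongr
    _ = 2 ^ (A + 2 * B + 4) := by ring

/-- Types that can be packed into one number. -/
class Pack (σ : Type) [Fintype σ] (Y : Type) [Enc σ Y] where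
  pack : Y → ℕ
  unpack : ℕ → Y
  unpack_pack : ∀ y, unpack (pack y) = y
  ls_pack : LS σ pack
  ls_unpack : LS σ unpack
  ok_all : ∀ (w : List σ) (y : Y), Enc.ok w y

instance instPackNat : Pack σ ℕ := ⟨fun x => x, fun x => x, fun _ => rfl, LS.id, LS.id, fun _ _ => trivial⟩

@[fun_prop] theorem LS.pack [Pack σ Y] {f : X → Y} (hf : LS σ f) : LS σ (fun x => Pack.pack σ (f x)) :=
  LS.comp Pack.ls_pack hf

@[fun_prop] theorem LS.unpack [Pack σ Y] {f : X → ℕ} (hf : LS σ f) :
    LS σ (fun x => (Pack.unpack σ (f x) : Y)) :=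
  LS.comp Pack.ls_unpack hf

instance instPackProd [Pack σ Y] [Pack σ Z] : Pack σ (Y × Z) where
  pack := fun p => pr (Pack.pack σ p.1) (Pack.pack σ p.2)
  unpack := fun n => (Pack.unpack σ (prL n), Pack.unpack σ (prR n))
  unpack_pack := fun p => by simp [Pack.unpack_pack]
  ls_pack := by fun_prop
  ls_unpack := by fun_prop
  ok_all := fun w p => ⟨Pack.ok_all w p.1, Pack.ok_all w p.2⟩

theorem pack_bound (Y : Type) [Enc σ Y] [Pack σ Y] : ∃ c : ℕ, ∀ (y : Y) (M : ℕ), 2 ≤ M → Bd σ M y →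
    Pack.pack σ y ≤ M ^ c := by
  obtain ⟨c, hc⟩ := (Pack.ls_pack (σ := σ) (Y := Y)).pb
  exact ⟨c, fun y M h1 h2 => hc [] y M (Pack.ok_all _ _) h1 h2⟩

def precG {Y : Type} (a : Y) (f : ℕ → Y → Y) : ℕ → Y
  | 0 => a
  | j + 1 => f j (precG a f j)

theorem LS.precG [Pack σ Y] {n b : X → ℕ} {a : X → Y} {f : X → ℕ → Y → Y} (hn : LS σ n) (ha : LS σ a)
    (hf : LS σ (fun p : X × ℕ × Y => f p.1 p.2.1 p.2.2)) (hb : PB σ b)
    (hbd : ∀ x, ∀ j < n x, Bd σ (b x) (precG (a x) (f x) j)) :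
    LS σ (fun x => precG (a x) (f x) (n x)) := by
  have e : ∀ x j, P312.prec (Pack.pack σ (a x)) (fun j acc => Pack.pack σ (f x j (Pack.unpack σ acc))) j =
      Pack.pack σ (P312.precG (a x) (f x) j) := by
    intro x j
    induction j with
    | zero => rfl
    | succ j ih => simp only [P312.prec, ih, Pack.unpack_pack, P312.precG]
  obtain ⟨c, hc⟩ := pack_bound (σ := σ) Y
  have hb2 : PB σ (fun x => (b x + 2) ^ c) := by
    have h1 : PB σ (fun x => b x + 2) := hb.add (LS.const 2).pb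
    clear hc
    induction c with
    | zero => simpa using (LS.const (σ := σ) (X := X) 1).pb
    | succ c ih => simpa [pow_succ] using ih.mul h1
  have h3 : LS σ (fun p : X × ℕ × ℕ => f p.1 p.2.1 (Pack.unpack σ p.2.2)) :=
    LS.comp (f := fun p : X × ℕ × ℕ => (p.1, p.2.1, (Pack.unpack σ p.2.2 : Y))) hf (by fun_prop)
  have := LS.prec (a := fun x => Pack.pack σ (a x))
    (f := fun x j acc => Pack.pack σ (f x j (Pack.unpack σ acc))) hn (by fun_prop) h3.pack hb2 (by
      intro x j hj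
      rw [e]
      exact hc _ _ (by omega) (fun i hi => (hbd x j hj i hi).trans (by omega)))
  refine (LS.unpack (Y := Y) this).congr (fun x => ?_)
  rw [e, Pack.unpack_pack]

omit [Fintype σ] in
theorem bd_nat {M x : ℕ} : Bd σ M x ↔ x ≤ M :=
  ⟨fun h => h 0 Nat.one_pos, fun h _ _ => h⟩

omit [Fintype σ] in
theorem bd_prod {M : ℕ} {x : X} {y : Y} : Bd σ M (x, y) ↔ Bd σ M x ∧ Bd σ M y := by
  constructor
  · intro h
    constructor
    · intro i hi
      have := h i (by show i < Enc.ar σ X + Enc.ar σ Y; omega)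
      simpa [Enc.env, hi] using this
    · intro i hi
      have := h (Enc.ar σ X + i) (by show _ < Enc.ar σ X + Enc.ar σ Y; omega)
      simpa [Enc.env] using this
  · intro h i hi
    have hi' : i < Enc.ar σ X + Enc.ar σ Y := hi
    simp only [Enc.env]
    split_ifs with h1
    · exact h.1 i h1
    · exact h.2 _ (by omega)

omit [Fintype σ] in
theorem Bd.mono {M M' : ℕ} {x : X} (h : Bd σ M x) (hM : M ≤ M') : Bd σ M' x :=
  fun i hi => (h i hi).trans hM

end Vale.Agent.P312
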