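import Vale.Agent.P312.Defs

namespace Vale.Agent.P312

/-- Actions of a stack-register machine. -/
inductive Act where
  | nop | push (b : Bool) | pop | inL | inR

/-- Register machines: every label looks at one register (zero / lowest bit) and at the input. -/
structure Mach (σ : Type) where
  L : Type
  fin : Fintype L
  entry : L
  var : L → ℕ
  nx : L → Option Bool → Option σ → Act × Option L

structure MCfg where
  vars : ℕ → ℕ
  ip : ℕ

def top (x : ℕ) : Option Bool := if x = 0 then none else some (decide (x % 2 = 1))

def bitv (b : Bool) : ℕ := if b then 1 else 0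

def applyAct (n : ℕ) (v : ℕ) (c : MCfg) : Act → MCfg
  | .nop => c
  | .push b => ⟨Function.update c.vars v (2 * c.vars v + bitv b), c.ip⟩
  | .pop => ⟨Function.update c.vars v (c.vars v / 2), c.ip⟩
  | .inL => ⟨c.vars, moveInput n c.ip .left⟩
  | .inR => ⟨c.vars, moveInput n c.ip .right⟩

variable {σ : Type}

def Mach.res (M : Mach σ) (w : List σ) (l : M.L) (c : MCfg) : Act × Option M.L :=
  M.nx l (top (c.vars (M.var l))) (readInput w c.ip)

def Mach.next (M : Mach σ) (w : List σ) (l : M.L) (c : MCfg) : MCfg :=
  applyAct w.length (M.var l) c (M.res w l c).1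

/-- Runs to the exit, all registers staying below `B`. -/
inductive Exec (M : Mach σ) (w : List σ) (B : ℕ) : Option M.L → MCfg → MCfg → Prop
  | done (c : MCfg) : Exec M w B none c c
  | step (l : M.L) (c c' : MCfg) :
      (M.next w l c).vars (M.var l) ≤ max B (c.vars (M.var l)) →
      Exec M w B (M.res w l c).2 (M.next w l c) c' → Exec M w B (some l) c c'

theorem Exec.mono {M : Mach σ} {w : List σ} {B B' : ℕ} (h : B ≤ B') {o : Option M.L}
    {c c' : MCfg} (e : Exec M w B o c c') : Exec M w B' o c c' := by
  induction e with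
  | done c => exact Exec.done c
  | step l c c' hb _ ih => exact Exec.step l c c' (hb.trans (max_le_max_right _ h)) ih

/-! ### The Turing machine of a register machine -/

inductive Rep : ℕ → (ℤ → Option Bool) → ℤ → Prop
  | zero : Rep 0 (fun _ => none) 0
  | push (x : ℕ) (T : ℤ → Option Bool) (h : ℤ) (b : Bool) : Rep x T h → 2 * x + bitv b ≠ 0 →
      Rep (2 * x + bitv b) (Function.update T (h + 1) (some b)) (h + 1)

theorem Rep.above {x : ℕ} {T : ℤ → Option Bool} {h : ℤ} (r : Rep x T h) :
    ∀ i, h < i → T i = none := by
  induction r with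
  | zero => intro i _; rfl
  | push x T h b _ _ ih =>
    intro i hi
    rw [Function.update_of_ne (by omega)]
    exact ih i (by omega)

theorem Rep.read {x : ℕ} {T : ℤ → Option Bool} {h : ℤ} (r : Rep x T h) : T h = top x := by
  cases r with
  | zero => simp [top]
  | push x T h b _ hne =>
    rw [Function.update_self, top, if_neg hne]
    cases b <;> simp [bitv]

theorem Rep.head {x : ℕ} {T : ℤ → Option Bool} {h : ℤ} (r : Rep x T h) : h = Nat.size x := by
  induction r with
  | zero => simp
  | push x T h b _ hne ih =>
    have : 2 * x + bitv b = Nat.bit b x := by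
      cases b <;> simp [bitv, Nat.bit]
    rw [this] at hne ⊢
    rw [Nat.size_bit hne, ih]; push_cast; ring

theorem Rep.pop {x : ℕ} {T : ℤ → Option Bool} {h : ℤ} (r : Rep x T h) (hx : x ≠ 0) :
    Rep (x / 2) (Function.update T h none) (h - 1) := by
  cases r with
  | zero => exact absurd rfl hx
  | push y T h b r hne =>
    have h1 : (2 * y + bitv b) / 2 = y := by cases b <;> (simp only [bitv]; simp; try omega)
    rw [h1, Function.update_idem]
    have h2 : Function.update T (h + 1) none = T := by
      rw [Function.update_eq_self_iff]; exact (r.above _ (by omega)).symm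
    rw [h2]; simpa using r

def Mach.K (M : Mach σ) (a : ℕ) : ℕ :=
  max a (@Finset.sup _ _ _ _ (@Finset.univ _ M.fin) M.var) + 1

theorem Mach.var_lt (M : Mach σ) (a : ℕ) (l : M.L) : M.var l < M.K a := by
  have : M.var l ≤ @Finset.sup _ _ _ _ (@Finset.univ _ M.fin) M.var :=
    Finset.le_sup (f := M.var) (@Finset.mem_univ _ M.fin l)
  unfold Mach.K; omega

theorem Mach.a_lt (M : Mach σ) (a : ℕ) : a < M.K a := by
  unfold Mach.K; omega

def keep {K : ℕ} (g : Fin K → Option Bool) : Fin K → Option Bool × Dir := fun i => (g i, .stay)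

@[reducible] def Mach.tm (M : Mach σ) (a : ℕ) : MultiTape σ where
  k := M.K a
  Q := (Option M.L × Option (Bool × Fin (M.K a))) ⊕ Bool
  Γ := Option Bool
  finQ := by haveI := M.fin; infer_instance
  finΓ := inferInstance
  blank := none
  start := .inl (some M.entry, none)
  out := fun q => match q with
    | .inl _ => none
    | .inr b => some b
  δ := fun q s g => match q with
    | .inr b => (.inr b, .stay, keep g)
    | .inl (o, some (b, v)) => (.inl (o, none), .stay, Function.update (keep g) v (some b, .stay))
    | .inl (none, none) => (.inr (g ⟨a, M.a_lt a⟩).isSome, .stay, keep g)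
    | .inl (some l, none) =>
      match M.nx l (g ⟨M.var l, M.var_lt a l⟩) s with
      | (.nop, o) => (.inl (o, none), .stay, keep g)
      | (.inL, o) => (.inl (o, none), .left, keep g)
      | (.inR, o) => (.inl (o, none), .right, keep g)
      | (.pop, o) =>
        if g ⟨M.var l, M.var_lt a l⟩ = none then (.inl (o, none), .stay, keep g)
        else (.inl (o, none), .stay, Function.update (keep g) ⟨M.var l, M.var_lt a l⟩ (none, .left))
      | (.push b, o) =>
        if g ⟨M.var l, M.var_lt a l⟩ = none ∧ b = false then (.inl (o, none), .stay, keep g)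
        else (.inl (o, some (b, ⟨M.var l, M.var_lt a l⟩)), .stay,
          Function.update (keep g) ⟨M.var l, M.var_lt a l⟩ (g ⟨M.var l, M.var_lt a l⟩, .right))

def Good (M : Mach σ) (a B : ℕ) (tc : (M.tm a).Cfg) : Prop :=
  ∀ i, 0 ≤ tc.head i ∧ tc.head i ≤ Nat.size B

def TRel (M : Mach σ) (a : ℕ) (o : Option M.L) (c : MCfg) (tc : (M.tm a).Cfg) : Prop :=
  tc.q = .inl (o, none) ∧ tc.ipos = c.ip ∧ ∀ i : Fin (M.K a), Rep (c.vars i) (tc.tape i) (tc.head i)

theorem TRel.good {M : Mach σ} {a B : ℕ} {o : Option M.L} {c : MCfg} {tc : (M.tm a).Cfg}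
    (r : TRel M a o c tc) (hB : ∀ i, c.vars i ≤ B) : Good M a B tc := by
  intro i
  rw [(r.2.2 i).head]
  exact ⟨by positivity, by exact_mod_cast Nat.size_le_size (hB i)⟩

theorem step_of_running (T : MultiTape σ) (w : List σ) (c : T.Cfg) (h : T.out c.q = none) :
    T.step w c =
      { q := (T.δ c.q (readInput w c.ipos) (fun i => c.tape i (c.head i))).1
        ipos := moveInput w.length c.ipos (T.δ c.q (readInput w c.ipos) (fun i => c.tape i (c.head i))).2.1
        tape := fun i => Function.update (c.tape i) (c.head i)
          ((T.δ c.q (readInput w c.ipos) (fun i => c.tape i (c.head i))).2.2 i).1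
        head := fun i => c.head i +
          ((T.δ c.q (readInput w c.ipos) (fun i => c.tape i (c.head i))).2.2 i).2.toInt } := by
  unfold MultiTape.step
  rw [h]

theorem step_of_halted (T : MultiTape σ) (w : List σ) (c : T.Cfg) {b : Bool} (h : T.out c.q = some b) :
    T.step w c = c := by
  unfold MultiTape.step
  rw [h]

/-- A step whose transition keeps all work tapes. -/
theorem keep_step (M : Mach σ) (a : ℕ) (w : List σ) (tc : (M.tm a).Cfg) (q' : (M.tm a).Q) (d : Dir)
    (hq : (M.tm a).out tc.q = none)
    (hδ : (M.tm a).δ tc.q (readInput w tc.ipos) (fun i => tc.tape i (tc.head i)) =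
      (q', d, keep (fun i => tc.tape i (tc.head i)))) :
    (M.tm a).step w tc = ⟨q', moveInput w.length tc.ipos d, tc.tape, tc.head⟩ := by
  rw [step_of_running _ _ _ hq, hδ]
  congr 1
  · funext i; simp [keep]
  · funext i; simp [keep, Dir.toInt]

/-- A step whose transition changes one work tape. -/
theorem upd_step (M : Mach σ) (a : ℕ) (w : List σ) (tc : (M.tm a).Cfg) (q' : (M.tm a).Q)
    (v : Fin (M.K a)) (s : Option Bool) (d : Dir)
    (hq : (M.tm a).out tc.q = none)
    (hδ : (M.tm a).δ tc.q (readInput w tc.ipos) (fun i => tc.tape i (tc.head i)) =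
      (q', .stay, Function.update (keep (fun i => tc.tape i (tc.head i))) v (s, d))) :
    (M.tm a).step w tc = ⟨q', tc.ipos,
      Function.update tc.tape v (Function.update (tc.tape v) (tc.head v) s),
      Function.update tc.head v (tc.head v + d.toInt)⟩ := by
  rw [step_of_running _ _ _ hq, hδ]
  congr 1
  · funext i
    by_cases hi : i = v
    · subst hi; simp
    · simp [keep, Function.update_of_ne hi]
  · funext i
    by_cases hi : i = v
    · subst hi; simp
    · simp [keep, Function.update_of_ne hi, Dir.toInt]

theorem tm_step (M : Mach σ) (a B : ℕ) (w : List σ) (l : M.L) (c : MCfg) (tc : (M.tm a).Cfg)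
    (r : TRel M a (some l) c tc) (hB : ∀ i, c.vars i ≤ B) (hB' : ∀ i, (M.next w l c).vars i ≤ B) :
    ∃ j, TRel M a (M.res w l c).2 (M.next w l c) (((M.tm a).step w)^[j] tc) ∧
      ∀ i < j, Good M a B (((M.tm a).step w)^[i] tc) := by
  obtain ⟨hq, hip, hr⟩ := r
  have hout : (M.tm a).out tc.q = none := by rw [hq]
  set v : Fin (M.K a) := ⟨M.var l, M.var_lt a l⟩ with hv
  have hg : tc.tape v (tc.head v) = top (c.vars (M.var l)) := (hr v).read
  have good0 : Good M a B tc := TRel.good ⟨hq, hip, hr⟩ hB
  have one : ∀ tc', (M.tm a).step w tc = tc' → TRel M a (M.res w l c).2 (M.next w l c) tc' →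
      ∃ j, TRel M a (M.res w l c).2 (M.next w l c) (((M.tm a).step w)^[j] tc) ∧
      ∀ i < j, Good M a B (((M.tm a).step w)^[i] tc) := by
    intro tc' h1 h2
    refine ⟨1, by simpa [h1] using h2, ?_⟩
    intro i hi
    obtain rfl : i = 0 := by omega
    exact good0
  have hres : M.nx l (tc.tape v (tc.head v)) (readInput w tc.ipos) = M.res w l c := by
    rw [hg, hip]; rfl
  rcases hE : M.res w l c with ⟨act, o⟩
  rw [hE] at hres
  have hnext : M.next w l c = applyAct w.length (M.var l) c act := by
    unfold Mach.next; rw [hE]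
  rw [hE] at one
  cases act with
  | nop =>
    refine one _ (keep_step M a w tc (.inl (o, none)) .stay hout ?_) ?_
    · rw [hq]; simp only [Mach.tm]; erw [hres]
    · rw [hnext]; exact ⟨rfl, hip, hr⟩
  | inL =>
    refine one _ (keep_step M a w tc (.inl (o, none)) .left hout ?_) ?_
    · rw [hq]; simp only [Mach.tm]; erw [hres]
    · rw [hnext]; exact ⟨rfl, by simp [applyAct, hip], hr⟩
  | inR =>
    refine one _ (keep_step M a w tc (.inl (o, none)) .right hout ?_) ?_
    · rw [hq]; simp only [Mach.tm]; erw [hres]
    · rw [hnext]; exact ⟨rfl, by simp [applyAct, hip], hr⟩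
  | pop =>
    by_cases h0 : tc.tape v (tc.head v) = none
    · refine one _ (keep_step M a w tc (.inl (o, none)) .stay hout ?_) ?_
      · rw [hq]; simp only [Mach.tm]; erw [hres]; exact if_pos h0
      · rw [hnext]
        have hz : c.vars (M.var l) = 0 := by
          rw [hg] at h0; unfold top at h0; by_contra hne; simp [hne] at h0
        refine ⟨rfl, hip, fun i => ?_⟩
        have : Function.update c.vars (M.var l) (c.vars (M.var l) / 2) = c.vars := by
          rw [Function.update_eq_self_iff, hz]
        simp only [applyAct, this]; exact hr i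
    · refine one _ (upd_step M a w tc (.inl (o, none)) v none .left hout ?_) ?_
      · rw [hq]; simp only [Mach.tm]; erw [hres]; exact if_neg h0
      · rw [hnext]
        have hz : c.vars (M.var l) ≠ 0 := by
          rw [hg] at h0; unfold top at h0; intro hne; simp [hne] at h0
        refine ⟨rfl, hip, fun i => ?_⟩
        by_cases hi : i = v
        · subst hi
          simp only [applyAct, Function.update_self, hv]
          exact (hr v).pop hz
        · have hi' : (i : ℕ) ≠ M.var l := fun h => hi (Fin.ext h)
          simp only [applyAct, Function.update_of_ne hi, Function.update_of_ne hi']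
          exact hr i
  | push b =>
    by_cases h0 : tc.tape v (tc.head v) = none ∧ b = false
    · refine one _ (keep_step M a w tc (.inl (o, none)) .stay hout ?_) ?_
      · rw [hq]; simp only [Mach.tm]; erw [hres]; exact if_pos h0
      · rw [hnext]
        have hz : c.vars (M.var l) = 0 := by
          have h1 := h0.1
          rw [hg] at h1; unfold top at h1; by_contra hne; simp [hne] at h1
        refine ⟨rfl, hip, fun i => ?_⟩
        have : Function.update c.vars (M.var l) (2 * c.vars (M.var l) + bitv b) = c.vars := by
          rw [Function.update_eq_self_iff, hz, h0.2]; rfl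
        simp only [applyAct, this]; exact hr i
    · have s1 := upd_step M a w tc (.inl (o, some (b, v))) v (tc.tape v (tc.head v)) .right hout
        (by rw [hq]; simp only [Mach.tm]; erw [hres]; exact if_neg h0)
      set tc1 := (M.tm a).step w tc with htc1
      have s2 := upd_step M a w tc1 (.inl (o, none)) v (some b) .stay (by rw [s1])
        (by rw [s1])
      have hne : 2 * c.vars (M.var l) + bitv b ≠ 0 := by
        intro hz
        apply h0
        have hz1 : c.vars (M.var l) = 0 := by omega
        refine ⟨by rw [hg, hz1]; rfl, ?_⟩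
        cases b
        · rfl
        · simp [bitv] at hz
      have fin : TRel M a o (M.next w l c) ((M.tm a).step w tc1) := by
        rw [s2, hnext]
        refine ⟨rfl, by rw [s1]; exact hip, fun i => ?_⟩
        by_cases hi : i = v
        · subst hi
          simp only [applyAct, Function.update_self, s1, Dir.toInt, Function.update_eq_self, add_zero, hv]
          exact Rep.push _ _ _ b (hr v) hne
        · have hi' : (i : ℕ) ≠ M.var l := fun h => hi (Fin.ext h)
          simp only [applyAct, Function.update_of_ne hi, Function.update_of_ne hi', s1]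
          exact hr i
      refine ⟨2, fin, ?_⟩
      intro i hi
      rcases (by omega : i = 0 ∨ i = 1) with rfl | rfl
      · exact good0
      · have g2 := fin.good hB'
        intro i
        have := g2 i
        rw [s2] at this
        show 0 ≤ tc1.head i ∧ tc1.head i ≤ _
        by_cases hi : i = v
        · subst hi; simpa [Dir.toInt] using this
        · simpa [Function.update_of_ne hi] using this

theorem next_vars_ne (M : Mach σ) (w : List σ) (l : M.L) (c : MCfg) (i : ℕ) (hi : i ≠ M.var l) :
    (M.next w l c).vars i = c.vars i := by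
  unfold Mach.next
  cases (M.res w l c).1 <;> simp [applyAct, Function.update_of_ne hi]

theorem tm_exec (M : Mach σ) (a B : ℕ) (w : List σ) {o : Option M.L} {c c' : MCfg}
    (e : Exec M w B o c c') : ∀ tc : (M.tm a).Cfg, TRel M a o c tc → (∀ i, c.vars i ≤ B) →
    ∃ j, TRel M a none c' (((M.tm a).step w)^[j] tc) ∧ (∀ i, c'.vars i ≤ B) ∧
      ∀ i < j, Good M a B (((M.tm a).step w)^[i] tc) := by
  induction e with
  | done c => intro tc r hB; exact ⟨0, r, hB, fun i hi => absurd hi (by omega)⟩
  | step l c c' hb _ ih =>
    intro tc r hB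
    have hB' : ∀ i, (M.next w l c).vars i ≤ B := by
      intro i
      by_cases hi : i = M.var l
      · subst hi; exact hb.trans (max_le le_rfl (hB _))
      · rw [next_vars_ne _ _ _ _ _ hi]; exact hB i
    obtain ⟨j1, r1, g1⟩ := tm_step M a B w l c tc r hB hB'
    obtain ⟨j2, r2, hB2, g2⟩ := ih _ r1 hB'
    refine ⟨j2 + j1, by rw [Function.iterate_add_apply]; exact r2, hB2, ?_⟩
    intro i hi
    by_cases h : i < j1
    · exact g1 i h
    · obtain ⟨i', rfl⟩ : ∃ i', i = i' + j1 := ⟨i - j1, by omega⟩
      rw [Function.iterate_add_apply]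
      exact g2 i' (by omega)

/-- The Turing machine of `M` decides by register `a` within `K (size B + 1)` cells. -/
theorem tm_decides (M : Mach σ) (a B : ℕ) (w : List σ) (c' : MCfg)
    (e : Exec M w B (some M.entry) ⟨fun _ => 0, 0⟩ c') :
    (M.tm a).UsesSpace w (M.K a * (Nat.size B + 1)) ∧ ∃ (j : ℕ) (b : Bool),
      (M.tm a).out (((M.tm a).step w)^[j] (M.tm a).startCfg).q = some b ∧
        (b = true ↔ c'.vars a ≠ 0) := by
  obtain ⟨j, r, hB, g⟩ := tm_exec M a B w e (M.tm a).startCfg
    ⟨rfl, rfl, fun i => Rep.zero⟩ (fun _ => Nat.zero_le _)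
  set tc := ((M.tm a).step w)^[j] (M.tm a).startCfg with htc
  have hout : (M.tm a).out tc.q = none := by rw [r.1]
  have s1 := keep_step M a w tc (.inr (tc.tape ⟨a, M.a_lt a⟩ (tc.head ⟨a, M.a_lt a⟩)).isSome) .stay hout
    (by rw [r.1])
  have gj : Good M a B tc := r.good hB
  have halt : ∀ i, ((M.tm a).step w)^[i + 1] tc = (M.tm a).step w tc := by
    intro i
    induction i with
    | zero => rfl
    | succ i ih =>
      rw [Function.iterate_succ_apply', ih]
      exact step_of_halted _ _ _ (by rw [s1])
  constructor
  · refine ⟨(Finset.univ : Finset (Fin (M.K a))) ×ˢ Finset.Icc (0 : ℤ) (Nat.size B), ?_, ?_⟩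
    · rw [Finset.card_product]; simp
    · intro i t
      have : Good M a B (((M.tm a).step w)^[i] (M.tm a).startCfg) := by
        rcases lt_trichotomy i j with h | h | h
        · exact g i h
        · rw [h]; exact gj
        · obtain ⟨i', rfl⟩ : ∃ i', i = (i' + 1) + j := ⟨i - j - 1, by omega⟩
          rw [Function.iterate_add_apply, ← htc, halt, s1]
          exact gj
      refine Finset.mem_product.2 ⟨Finset.mem_univ _, ?_⟩
      exact Finset.mem_Icc.2 (this t)
  · refine ⟨1 + j, (tc.tape ⟨a, M.a_lt a⟩ (tc.head ⟨a, M.a_lt a⟩)).isSome, ?_, ?_⟩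
    · rw [Function.iterate_add_apply, ← htc]
      show (M.tm a).out ((M.tm a).step w tc).q = _
      rw [s1]
    · rw [(r.2.2 ⟨a, M.a_lt a⟩).read]
      unfold top
      by_cases h : c'.vars a = 0 <;> simp [h]

end Vale.Agent.P312
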