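import Vale.Agent.P312.LS2

namespace Vale.Agent.P312

open Finset

variable {p : ℕ} [hp : Fact p.Prime]

/-- Functions given by a polynomial of degree at most `d`. -/
def PD (d : ℕ) (f : ZMod p → ZMod p) : Prop :=
  ∃ P : Polynomial (ZMod p), P.natDegree ≤ d ∧ ∀ t, P.eval t = f t

theorem PD.mono {d d' : ℕ} {f : ZMod p → ZMod p} (h : PD d f) (hd : d ≤ d') : PD d' f := by
  obtain ⟨P, h1, h2⟩ := h
  exact ⟨P, h1.trans hd, h2⟩

theorem PD.const (d : ℕ) (c : ZMod p) : PD d (fun _ => c) :=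
  ⟨Polynomial.C c, by simp, by simp⟩

theorem PD.lin (a b : ZMod p) : PD 1 (fun t => t * a + b) := by
  refine ⟨Polynomial.C a * Polynomial.X + Polynomial.C b, Polynomial.natDegree_linear_le, ?_⟩
  intro t
  rw [Polynomial.eval_add, Polynomial.eval_mul, Polynomial.eval_C, Polynomial.eval_X, Polynomial.eval_C,
    mul_comm]

theorem PD.add {d : ℕ} {f g : ZMod p → ZMod p} (hf : PD d f) (hg : PD d g) :
    PD d (fun t => f t + g t) := by
  obtain ⟨P, h1, h2⟩ := hf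
  obtain ⟨Q, h3, h4⟩ := hg
  exact ⟨P + Q, (Polynomial.natDegree_add_le _ _).trans (max_le h1 h3), by simp [h2, h4]⟩

theorem PD.mul {d e : ℕ} {f g : ZMod p → ZMod p} (hf : PD d f) (hg : PD e g) :
    PD (d + e) (fun t => f t * g t) := by
  obtain ⟨P, h1, h2⟩ := hf
  obtain ⟨Q, h3, h4⟩ := hg
  exact ⟨P * Q, Polynomial.natDegree_mul_le.trans (add_le_add h1 h3), by simp [h2, h4]⟩

theorem PD.sum {ι : Type} {d : ℕ} (s : Finset ι) {f : ι → ZMod p → ZMod p}
    (h : ∀ i ∈ s, PD d (f i)) : PD d (fun t => ∑ i ∈ s, f i t) := by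
  classical
  induction s using Finset.induction_on with
  | empty => simpa using PD.const d 0
  | insert a s ha ih =>
    simp only [Finset.sum_insert ha]
    exact (h a (mem_insert_self _ _)).add (ih (fun i hi => h i (mem_insert_of_mem hi)))

theorem PD.prod {ι : Type} {d : ℕ} (s : Finset ι) {f : ι → ZMod p → ZMod p}
    (h : ∀ i ∈ s, PD d (f i)) : PD (s.card * d) (fun t => ∏ i ∈ s, f i t) := by
  classical
  induction s using Finset.induction_on with
  | empty => simpa using PD.const 0 1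
  | insert a s ha ih =>
    simp only [Finset.prod_insert ha, Finset.card_insert_of_notMem ha]
    rw [show (s.card + 1) * d = d + s.card * d by ring]
    exact (h a (mem_insert_self _ _)).mul (ih (fun i hi => h i (mem_insert_of_mem hi)))

theorem sum_range_cast (f : ZMod p → ZMod p) : ∑ ω ∈ range p, f (ω : ℕ) = ∑ t, f t := by
  refine Finset.sum_bij (fun ω _ => ((ω : ℕ) : ZMod p)) (fun _ _ => mem_univ _) ?_ ?_ (fun _ _ => rfl)
  · intro a ha b hb h
    have := congrArg ZMod.val h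
    rwa [ZMod.val_cast_of_lt (mem_range.1 ha), ZMod.val_cast_of_lt (mem_range.1 hb)] at this
  · intro t _
    exact ⟨t.val, mem_range.2 (ZMod.val_lt t), by simp⟩

theorem PD.sum_units {d : ℕ} {f : ZMod p → ZMod p} (h : PD d f) (hd : d + 1 < p) :
    ∑ ω ∈ Ico 1 p, f (ω : ℕ) = - f 0 := by
  obtain ⟨P, h1, h2⟩ := h
  have h0 : ∑ t, f t = 0 := by
    simp only [← h2, Polynomial.eval_eq_sum_range' (show P.natDegree < d + 1 by omega)]
    rw [Finset.sum_comm]
    refine Finset.sum_eq_zero (fun i hi => ?_)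
    rw [← Finset.mul_sum, FiniteField.sum_pow_lt_card_sub_one (ZMod p) i
      (by rw [ZMod.card]; have := mem_range.1 hi; omega), mul_zero]
  rw [← sum_range_cast, Finset.range_eq_Ico, Finset.sum_eq_sum_Ico_succ_bot hp.out.pos] at h0
  simp only [Nat.cast_zero, zero_add] at h0
  exact eq_neg_of_add_eq_zero_right h0

noncomputable def Num (h a : ℕ) (y : ZMod p) : ZMod p := ∏ a' ∈ range h, if a' = a then 1 else y - (a' : ℕ)

noncomputable def Lag (h a : ℕ) (y : ZMod p) : ZMod p := Num h a y * Num h a ((a : ℕ) : ZMod p) ^ (p - 2)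

theorem cast_ne {a b : ℕ} (ha : a < p) (hb : b < p) (h : a ≠ b) : (a : ZMod p) ≠ b := by
  intro e
  have := congrArg ZMod.val e
  rw [ZMod.val_cast_of_lt ha, ZMod.val_cast_of_lt hb] at this
  exact h this

theorem mul_pow_sub_two {x : ZMod p} (hx : x ≠ 0) : x * x ^ (p - 2) = 1 := by
  rw [← pow_succ', show p - 2 + 1 = p - 1 by have := hp.out.two_le; omega]
  exact ZMod.pow_card_sub_one_eq_one hx

theorem Lag_cast {h a b : ℕ} (hh : h ≤ p) (ha : a < h) (hb : b < h) :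
    Lag h a ((b : ℕ) : ZMod p) = if a = b then 1 else 0 := by
  split_ifs with e
  · subst e
    refine mul_pow_sub_two (Finset.prod_ne_zero_iff.2 (fun a' ha' => ?_))
    split_ifs with e
    · exact one_ne_zero
    · exact sub_ne_zero.2 (cast_ne (by omega) (by have := mem_range.1 ha'; omega) (Ne.symm e))
  · unfold Lag
    rw [show Num h a ((b : ℕ) : ZMod p) = 0 from
      Finset.prod_eq_zero (mem_range.2 hb) (by rw [if_neg (Ne.symm e), sub_self]), zero_mul]

theorem PD.lag (h a : ℕ) {y : ZMod p → ZMod p} (hy : PD 1 y) : PD h (fun t => Lag h a (y t)) := by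
  have h1 : PD ((range h).card * 1) (fun t => Num h a (y t)) := by
    refine PD.prod (range h) (f := fun a' t => if a' = a then 1 else y t - (a' : ℕ)) (fun a' _ => ?_)
    by_cases e : a' = a
    · simpa [e] using PD.const 1 1
    · simpa [e, sub_eq_add_neg] using hy.add (PD.const 1 (-((a' : ℕ) : ZMod p)))
  simpa [Lag] using h1.mul (PD.const 0 (Num h a ((a : ℕ) : ZMod p) ^ (p - 2)))

noncomputable def Wt (h : ℕ) {N : ℕ} (n z : ℕ) (Y : Fin N → ZMod p) : ZMod p :=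
  ∏ i : Fin N, if (i : ℕ) < n then Lag h (dg h z i) (Y i) else 1

noncomputable def Ext (h : ℕ) {N : ℕ} (n : ℕ) (φ : ℕ → ℕ → ℕ) (Y X : Fin N → ZMod p) : ZMod p :=
  ∑ zh ∈ range (h ^ n), ∑ zc ∈ range (h ^ N), (φ zh zc : ZMod p) * Wt h n zh Y * Wt h N zc X

theorem Wt_grid {h N n z z0 : ℕ} (hh : h ≤ p) (h0 : 0 < h) (hn : n ≤ N) (hz : z < h ^ n)
    {Y : Fin N → ZMod p} (hY : ∀ i : Fin N, (i : ℕ) < n → Y i = (dg h z0 i : ℕ)) :
    Wt h n z Y = if z = z0 % h ^ n then 1 else 0 := by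
  unfold Wt
  split_ifs with e
  · refine Finset.prod_eq_one (fun i _ => ?_)
    split_ifs with hi
    · rw [hY i hi, Lag_cast hh (dg_lt h0 _ _) (dg_lt h0 _ _), if_pos]
      rw [e, dg_mod_pow h0 _ _ _ hi]
    · rfl
  · have : ∃ i < n, dg h z i ≠ dg h z0 i := by
      by_contra hc
      push Not at hc
      apply e
      refine eq_of_dg hz (Nat.mod_lt _ (by positivity)) (fun i hi => ?_)
      rw [dg_mod_pow h0 _ _ _ hi, hc i hi]
    obtain ⟨i, hi, hne⟩ := this
    refine Finset.prod_eq_zero (mem_univ (⟨i, by omega⟩ : Fin N)) ?_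
    rw [if_pos hi, hY _ hi, Lag_cast hh (dg_lt h0 _ _) (dg_lt h0 _ _), if_neg hne]

theorem Ext_grid {h N n z0 c0 : ℕ} (hh : h ≤ p) (h0 : 0 < h) (hn : n ≤ N) (hc : c0 < h ^ N)
    (φ : ℕ → ℕ → ℕ) {Y X : Fin N → ZMod p} (hY : ∀ i : Fin N, (i : ℕ) < n → Y i = (dg h z0 i : ℕ))
    (hX : ∀ i : Fin N, X i = (dg h c0 i : ℕ)) :
    Ext h n φ Y X = (φ (z0 % h ^ n) c0 : ℕ) := by
  unfold Ext
  rw [Finset.sum_eq_single (z0 % h ^ n), Finset.sum_eq_single c0]
  · rw [Wt_grid hh h0 hn (Nat.mod_lt _ (by positivity)) hY, Wt_grid hh h0 le_rfl hc (fun i _ => hX i)]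
    simp [Nat.mod_eq_of_lt hc]
  · intro b hb hne
    rw [Wt_grid hh h0 le_rfl (mem_range.1 hb) (fun i _ => hX i), Nat.mod_eq_of_lt hc, if_neg hne,
      mul_zero]
  · intro hc'; exact absurd (mem_range.2 hc) hc'
  · intro b hb hne
    refine Finset.sum_eq_zero (fun zc _ => ?_)
    rw [Wt_grid hh h0 hn (mem_range.1 hb) hY, if_neg hne, mul_zero, zero_mul]
  · intro hc'; exact absurd (mem_range.2 (Nat.mod_lt _ (by positivity))) hc'

theorem PD.wt (h : ℕ) {N : ℕ} (n z : ℕ) {Y : ZMod p → Fin N → ZMod p}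
    (hY : ∀ i : Fin N, (i : ℕ) < n → PD 1 (fun t => Y t i)) : PD (N * h) (fun t => Wt h n z (Y t)) := by
  have := PD.prod (d := h) (univ : Finset (Fin N))
    (f := fun i t => if (i : ℕ) < n then Lag h (dg h z i) (Y t i) else 1) (fun i _ => by
      by_cases e : (i : ℕ) < n
      · simpa [e] using PD.lag h (dg h z i) (hY i e)
      · simpa [e] using PD.const h 1)
  simpa [Wt] using this

theorem PD.ext (h : ℕ) {N : ℕ} (n : ℕ) (φ : ℕ → ℕ → ℕ) {Y X : ZMod p → Fin N → ZMod p}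
    (hY : ∀ i : Fin N, (i : ℕ) < n → PD 1 (fun t => Y t i)) (hX : ∀ i, PD 1 (fun t => X t i)) :
    PD (2 * N * h) (fun t => Ext h n φ (Y t) (X t)) := by
  refine PD.sum _ (fun zh _ => PD.sum _ (fun zc _ => ?_))
  have := ((PD.const 0 (φ zh zc : ZMod p)).mul (PD.wt h n zh hY)).mul (PD.wt h N zc (fun i _ => hX i))
  exact this.mono (by ring_nf; omega)

/-! ### Implementation on numbers -/

omit hp in
def numN (p h a y : ℕ) : ℕ := prodM h p (fun a' => if a' = a then 1 else y + p - a')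
omit hp in
def lagN (p h a y : ℕ) : ℕ := numN p h a y * powM (numN p h a a) (p - 2) p % p
omit hp in
def wtN (p h n z x : ℕ) : ℕ := prodM n p (fun i => lagN p h (dg h z i) (dg p x i))
omit hp in
def extN (p h N n Hn HN : ℕ) (φ : ℕ → ℕ → ℕ) (y x : ℕ) : ℕ :=
  (∑ zh ∈ range Hn, ∑ zc ∈ range HN, φ zh zc * wtN p h n zh y * wtN p h N zc x) % p
omit hp in
def vecN (p N PN : ℕ) (f : ℕ → ℕ) : ℕ := odM p N PN (fun i => f i % p)

section
variable {σ : Type} [Fintype σ] {X : Type} [Enc σ X]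

omit hp in
@[fun_prop] theorem LS.numN {p h a y : X → ℕ} (h1 : LS σ p) (h2 : LS σ h) (h3 : LS σ a) (h4 : LS σ y) :
    LS σ (fun x => numN (p x) (h x) (a x) (y x)) := by
  unfold P312.numN; fun_prop

omit hp in
@[fun_prop] theorem LS.lagN {p h a y : X → ℕ} (h1 : LS σ p) (h2 : LS σ h) (h3 : LS σ a) (h4 : LS σ y) :
    LS σ (fun x => lagN (p x) (h x) (a x) (y x)) := by
  unfold P312.lagN; fun_prop

omit hp in
@[fun_prop] theorem LS.wtN {p h n z y : X → ℕ} (h1 : LS σ p) (h2 : LS σ h) (h3 : LS σ n) (h4 : LS σ z)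
    (h5 : LS σ y) : LS σ (fun x => wtN (p x) (h x) (n x) (z x) (y x)) := by
  unfold P312.wtN; fun_prop

omit hp in
@[fun_prop] theorem LS.extN {p h N n Hn HN y z : X → ℕ} {φ : X → ℕ → ℕ → ℕ} (h1 : LS σ p) (h2 : LS σ h)
    (h3 : LS σ N) (h4 : LS σ n) (h5 : LS σ Hn) (h6 : LS σ HN)
    (h7 : LS σ (fun q : X × ℕ × ℕ => φ q.1 q.2.1 q.2.2)) (h8 : LS σ y) (h9 : LS σ z) :
    LS σ (fun x => extN (p x) (h x) (N x) (n x) (Hn x) (HN x) (φ x) (y x) (z x)) := by
  unfold P312.extN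
  have h10 : LS σ (fun q : (X × ℕ) × ℕ => φ q.1.1 q.1.2 q.2) :=
    LS.comp (f := fun q : (X × ℕ) × ℕ => (q.1.1, q.1.2, q.2)) h7 (by fun_prop)
  refine LS.mod (LS.sum h5 (LS.sum (by fun_prop) (LS.mul (LS.mul h10 ?_) ?_))) h1 <;> fun_prop

omit hp in
@[fun_prop] theorem LS.vecN {p N PN : X → ℕ} {f : X → ℕ → ℕ} (h1 : LS σ p) (h2 : LS σ N) (h3 : LS σ PN)
    (h4 : LS σ (fun q : X × ℕ => f q.1 q.2)) : LS σ (fun x => vecN (p x) (N x) (PN x) (f x)) := by
  unfold P312.vecN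
  exact LS.odM h1 h2 h3 (LS.mod h4 (by fun_prop))
end

theorem cast_prodM (n : ℕ) (f : ℕ → ℕ) :
    ((prodM n p f : ℕ) : ZMod p) = ∏ i ∈ range n, (f i : ZMod p) := by
  rw [prodM_eq hp.out.ne_zero]; simp

theorem cast_powM (a n : ℕ) : ((powM a n p : ℕ) : ZMod p) = (a : ZMod p) ^ n := by
  rw [powM_eq hp.out.ne_zero]; simp

theorem cast_numN {h : ℕ} (hh : h ≤ p) (a y : ℕ) : ((numN p h a y : ℕ) : ZMod p) = Num h a (y : ZMod p) := by
  unfold numN Num
  rw [cast_prodM]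
  refine Finset.prod_congr rfl (fun a' ha' => ?_)
  split_ifs
  · simp
  · rw [Nat.cast_sub (by have := mem_range.1 ha'; omega)]; simp

theorem cast_lagN {h : ℕ} (hh : h ≤ p) (a y : ℕ) : ((lagN p h a y : ℕ) : ZMod p) = Lag h a (y : ZMod p) := by
  unfold lagN Lag
  simp [cast_powM, cast_numN hh]

/-- The number whose base-`p` digits are the entries of `v`. -/
def enc {N : ℕ} (v : Fin N → ZMod p) : ℕ :=
  ofD p N (fun i => if hi : i < N then (v ⟨i, hi⟩).val else 0)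

theorem enc_aux {N : ℕ} (v : Fin N → ZMod p) :
    ∀ i < N, (fun i => if hi : i < N then (v ⟨i, hi⟩).val else 0) i < p := by
  intro i hi
  simp only [dif_pos hi]; exact ZMod.val_lt _

theorem enc_lt {N : ℕ} (v : Fin N → ZMod p) : enc v < p ^ N := ofD_lt (enc_aux v)

theorem dg_enc {N : ℕ} (v : Fin N → ZMod p) (i : Fin N) : dg p (enc v) i = (v i).val := by
  unfold enc
  rw [dg_ofD (enc_aux v) i.2, dif_pos i.2]

theorem cast_dg_enc {N : ℕ} (v : Fin N → ZMod p) (i : Fin N) : ((dg p (enc v) i : ℕ) : ZMod p) = v i := by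
  rw [dg_enc]; simp

theorem vecN_eq (N : ℕ) (f : ℕ → ℕ) :
    vecN p N (p ^ N) f = enc (fun i : Fin N => (f i : ZMod p)) := by
  unfold vecN
  rw [odM_eq (ofD_lt (fun i _ => Nat.mod_lt _ hp.out.pos))]
  refine ofD_congr (fun i hi => ?_)
  simp [dif_pos hi, ZMod.val_natCast]

theorem enc_zero (N : ℕ) : enc (fun _ : Fin N => (0 : ZMod p)) = 0 := by
  simp [enc, ofD]

theorem cast_wtN {h N n : ℕ} (hh : h ≤ p) (hn : n ≤ N) (z : ℕ) (Y : Fin N → ZMod p) :
    ((wtN p h n z (enc Y) : ℕ) : ZMod p) = Wt h n z Y := by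
  unfold wtN Wt
  rw [cast_prodM]
  let F : ℕ → ZMod p := fun i => if i < n then (lagN p h (dg h z i) (dg p (enc Y) i) : ℕ) else 1
  have e1 : ∏ i : Fin N, (if (i : ℕ) < n then Lag h (dg h z i) (Y i) else 1) = ∏ i : Fin N, F i := by
    refine Finset.prod_congr rfl (fun i _ => ?_)
    simp only [F]
    split_ifs
    · rw [cast_lagN hh, cast_dg_enc]
    · rfl
  rw [e1, Fin.prod_univ_eq_prod_range F N]
  symm
  rw [← Finset.prod_subset (Finset.range_mono hn)]
  · exact Finset.prod_congr rfl (fun i hi => if_pos (mem_range.1 hi))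
  · intro i _ hi
    exact if_neg (by simpa using hi)

theorem cast_extN {h N n : ℕ} (hh : h ≤ p) (hn : n ≤ N) (φ : ℕ → ℕ → ℕ) (Y X : Fin N → ZMod p) :
    ((extN p h N n (h ^ n) (h ^ N) φ (enc Y) (enc X) : ℕ) : ZMod p) = Ext h n φ Y X := by
  unfold extN Ext
  simp [cast_wtN hh hn, cast_wtN hh le_rfl]

theorem extN_lt (h N n Hn HN : ℕ) (φ : ℕ → ℕ → ℕ) (y x : ℕ) : extN p h N n Hn HN φ y x < p :=
  Nat.mod_lt _ hp.out.pos

end Vale.Agent.P312
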