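import Vale.Agent.P312.Algo

namespace Vale.Agent.P312

open Finset

variable {σ : Type}

namespace Sys
variable (S : Sys σ) (w : List σ) (κ : Par)

def proc : ℕ → ℕ × (ℕ → ℕ)
  | 0 => (S.l0 κ, S.ini w κ)
  | v + 1 => (S.nxt κ (proc v).1 (S.V1 κ (proc v).1 ((proc v).2 (S.blk (proc v).1))),
      Function.update (proc v).2 (S.blk (proc v).1) (S.V2 κ (proc v).1 ((proc v).2 (S.blk (proc v).1))))

def loc (v : ℕ) : ℕ := (S.proc w κ v).1
def cont (v : ℕ) : ℕ → ℕ := (S.proc w κ v).2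
def msg (v : ℕ) : ℕ := S.V1 κ (S.loc w κ v) (S.cont w κ v (S.blk (S.loc w κ v)))

theorem loc_succ (v : ℕ) : S.loc w κ (v + 1) = S.nxt κ (S.loc w κ v) (S.msg w κ v) := rfl

theorem cont_succ (v : ℕ) : S.cont w κ (v + 1) = Function.update (S.cont w κ v) (S.blk (S.loc w κ v))
    (S.V2 κ (S.loc w κ v) (S.cont w κ v (S.blk (S.loc w κ v)))) := rfl

theorem msg_lt (v : ℕ) : S.msg w κ v < S.α := S.V1_lt _ _ _

theorem loc_le (v : ℕ) : S.loc w κ v ≤ κ.Z - 1 := by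
  cases v with
  | zero => exact S.l0_le κ
  | succ v => exact S.nxt_le _ _ _

theorem cont_le (v j : ℕ) : S.cont w κ v j ≤ κ.HN - 1 := by
  induction v with
  | zero => exact S.ini_le _ _ _
  | succ v ih =>
    rw [cont_succ, Function.update_apply]
    split_ifs
    · exact S.V2_le _ _ _
    · exact ih

theorem trace_true (v0 z n : ℕ) (h : ∀ v < n, dg S.α z v = S.msg w κ (v0 + v)) :
    S.trace κ (S.loc w κ v0) z n = S.loc w κ (v0 + n) := by
  induction n with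
  | zero => rfl
  | succ n ih =>
    have := ih (fun v hv => h v (by omega))
    unfold trace at this ⊢
    simp only [prec]
    rw [this, h n (by omega), ← add_assoc, loc_succ]

theorem rep_true (v0 z j n : ℕ) (h : ∀ v < n, dg S.α z v = S.msg w κ (v0 + v)) :
    S.rep κ (S.loc w κ v0) z j (S.cont w κ v0 j) n = S.cont w κ (v0 + n) j := by
  induction n with
  | zero => rfl
  | succ n ih =>
    have := ih (fun v hv => h v (by omega))
    unfold rep at this ⊢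
    simp only [prec]
    rw [this, S.trace_true w κ v0 z n (fun v hv => h v (by omega)), ← add_assoc, cont_succ,
      Function.update_apply]
    by_cases e : S.blk (S.loc w κ (v0 + n)) = j
    · rw [if_pos e, if_pos e.symm, e]
    · rw [if_neg e, if_neg (Ne.symm e)]

theorem trace_le (l z n : ℕ) (hl : l ≤ κ.Z - 1) : S.trace κ l z n ≤ κ.Z - 1 := by
  cases n with
  | zero => exact hl
  | succ n => exact S.nxt_le _ _ _

/-- The messages of epoch `k` as one number. -/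
def HH (k : ℕ) : ℕ := ofD S.α (κ.u * κ.g) (fun v => S.msg w κ (k * κ.u * κ.g + v))

structure Good : Prop where
  N_eq : κ.N = κ.u * κ.u
  g_eq : κ.g = κ.u * κ.L
  h_eq : κ.h = S.α ^ κ.L
  PN_eq : κ.PN = κ.p ^ κ.N
  HN_eq : κ.HN = κ.h ^ κ.N
  ZB_eq : κ.ZB = κ.Z ^ (κ.N + 1)
  u_pos : 1 ≤ κ.u
  L_pos : 1 ≤ κ.L
  h_le : κ.h ≤ κ.p
  deg_lt : κ.g * (2 * κ.N * κ.h) + 1 < κ.p
  Z_ge : 2 ≤ κ.Z
  prime : κ.p.Prime

variable {S w κ}

theorem Good.h_pos (G : S.Good κ) : 0 < κ.h := by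
  rw [G.h_eq]; have := S.two_le; positivity

theorem Good.g_pos (G : S.Good κ) : 0 < κ.g := by
  rw [G.g_eq]; exact Nat.mul_pos G.u_pos G.L_pos

theorem Good.pow_h (G : S.Good κ) (i : ℕ) : κ.h ^ (i * κ.u) = S.α ^ (i * κ.g) := by
  rw [G.h_eq, G.g_eq, ← pow_mul]; congr 1; ring

theorem Good.powM_h (G : S.Good κ) {n : ℕ} (hn : n ≤ κ.N) : powM κ.h n (κ.HN + 1) = κ.h ^ n := by
  refine powM_of_lt ?_
  rw [G.HN_eq]
  exact Nat.lt_succ_of_le (Nat.pow_le_pow_right G.h_pos hn)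

theorem Good.cont_lt (G : S.Good κ) (v j : ℕ) : S.cont w κ v j < κ.h ^ κ.N := by
  have h1 := S.cont_le w κ v j
  have h2 : 0 < κ.h ^ κ.N := pow_pos G.h_pos _
  rw [G.HN_eq] at h1; omega

theorem Good.loc_lt (G : S.Good κ) (v : ℕ) : S.loc w κ v < κ.Z := by
  have h1 := S.loc_le w κ v
  have := G.Z_ge
  omega

theorem Good.HH_lt (G : S.Good κ) (k : ℕ) : S.HH w κ k < κ.h ^ κ.N := by
  rw [G.N_eq, G.pow_h]
  exact ofD_lt (fun v _ => S.msg_lt w κ _)

theorem dg_HH (k v : ℕ) (hv : v < κ.u * κ.g) : dg S.α (S.HH w κ k) v = S.msg w κ (k * κ.u * κ.g + v) :=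
  dg_ofD (fun _ _ => S.msg_lt w κ _) hv

/-- The true messages of group `i` of epoch `k`. -/
def gam (S : Sys σ) (w : List σ) (κ : Par) (k i : ℕ) : ℕ := S.HH w κ k / κ.h ^ (i * κ.u) % κ.h ^ κ.u

theorem Good.gam_lt (G : S.Good κ) (k i : ℕ) : S.gam w κ k i < κ.h ^ κ.u :=
  Nat.mod_lt _ (pow_pos G.h_pos _)

theorem Good.dg_gam (G : S.Good κ) {k i r : ℕ} (hi : i < κ.u) (hr : r < κ.g) :
    dg S.α (S.gam w κ k i) r = S.msg w κ ((k * κ.u + i) * κ.g + r) := by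
  have hα : 0 < S.α := by have := S.two_le; omega
  have e : κ.h ^ κ.u = S.α ^ κ.g := by simpa using G.pow_h 1
  unfold gam
  rw [e, G.pow_h, dg_mod_pow hα _ _ _ hr, dg_div_pow, dg_HH _ _ (by nlinarith)]
  congr 1; ring

theorem Good.dg_h_gam (G : S.Good κ) {k i e : ℕ} (he : e < κ.u) :
    dg κ.h (S.gam w κ k i) e = dg κ.h (S.HH w κ k) (i * κ.u + e) := by
  unfold gam
  rw [dg_mod_pow G.h_pos _ _ _ he, dg_div_pow]

theorem Good.chk_pre (G : S.Good κ) {P k i γ r : ℕ} (hi : i < κ.u)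
    (hP0 : dg κ.Z P (k * κ.u) = S.loc w κ (k * κ.u * κ.g))
    (hP1 : dg κ.Z P (k * κ.u + i) = S.loc w κ ((k * κ.u + i) * κ.g))
    (hγ : ∀ r' < r, dg S.α γ r' = S.msg w κ ((k * κ.u + i) * κ.g + r')) :
    S.chk κ P k i γ r (S.HH w κ k % κ.h ^ (i * κ.u))
        (S.cont w κ (k * κ.u * κ.g) (S.jOf κ P k i γ r)) =
      if S.msg w κ ((k * κ.u + i) * κ.g + r) = dg S.α γ r then 1 else 0 := by
  have hα : 0 < S.α := by have := S.two_le; omega
  have hz : ∀ v < i * κ.g + r,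
      dg S.α (S.HH w κ k % κ.h ^ (i * κ.u) + γ * powM κ.h (i * κ.u) (κ.HN + 1)) v =
        S.msg w κ (k * κ.u * κ.g + v) := by
    intro v hv
    rw [G.powM_h (by rw [G.N_eq]; exact Nat.mul_le_mul_right _ hi.le), G.pow_h]
    rcases Nat.lt_or_ge v (i * κ.g) with h | h
    · rw [dg_add_mul hα _ _ _ _ h, dg_mod_pow hα _ _ _ h,
        dg_HH _ _ (h.trans_le (Nat.mul_le_mul_right _ hi.le))]
    · obtain ⟨r', rfl⟩ : ∃ r', v = i * κ.g + r' := ⟨v - i * κ.g, by omega⟩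
      rw [dg_add_mul_ge hα _ _ _ _ (Nat.mod_lt _ (by positivity)), hγ r' (by omega)]
      congr 1; ring
  have e : k * κ.u * κ.g + (i * κ.g + r) = (k * κ.u + i) * κ.g + r := by ring
  have hj : S.jOf κ P k i γ r = S.blk (S.loc w κ ((k * κ.u + i) * κ.g + r)) := by
    unfold jOf
    rw [hP1, S.trace_true w κ _ _ _ hγ]
  unfold chk
  rw [hP0, S.trace_true w κ _ _ _ hz, S.rep_true w κ _ _ _ _ hz, e, hj]
  rfl

theorem Good.chk_prod (G : S.Good κ) {R : Type} [CommSemiring R] {P k i γ : ℕ} (hi : i < κ.u)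
    (hP0 : dg κ.Z P (k * κ.u) = S.loc w κ (k * κ.u * κ.g))
    (hP1 : dg κ.Z P (k * κ.u + i) = S.loc w κ ((k * κ.u + i) * κ.g)) (hγ : γ < κ.h ^ κ.u) :
    ∏ r ∈ range κ.g, ((S.chk κ P k i γ r (S.HH w κ k % κ.h ^ (i * κ.u))
        (S.cont w κ (k * κ.u * κ.g) (S.jOf κ P k i γ r)) : ℕ) : R) =
      if γ = S.gam w κ k i then 1 else 0 := by
  split_ifs with e
  · refine Finset.prod_eq_one (fun r hr => ?_)
    rw [G.chk_pre hi hP0 hP1 (fun r' hr' => by
      rw [e, G.dg_gam hi (hr'.trans (mem_range.1 hr))]), e, G.dg_gam hi (mem_range.1 hr), if_pos rfl]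
    simp
  · have hex : ∃ r, r < κ.g ∧ dg S.α γ r ≠ S.msg w κ ((k * κ.u + i) * κ.g + r) := by
      by_contra hc
      push Not at hc
      apply e
      have e2 : κ.h ^ κ.u = S.α ^ κ.g := by simpa using G.pow_h 1
      refine eq_of_dg (a := S.α) (n := κ.g) (e2 ▸ hγ) (e2 ▸ G.gam_lt k i) (fun r hr => ?_)
      rw [hc r hr, G.dg_gam hi hr]
    classical
    have h1 := Nat.find_spec hex
    refine Finset.prod_eq_zero (mem_range.2 h1.1) ?_
    rw [G.chk_pre hi hP0 hP1 (fun r' hr' => by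
      have := Nat.find_min hex hr'
      push Not at this
      exact this (hr'.trans h1.1)), if_neg (Ne.symm h1.2)]
    simp

theorem Good.phiC_true (G : S.Good κ) {P k j e : ℕ}
    (hP0 : dg κ.Z P (k * κ.u) = S.loc w κ (k * κ.u * κ.g)) :
    S.phiC κ P k j e (S.HH w κ k % κ.h ^ κ.N) (S.cont w κ (k * κ.u * κ.g) j) =
      dg κ.h (S.cont w κ ((k + 1) * κ.u * κ.g) j) e := by
  unfold phiC
  rw [Nat.mod_eq_of_lt (G.HH_lt k), hP0, S.rep_true w κ _ _ _ _ (fun v hv => dg_HH k v hv)]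
  congr 2; ring

end Sys

end Vale.Agent.P312
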