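import Vale.Agent.P312.Proc

namespace Vale.Agent.P312

open Finset

variable {σ : Type}

namespace Sys

structure Ctx (S : Sys σ) (w : List σ) (κ : Par) (P wm lam Lam Sb : ℕ) : Prop where
  good : S.Good κ
  hP : ∀ v ≤ wm, dg κ.Z P v = S.loc w κ (v * κ.g)
  wm_le : wm ≤ κ.N
  hlam : 30 + κ.u + κ.N + κ.Z + κ.p + κ.g ≤ 2 ^ lam
  hLam : κ.h ^ κ.u ≤ 2 ^ Lam
  lam_le : lam ≤ Lam
  hS : Bd σ (2 ^ Sb) κ
  hPS : P ≤ 2 ^ Sb

variable {S : Sys σ} {w : List σ} {κ : Par} {P wm lam Lam Sb : ℕ} [hp : Fact κ.p.Prime]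

abbrev Vec (κ : Par) := Fin κ.N → ZMod κ.p

def R (κ : Par) [Fact κ.p.Prime] (P : ℕ) (Y X X' : Vec κ) : Rg := ⟨κ, P, enc Y, enc X, enc X'⟩

theorem Ctx.bdR (C : S.Ctx w κ P wm lam Lam Sb) (Y X X' : Vec κ) : Bd σ (2 ^ Sb) (R κ P Y X X') := by
  have h1 : κ.PN ≤ 2 ^ Sb := (bd_Par.1 C.hS).2.2.2.2.2.2.1
  rw [C.good.PN_eq] at h1
  exact bd_Rg.2 ⟨C.hS, C.hPS, (enc_lt Y).le.trans h1, (enc_lt X).le.trans h1, (enc_lt X').le.trans h1⟩

omit hp in
theorem Ctx.bdF (C : S.Ctx w κ P wm lam Lam Sb) {W pc k i j om ga r pd : ℕ} (hW : lam ≤ W)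
    (h1 : pc ≤ 30) (h2 : k ≤ κ.u) (h3 : i ≤ κ.N) (h4 : j ≤ κ.Z) (h5 : om ≤ κ.p)
    (h6 : ga ≤ 2 ^ W) (h7 : r ≤ κ.g) (h8 : pd ≤ κ.p) :
    Bd σ (2 ^ W) (Fr.mk pc k i j om ga r pd) := by
  have h0 : 2 ^ lam ≤ 2 ^ W := Nat.pow_le_pow_right (by norm_num) hW
  have := C.hlam
  rw [bd_Fr]
  dsimp only
  omega

omit hp in
theorem Ctx.u_le_N (C : S.Ctx w κ P wm lam Lam Sb) : κ.u ≤ κ.N := by
  rw [C.good.N_eq]; exact Nat.le_mul_of_pos_right _ C.good.u_pos

omit hp in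
theorem Ctx.bdL (C : S.Ctx w κ P wm lam Lam Sb) {W k i : ℕ} (hW : lam ≤ W) (h2 : k ≤ κ.u)
    (h3 : i ≤ κ.u) : Bd σ (2 ^ W) (fL k i) :=
  C.bdF hW (by omega) h2 (h3.trans C.u_le_N) (by omega) (by omega) (by positivity) (by omega) (by omega)

omit hp in
theorem Ctx.bdH (C : S.Ctx w κ P wm lam Lam Sb) {W pc k i ω : ℕ} (hW : lam ≤ W) (h1 : pc ≤ 30)
    (h2 : k ≤ κ.u) (h3 : i ≤ κ.u) (h5 : ω ≤ κ.p) : Bd σ (2 ^ W) (fH pc k i ω) :=
  C.bdF hW h1 h2 (h3.trans C.u_le_N) (by omega) h5 (by positivity) (by omega) (by omega)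

omit hp in
theorem Ctx.bdC (C : S.Ctx w κ P wm lam Lam Sb) {W pc k j ω : ℕ} (hW : lam ≤ W) (h1 : pc ≤ 30)
    (h2 : k ≤ κ.u) (h3 : j ≤ κ.Z) (h5 : ω ≤ κ.p) : Bd σ (2 ^ W) (fC pc k j ω) :=
  C.bdF hW h1 h2 (by omega) h3 h5 (by positivity) (by omega) (by omega)

omit hp in
theorem Ctx.bdG (C : S.Ctx w κ P wm lam Lam Sb) {W pc k i γ r pd : ℕ} (hW : Lam ≤ W) (h1 : pc ≤ 30)
    (h2 : k ≤ κ.u) (h3 : i ≤ κ.u) (h6 : γ ≤ κ.h ^ κ.u) (h7 : r ≤ κ.g) (h8 : pd ≤ κ.p) :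
    Bd σ (2 ^ W) (fG pc k i γ r pd) :=
  C.bdF (C.lam_le.trans hW) h1 h2 (h3.trans C.u_le_N) (by omega) (by omega)
    (h6.trans (C.hLam.trans (Nat.pow_le_pow_right (by norm_num) hW))) h7 h8

theorem Good.vec (G : S.Good κ) (f : ℕ → ℕ) :
    vecN κ.p κ.N κ.PN f = enc (fun i : Fin κ.N => (f i : ZMod κ.p)) := by
  rw [G.PN_eq, vecN_eq]

theorem Good.scal_enc (G : S.Good κ) (n c : ℕ) (v : Vec κ) :
    scal κ n c (enc v) = enc (fun e : Fin κ.N => if (e : ℕ) < n then (c : ZMod κ.p) * v e else v e) := by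
  unfold scal
  rw [G.vec]
  congr 1
  funext e
  split_ifs <;> simp [cast_dg_enc]

theorem Good.scal_all (G : S.Good κ) (c : ℕ) (v : Vec κ) :
    scal κ κ.N c (enc v) = enc (fun e : Fin κ.N => (c : ZMod κ.p) * v e) := by
  rw [G.scal_enc]; simp

theorem cast_pred : ((κ.p - 1 : ℕ) : ZMod κ.p) = -1 := by
  rw [Nat.cast_sub hp.out.one_le]; simp

theorem mul_invN {ω : ℕ} (h1 : 1 ≤ ω) (h2 : ω < κ.p) :
    ((invN κ ω : ℕ) : ZMod κ.p) * (ω : ZMod κ.p) = 1 := by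
  unfold invN
  rw [cast_powM, mul_comm]
  refine mul_pow_sub_two ?_
  have := cast_ne (p := κ.p) h2 hp.out.pos (by omega)
  simpa using this

noncomputable def Hv (S : Sys σ) (w : List σ) (κ : Par) (k : ℕ) : Vec κ :=
  fun e => (dg κ.h (S.HH w κ k) e : ℕ)

noncomputable def Cv (S : Sys σ) (w : List σ) (κ : Par) (k j : ℕ) : Vec κ :=
  fun e => (dg κ.h (S.cont w κ (k * κ.u * κ.g) j) e : ℕ)

def SpecC (S : Sys σ) (w : List σ) (κ : Par) [Fact κ.p.Prime] (P Sb k W : ℕ) : Prop :=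
  ∀ j ≤ κ.Z, ∀ Y X X' : Vec κ, Run σ (S.act w) Sb W (fC 9 k j 0) (R κ P Y X X')
    (R κ P Y (fun e => X e + S.Cv w κ k j e) X')

def SpecH (S : Sys σ) (w : List σ) (κ : Par) [Fact κ.p.Prime] (P Sb k i W : ℕ) : Prop :=
  ∀ Y X X' : Vec κ, Run σ (S.act w) Sb W (fH 1 k i 1) (R κ P Y X X')
    (R κ P (fun e => if i * κ.u ≤ (e : ℕ) ∧ (e : ℕ) < i * κ.u + κ.u then Y e + S.Hv w κ k e else Y e) X X')

def SpecL (S : Sys σ) (w : List σ) (κ : Par) [Fact κ.p.Prime] (P Sb k i W : ℕ) : Prop :=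
  ∀ Y X X' : Vec κ, Run σ (S.act w) Sb W (fL k i) (R κ P Y X X')
    (R κ P (fun e => if (e : ℕ) < i * κ.u then Y e + S.Hv w κ k e else Y e) X X')

theorem Run.cast {act : Fr → Rg → Res} {Sb W : ℕ} {f : Fr} {ρ ρ1 ρ2 : Rg}
    (h : Run σ act Sb W f ρ ρ1) (e : ρ1 = ρ2) : Run σ act Sb W f ρ ρ2 := e ▸ h

theorem Ext_congr {h n : ℕ} (φ : ℕ → ℕ → ℕ) {Y Y' : Vec κ} (X : Vec κ)
    (hY : ∀ e : Fin κ.N, (e : ℕ) < n → Y e = Y' e) : Ext h n φ Y X = Ext h n φ Y' X := by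
  have : ∀ z, Wt h n z Y = Wt h n z Y' := by
    intro z
    refine Finset.prod_congr rfl (fun e _ => ?_)
    split_ifs with he
    · rw [hY e he]
    · rfl
  simp only [Ext, this]

/-! ### The guess loop -/

noncomputable def Fterm (S : Sys σ) (w : List σ) (κ : Par) [Fact κ.p.Prime] (P k i γ : ℕ) (Y X : Vec κ)
    (r : ℕ) : ZMod κ.p :=
  Ext κ.h (i * κ.u) (S.chk κ P k i γ r) Y (fun e => X e + S.Cv w κ k (S.jOf κ P k i γ r) e)

omit hp in
theorem Ctx.jOf_le (C : S.Ctx w κ P wm lam Lam Sb) (k i γ r : ℕ) : S.jOf κ P k i γ r ≤ κ.Z := by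
  have h0 := C.good.Z_ge
  have h1 : dg κ.Z P (k * κ.u + i) < κ.Z := dg_lt (by omega) _ _
  have := S.trace_le κ (dg κ.Z P (k * κ.u + i)) γ r (by omega)
  exact (S.blk_le _).trans (by omega)

theorem Ctx.g_inner (C : S.Ctx w κ P wm lam Lam Sb) {k i W WC γ : ℕ} (hk : k ≤ κ.u) (hi : i < κ.u)
    (hC : S.SpecC w κ P Sb k WC) (hW : WC + Lam + 1 ≤ W) (hγ : γ < κ.h ^ κ.u) (Y X X' : Vec κ) (ρ2 : Rg)
    (hnext : Run σ (S.act w) Sb W (fG 5 k i (γ + 1) 0 0)
      (R κ P (fun e => if i * κ.u ≤ (e : ℕ) ∧ (e : ℕ) < i * κ.u + κ.u then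
        Y e - (∏ r ∈ range κ.g, S.Fterm w κ P k i γ Y X r) * (dg κ.h γ (e - i * κ.u) : ℕ) else Y e) X X') ρ2) :
    ∀ m r pd, r + m = κ.g → pd ≤ κ.p → (pd : ZMod κ.p) = ∏ r' ∈ range r, S.Fterm w κ P k i γ Y X r' →
      Run σ (S.act w) Sb W (fG 6 k i γ r pd) (R κ P Y X X') ρ2 := by
  have G := C.good
  have hin : i * κ.u ≤ κ.N := by rw [G.N_eq]; exact Nat.mul_le_mul_right _ hi.le
  intro m
  induction m with
  | zero =>
    intro r pd hr hpd hpd'
    obtain rfl : r = κ.g := by omega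
    refine Run.goto' (g := fG 6 k i γ κ.g pd) ?_ (C.bdG (by omega) (by omega) hk hi.le hγ.le le_rfl hpd)
      (C.bdR _ _ _) hnext
    show S.a6 (fG 6 k i γ κ.g pd) (R κ P Y X X') = _
    unfold a6
    rw [if_pos (by rfl)]
    simp only [R, fG, G.vec]
    congr 5
    funext e
    by_cases he : i * κ.u ≤ (e : ℕ) ∧ (e : ℕ) < i * κ.u + κ.u
    · rw [if_pos he]
      erw [if_pos he]
      simp [cast_dg_enc, cast_pred, hpd', sub_eq_add_neg]
    · rw [if_neg he]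
      erw [if_neg he]
      simp [cast_dg_enc]
  | succ m ih =>
    intro r pd hr hpd hpd'
    set j := S.jOf κ P k i γ r with hj
    have hjZ : j ≤ κ.Z := C.jOf_le _ _ _ _
    set pd' := pd * extN κ.p κ.h κ.N (i * κ.u) (powM κ.h (i * κ.u) (κ.HN + 1)) κ.HN
        (S.chk κ P k i γ r) (enc Y) (enc (fun e => X e + S.Cv w κ k j e)) % κ.p with hpd2
    have hpd3 : pd' ≤ κ.p := (Nat.mod_lt _ hp.out.pos).le
    have hpd4 : (pd' : ZMod κ.p) = ∏ r' ∈ range (r + 1), S.Fterm w κ P k i γ Y X r' := by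
      rw [Finset.prod_range_succ, ← hpd', hpd2, G.powM_h hin, G.HN_eq]
      simp only [ZMod.natCast_mod, Nat.cast_mul, cast_extN G.h_le hin]
      rfl
    refine Run.call' (f' := fG 7 k i γ r pd) (g := fC 9 k j 0) (ρ' := R κ P Y X X') (l := Lam) ?_
      (C.bdG (by omega) (by omega) hk hi.le hγ.le (by omega) hpd) (C.bdR _ _ _)
      (C.bdG le_rfl (by omega) hk hi.le hγ.le (by omega) hpd) hW (hC j hjZ Y X X') ?_
    · show S.a6 (fG 6 k i γ r pd) (R κ P Y X X') = _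
      unfold a6
      rw [if_neg (by show r ≠ κ.g; omega)]
      rfl
    refine Run.call' (f' := fG 8 k i γ r pd') (g := fC 9 k j 0)
      (ρ' := R κ P Y (fun e => -(X e + S.Cv w κ k j e)) X') (l := Lam) ?_
      (C.bdG (by omega) (by omega) hk hi.le hγ.le (by omega) hpd) (C.bdR _ _ _)
      (C.bdG le_rfl (by omega) hk hi.le hγ.le (by omega) hpd3) hW (hC j hjZ Y _ X') ?_
    · show S.a7 (fG 7 k i γ r pd) (R κ P Y _ X') = _
      unfold a7
      simp only [R, fG, G.scal_all, cast_pred, neg_mul, one_mul]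
      rfl
    refine Run.goto' (f' := fG 6 k i γ (r + 1) pd') (g := fG 8 k i γ r pd') (ρ' := R κ P Y X X') ?_
      (C.bdG (by omega) (by omega) hk hi.le hγ.le (by omega) hpd3) (C.bdR _ _ _)
      (ih (r + 1) pd' (by omega) hpd3 hpd4)
    show a8 (fG 8 k i γ r pd') (R κ P Y _ X') = _
    unfold a8
    simp only [R, fG, G.scal_all, cast_pred]
    congr 5
    funext e
    ring

noncomputable def Gsum (S : Sys σ) (w : List σ) (κ : Par) [Fact κ.p.Prime] (P k i γ0 : ℕ) (Y X : Vec κ)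
    (e : ℕ) : ZMod κ.p :=
  ∑ γ ∈ Ico γ0 (κ.h ^ κ.u), (∏ r ∈ range κ.g, S.Fterm w κ P k i γ Y X r) * (dg κ.h γ (e - i * κ.u) : ℕ)

theorem Gsum_congr {k i γ0 : ℕ} {Y Y' : Vec κ} (X : Vec κ)
    (hY : ∀ e : Fin κ.N, (e : ℕ) < i * κ.u → Y e = Y' e) (e : ℕ) :
    S.Gsum w κ P k i γ0 Y X e = S.Gsum w κ P k i γ0 Y' X e := by
  simp only [Gsum, Fterm, Ext_congr _ _ hY]

theorem Ctx.g_outer (C : S.Ctx w κ P wm lam Lam Sb) {k i W WC : ℕ} (hk : k ≤ κ.u) (hi : i < κ.u)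
    (hC : S.SpecC w κ P Sb k WC) (hW : WC + Lam + 1 ≤ W) (X X' : Vec κ) :
    ∀ m γ, γ + m = κ.h ^ κ.u → ∀ Y : Vec κ,
      Run σ (S.act w) Sb W (fG 5 k i γ 0 0) (R κ P Y X X')
        (R κ P (fun e => if i * κ.u ≤ (e : ℕ) ∧ (e : ℕ) < i * κ.u + κ.u then
          Y e - S.Gsum w κ P k i γ Y X e else Y e) X X') := by
  have G := C.good
  intro m
  induction m with
  | zero =>
    intro γ hγ Y
    obtain rfl : γ = κ.h ^ κ.u := by omega
    refine Run.cast (Run.ret' (f' := fG 5 k i (κ.h ^ κ.u) 0 0) (g := fG 5 k i (κ.h ^ κ.u) 0 0)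
      (ρ' := R κ P Y X X') ?_
      (C.bdG (by omega) (by omega) hk hi.le le_rfl (by omega) (by omega)) (C.bdR _ _ _)) ?_
    · show a5 (fG 5 k i (κ.h ^ κ.u) 0 0) (R κ P Y X X') = _
      unfold a5
      rw [if_pos (by exact (G.powM_h C.u_le_N).symm)]
    · congr 1
      funext e
      simp [Gsum]
  | succ m ih =>
    intro γ hγ Y
    have hγ' : γ < κ.h ^ κ.u := by omega
    refine Run.goto' (f' := fG 6 k i γ 0 1) (g := fG 5 k i γ 0 0) (ρ' := R κ P Y X X') ?_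
      (C.bdG (by omega) (by omega) hk hi.le hγ'.le (by omega) (by omega)) (C.bdR _ _ _) ?_
    · show a5 (fG 5 k i γ 0 0) (R κ P Y X X') = _
      unfold a5
      rw [if_neg (by show γ ≠ powM κ.h κ.u (κ.HN + 1); rw [G.powM_h C.u_le_N]; omega)]
      rfl
    refine C.g_inner hk hi hC hW hγ' Y X X' _ (Run.cast (ih (γ + 1) (by omega) _) ?_) κ.g 0 1 (by omega)
      hp.out.one_le (by simp)
    congr 1
    funext e
    split_ifs with he
    · rw [Gsum_congr (Y' := Y) X (fun e he => if_neg (by omega))]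
      conv_rhs => rw [Gsum, Finset.sum_eq_sum_Ico_succ_bot hγ']
      rw [Gsum]; ring
    · rfl

/-! ### The history nodes -/

noncomputable def Hsum (S : Sys σ) (w : List σ) (κ : Par) [Fact κ.p.Prime] (P k i : ℕ) (Y X : Vec κ)
    (e : ℕ) (t : ZMod κ.p) : ZMod κ.p :=
  S.Gsum w κ P k i 0 (fun e => t * Y e + S.Hv w κ k e) (fun e => t * X e) e

theorem Ctx.h_loop (C : S.Ctx w κ P wm lam Lam Sb) {k i W WC WL : ℕ} (hk : k ≤ κ.u) (hi : i < κ.u)
    (hC : S.SpecC w κ P Sb k WC) (hL : S.SpecL w κ P Sb k i WL) (hW1 : WL + lam + 1 ≤ W)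
    (hW2 : WC + Lam + 1 + lam + 1 ≤ W) (X X' : Vec κ) :
    ∀ m ω, ω + m = κ.p → 1 ≤ ω → ∀ Y : Vec κ,
      Run σ (S.act w) Sb W (fH 1 k i ω) (R κ P Y X X')
        (R κ P (fun e => if i * κ.u ≤ (e : ℕ) ∧ (e : ℕ) < i * κ.u + κ.u then
          Y e - ∑ ω' ∈ Ico ω κ.p, S.Hsum w κ P k i Y X e (ω' : ℕ) else Y e) X X') := by
  have G := C.good
  intro m
  induction m with
  | zero =>
    intro ω hω _ Y
    obtain rfl : ω = κ.p := by omega
    refine Run.cast (Run.ret' (f' := fH 1 k i κ.p) (g := fH 1 k i κ.p) (ρ' := R κ P Y X X') ?_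
      (C.bdH (by omega) (by omega) hk hi.le le_rfl) (C.bdR _ _ _)) ?_
    · show a1 (fH 1 k i κ.p) (R κ P Y X X') = _
      unfold a1
      rw [if_pos (by rfl)]
    · congr 1
      funext e
      simp
  | succ m ih =>
    intro ω hω h1 Y
    have hω' : ω < κ.p := by omega
    have b1 : ∀ pc W, pc ≤ 30 → lam ≤ W → Bd σ (2 ^ W) (fH pc k i ω) :=
      fun pc W h h' => C.bdH h' h hk hi.le hω'.le
    have hinv := mul_invN h1 hω'
    refine Run.call' (f' := fH 2 k i ω) (g := fL k i) (l := lam)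
      (ρ' := R κ P (fun e => if (e : ℕ) < i * κ.u then (ω : ZMod κ.p) * Y e else Y e)
        (fun e => (ω : ZMod κ.p) * X e) X') ?_
      (b1 _ _ (by omega) (by omega)) (C.bdR _ _ _) (b1 _ _ (by omega) le_rfl) hW1 (hL _ _ _) ?_
    · show a1 (fH 1 k i ω) (R κ P Y X X') = _
      unfold a1
      rw [if_neg (by show ω ≠ κ.p; omega)]
      simp only [R, fH, G.scal_all, G.scal_enc]
    refine Run.call' (f' := fH 3 k i ω) (g := fG 5 k i 0 0 0) (l := lam) rfl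
      (b1 _ _ (by omega) (by omega)) (C.bdR _ _ _) (b1 _ _ (by omega) le_rfl) hW2
      (C.g_outer hk hi hC le_rfl _ _ _ 0 (zero_add _) _) ?_
    set Y2 : Vec κ := fun e => if i * κ.u ≤ (e : ℕ) ∧ (e : ℕ) < i * κ.u + κ.u then
      Y e - S.Hsum w κ P k i Y X e (ω : ℕ) else Y e with hY2
    refine Run.call' (f' := fH 4 k i ω) (g := fL k i) (l := lam)
      (ρ' := R κ P (fun e => if (e : ℕ) < i * κ.u then -((ω : ZMod κ.p) * Y e + S.Hv w κ k e) else Y2 e)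
        (fun e => (ω : ZMod κ.p) * X e) X') ?_
      (b1 _ _ (by omega) (by omega)) (C.bdR _ _ _) (b1 _ _ (by omega) le_rfl) hW1 (hL _ _ _) ?_
    · show a3 (fH 3 k i ω) (R κ P _ _ X') = _
      unfold a3
      simp only [R, fH, G.scal_enc, cast_pred]
      congr 5
      funext e
      by_cases he : (e : ℕ) < i * κ.u
      · simp [he, not_le.2 he]
      · simp only [if_neg he, hY2]
        split_ifs
        · rw [Hsum, Gsum_congr (Y' := fun e => (ω : ZMod κ.p) * Y e + S.Hv w κ k e) _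
            (fun e he => by simp only [if_pos he])]
        · rfl
    refine Run.goto' (f' := fH 1 k i (ω + 1)) (g := fH 4 k i ω) (ρ' := R κ P Y2 X X') ?_
      (b1 _ _ (by omega) (by omega)) (C.bdR _ _ _) (Run.cast (ih (ω + 1) (by omega) (by omega) Y2) ?_)
    · show a4 (fH 4 k i ω) (R κ P _ _ X') = _
      unfold a4
      simp only [R, fH, G.scal_enc, Nat.cast_mul, cast_pred]
      congr 5
      · funext e
        by_cases he : (e : ℕ) < i * κ.u
        · have hne : ¬ (i * κ.u ≤ (e : ℕ) ∧ (e : ℕ) < i * κ.u + κ.u) := by omega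
          simp only [if_pos he, hY2, if_neg hne]
          linear_combination (Y e) * hinv
        · simp only [if_neg he]
      · funext e
        rw [if_pos e.2]
        linear_combination (X e) * hinv
    · congr 1
      funext e
      split_ifs with he
      · rw [Finset.sum_eq_sum_Ico_succ_bot hω']
        have : ∀ t, S.Hsum w κ P k i Y2 X e t = S.Hsum w κ P k i Y X e t := by
          intro t
          exact Gsum_congr _ (fun e he => by simp only [hY2]; rw [if_neg (by omega)]) _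
        simp only [this]
        simp only [hY2, if_pos he]
        ring
      · simp only [hY2, if_neg he]

theorem Ctx.hsum_units (C : S.Ctx w κ P wm lam Lam Sb) {k i : ℕ} (hi : i < κ.u)
    (hw : k * κ.u + i ≤ wm) (Y X : Vec κ) (e : Fin κ.N)
    (he : i * κ.u ≤ (e : ℕ) ∧ (e : ℕ) < i * κ.u + κ.u) :
    ∑ ω' ∈ Ico 1 κ.p, S.Hsum w κ P k i Y X e (ω' : ℕ) = - S.Hv w κ k e := by
  have G := C.good
  have hin : i * κ.u ≤ κ.N := by rw [G.N_eq]; exact Nat.mul_le_mul_right _ hi.le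
  have hpd : PD (κ.g * (2 * κ.N * κ.h)) (S.Hsum w κ P k i Y X e) := by
    unfold Hsum Gsum
    refine PD.sum (p := κ.p) _ (fun γ _ => ?_)
    have h1 := PD.prod (d := 2 * κ.N * κ.h) (range κ.g)
      (f := fun r t => S.Fterm w κ P k i γ (fun e => t * Y e + S.Hv w κ k e) (fun e => t * X e) r)
      (fun r _ => PD.ext _ _ _ (fun e _ => PD.lin _ _) (fun e => PD.lin _ _))
    simpa using h1.mul (PD.const 0 ((dg κ.h γ (e - i * κ.u) : ℕ) : ZMod κ.p))
  rw [hpd.sum_units G.deg_lt]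
  congr 1
  have hP0 : dg κ.Z P (k * κ.u) = S.loc w κ (k * κ.u * κ.g) := C.hP _ (by omega)
  have hP1 := C.hP _ hw
  have hF : ∀ γ r, S.Fterm w κ P k i γ (fun e => 0 * Y e + S.Hv w κ k e) (fun e => 0 * X e) r =
      (S.chk κ P k i γ r (S.HH w κ k % κ.h ^ (i * κ.u))
        (S.cont w κ (k * κ.u * κ.g) (S.jOf κ P k i γ r)) : ℕ) := by
    intro γ r
    exact Ext_grid G.h_le G.h_pos hin (G.cont_lt _ _) _ (fun e _ => by simp [Hv]) (fun e => by simp [Cv])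
  unfold Hsum Gsum
  simp only [hF]
  rw [Finset.sum_eq_single (S.gam w κ k i)]
  · rw [G.chk_prod hi hP0 hP1 (G.gam_lt k i), if_pos rfl, one_mul, G.dg_h_gam (by omega), Hv]
    congr 2; omega
  · intro γ hγ hne
    rw [G.chk_prod hi hP0 hP1 (mem_Ico.1 hγ).2, if_neg hne, zero_mul]
  · intro h; exact absurd (mem_Ico.2 ⟨Nat.zero_le _, G.gam_lt k i⟩) h

theorem Ctx.specH (C : S.Ctx w κ P wm lam Lam Sb) {k i W WC WL : ℕ} (hk : k ≤ κ.u) (hi : i < κ.u)
    (hw : k * κ.u + i ≤ wm)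
    (hC : S.SpecC w κ P Sb k WC) (hL : S.SpecL w κ P Sb k i WL) (hW1 : WL + lam + 1 ≤ W)
    (hW2 : WC + Lam + 1 + lam + 1 ≤ W) : S.SpecH w κ P Sb k i W := by
  intro Y X X'
  refine Run.cast (C.h_loop hk hi hC hL hW1 hW2 X X' (κ.p - 1) 1 (by have := hp.out.one_le; omega)
    le_rfl Y) ?_
  congr 1
  funext e
  split_ifs with he
  · rw [C.hsum_units hi hw Y X e he]; ring
  · rfl

theorem Ctx.specL (C : S.Ctx w κ P wm lam Lam Sb) {k WC : ℕ} (hk : k ≤ κ.u)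
    (hC : S.SpecC w κ P Sb k WC) : ∀ i ≤ κ.u, k * κ.u + i ≤ wm + 1 →
    S.SpecL w κ P Sb k i (WC + Lam + 1 + 2 * i * (lam + 1)) := by
  have hl := C.lam_le
  intro i
  induction i with
  | zero =>
    intro _ _ Y X X'
    refine Run.cast (Run.ret' (f' := fL k 0) (g := fL k 0) (ρ' := R κ P Y X X') rfl
      (C.bdL (by omega) hk (by omega)) (C.bdR _ _ _)) ?_
    simp
  | succ i ih =>
    intro hi hw Y X X'
    have hL := ih (by omega) (by omega)
    have hH := C.specH (W := WC + Lam + 1 + 2 * i * (lam + 1) + lam + 1) hk (by omega) (by omega) hC hL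
      le_rfl (by omega)
    refine Run.call' (f' := fL k i) (g := fH 1 k i 1) (l := lam) (ρ' := R κ P Y X X') rfl
      (C.bdL (by omega) hk hi) (C.bdR _ _ _) (C.bdL le_rfl hk (by omega)) (le_of_eq (by ring))
      (hH Y X X') (Run.cast ((hL _ X X').mono (by nlinarith)) ?_)
    congr 1
    funext e
    have e1 : (i + 1) * κ.u = i * κ.u + κ.u := by ring
    rw [e1]
    split_ifs <;> first | rfl | omega

/-! ### The content nodes -/

noncomputable def Csum (S : Sys σ) (w : List σ) (κ : Par) [Fact κ.p.Prime] (P k j : ℕ) (Y X : Vec κ)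
    (e : ℕ) (t : ZMod κ.p) : ZMod κ.p :=
  Ext κ.h κ.N (S.phiC κ P k j e) (fun e => t * Y e + S.Hv w κ k e) (fun e => t * X e + S.Cv w κ k j e)

theorem Ctx.c_loop (C : S.Ctx w κ P wm lam Lam Sb) {k j W WC WL : ℕ} (hk : k ≤ κ.u) (hj : j ≤ κ.Z)
    (hC : S.SpecC w κ P Sb k WC) (hL : S.SpecL w κ P Sb k κ.u WL) (hW1 : WL + lam + 1 ≤ W)
    (hW2 : WC + lam + 1 ≤ W) (Y X : Vec κ) :
    ∀ m ω, ω + m = κ.p → 1 ≤ ω → ∀ X' : Vec κ,
      Run σ (S.act w) Sb W (fC 10 k j ω) (R κ P Y X X')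
        (R κ P Y (fun e => X' e - ∑ ω' ∈ Ico ω κ.p, S.Csum w κ P k j Y X e (ω' : ℕ)) X) := by
  have G := C.good
  have hN : ∀ e : Fin κ.N, (e : ℕ) < κ.u * κ.u := fun e => G.N_eq ▸ e.2
  intro m
  induction m with
  | zero =>
    intro ω hω _ X'
    obtain rfl : ω = κ.p := by omega
    refine Run.cast (Run.ret' (f' := fC 10 k j κ.p) (g := fC 10 k j κ.p) (ρ' := R κ P Y X' X) ?_
      (C.bdC (by omega) (by omega) hk hj le_rfl) (C.bdR _ _ _)) ?_
    · show a10 (fC 10 k j κ.p) (R κ P Y X X') = _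
      unfold a10
      rw [if_pos (by rfl)]
      rfl
    · simp
  | succ m ih =>
    intro ω hω h1 X'
    have hω' : ω < κ.p := by omega
    have b1 : ∀ pc W, pc ≤ 30 → lam ≤ W → Bd σ (2 ^ W) (fC pc k j ω) :=
      fun pc W h h' => C.bdC h' h hk hj hω'.le
    have hinv := mul_invN h1 hω'
    refine Run.call' (f' := fC 11 k j ω) (g := fL k κ.u) (l := lam)
      (ρ' := R κ P (fun e => (ω : ZMod κ.p) * Y e) (fun e => (ω : ZMod κ.p) * X e) X') ?_
      (b1 _ _ (by omega) (by omega)) (C.bdR _ _ _) (b1 _ _ (by omega) le_rfl) hW1 (hL _ _ _) ?_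
    · show a10 (fC 10 k j ω) (R κ P Y X X') = _
      unfold a10
      rw [if_neg (by show ω ≠ κ.p; omega)]
      simp only [R, fC, G.scal_all]
    simp only [hN, if_true]
    refine Run.call' (f' := fC 12 k j ω) (g := fC 9 k j 0) (l := lam) rfl
      (b1 _ _ (by omega) (by omega)) (C.bdR _ _ _) (b1 _ _ (by omega) le_rfl) hW2 (hC j hj _ _ _) ?_
    refine Run.call' (f' := fC 13 k j ω) (g := fL k κ.u) (l := lam)
      (ρ' := R κ P (fun e => -((ω : ZMod κ.p) * Y e + S.Hv w κ k e))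
        (fun e => -((ω : ZMod κ.p) * X e + S.Cv w κ k j e))
        (fun e => X' e - S.Csum w κ P k j Y X e (ω : ℕ))) ?_
      (b1 _ _ (by omega) (by omega)) (C.bdR _ _ _) (b1 _ _ (by omega) le_rfl) hW1 (hL _ _ _) ?_
    · show S.a12 (fC 12 k j ω) (R κ P _ _ X') = _
      unfold a12
      simp only [R, fC, G.scal_all, cast_pred, G.vec, neg_mul, one_mul]
      congr 5
      funext e
      rw [G.HN_eq]
      simp only [Nat.cast_add, Nat.cast_mul, cast_dg_enc, cast_pred, cast_extN G.h_le le_rfl, Csum]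
      ring
    simp only [hN, if_true]
    refine Run.call' (f' := fC 14 k j ω) (g := fC 9 k j 0) (l := lam) rfl
      (b1 _ _ (by omega) (by omega)) (C.bdR _ _ _) (b1 _ _ (by omega) le_rfl) hW2 (hC j hj _ _ _) ?_
    refine Run.goto' (f' := fC 10 k j (ω + 1)) (g := fC 14 k j ω)
      (ρ' := R κ P Y X (fun e => X' e - S.Csum w κ P k j Y X e (ω : ℕ))) ?_
      (b1 _ _ (by omega) (by omega)) (C.bdR _ _ _) (Run.cast (ih (ω + 1) (by omega) (by omega) _) ?_)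
    · show a14 (fC 14 k j ω) (R κ P _ _ _) = _
      unfold a14
      simp only [R, fC, G.scal_all, Nat.cast_mul, cast_pred]
      congr 5
      · funext e
        linear_combination (Y e) * hinv
      · funext e
        linear_combination (X e) * hinv
    · congr 1
      funext e
      rw [Finset.sum_eq_sum_Ico_succ_bot hω']
      ring

theorem Ctx.csum_units (C : S.Ctx w κ P wm lam Lam Sb) {k j : ℕ} (hw : k * κ.u ≤ wm) (Y X : Vec κ)
    (e : Fin κ.N) :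
    ∑ ω' ∈ Ico 1 κ.p, S.Csum w κ P k j Y X e (ω' : ℕ) = - S.Cv w κ (k + 1) j e := by
  have G := C.good
  have hpd : PD (2 * κ.N * κ.h) (S.Csum w κ P k j Y X e) :=
    PD.ext _ _ _ (fun e _ => PD.lin _ _) (fun e => PD.lin _ _)
  rw [hpd.sum_units (lt_of_le_of_lt (Nat.succ_le_succ (Nat.le_mul_of_pos_left _ G.g_pos)) G.deg_lt)]
  congr 1
  unfold Csum
  rw [Ext_grid (z0 := S.HH w κ k) G.h_le G.h_pos le_rfl (G.cont_lt (w := w) (k * κ.u * κ.g) j) _
    (fun e _ => by simp [Hv]) (fun e => by simp [Cv]), G.phiC_true (C.hP _ hw)]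
  rfl

theorem Ctx.specC (C : S.Ctx w κ P wm lam Lam Sb) : ∀ k, k * κ.u ≤ wm →
    S.SpecC w κ P Sb k (Lam + k * (Lam + 1 + (2 * κ.u + 1) * (lam + 1))) := by
  have G := C.good
  have hl := C.lam_le
  have hku : ∀ k, k * κ.u ≤ wm → k ≤ κ.u := by
    intro k hk
    have := hk.trans C.wm_le
    rw [G.N_eq] at this
    exact Nat.le_of_mul_le_mul_right this G.u_pos
  intro k
  induction k with
  | zero =>
    intro _ j hj Y X X'
    refine Run.ret' (f' := fC 9 0 j 0) (g := fC 9 0 j 0) ?_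
      (C.bdC (by omega) (by omega) (by omega) hj (by omega)) (C.bdR _ _ _)
    show S.a9 w (fC 9 0 j 0) (R κ P Y X X') = _
    unfold a9
    rw [if_pos (by rfl)]
    simp only [R, fC, G.vec]
    congr 5
    funext e
    simp [cast_dg_enc, Cv, cont, proc]
  | succ k ih =>
    intro hk j hj Y X X'
    have hk' : k * κ.u + κ.u ≤ wm := by rwa [add_mul, one_mul] at hk
    have hC := ih (by omega)
    have hL := C.specL (hku k (by omega)) hC κ.u le_rfl (by omega)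
    refine Run.goto' (f' := fC 10 k j 1) (g := fC 9 (k + 1) j 0) (ρ' := R κ P Y X' X) rfl
      (C.bdC (by omega) (by omega) (hku _ hk) hj (by omega)) (C.bdR _ _ _) ?_
    refine Run.cast (C.c_loop (hku k (by omega)) hj hC hL (le_of_eq (by ring)) (by nlinarith) Y X'
      (κ.p - 1) 1 (by have := hp.out.one_le; omega) le_rfl X) ?_
    congr 1
    funext e
    rw [C.csum_units (by omega)]; ring

theorem Ctx.specH' (C : S.Ctx w κ P wm lam Lam Sb) {k i : ℕ} (hi : i < κ.u) (hk : k < κ.u)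
    (hw : k * κ.u + i ≤ wm) :
    S.SpecH w κ P Sb k i ((κ.u + 1) * (2 * Lam + 2 + (2 * κ.u + 1) * (lam + 1))) := by
  have hC := C.specC k (by omega)
  have hL := C.specL hk.le hC i hi.le (by omega)
  have h1 : k * (Lam + 1 + (2 * κ.u + 1) * (lam + 1)) ≤ κ.u * (2 * Lam + 2 + (2 * κ.u + 1) * (lam + 1)) :=
    Nat.mul_le_mul hk.le (by omega)
  have h2 : 2 * i * (lam + 1) ≤ 2 * κ.u * (lam + 1) := by gcongr
  refine C.specH hk.le hi hw hC hL ?_ ?_ <;> nlinarith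

end Sys

end Vale.Agent.P312
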