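import Vale.Agent.P312.Spec

namespace Vale.Agent.P312

open Finset

variable {σ : Type}

def parI (α u i : ℕ) : Par :=
  { setup α u with PN := (setup α u).p ^ i, HN := (setup α u).h ^ i, ZB := (setup α u).Z ^ (i + 1) }

def par (α u o : ℕ) : Par := { parI α u (u * u) with o := o }

theorem nextPrime_spec {n : ℕ} (hn : n ≠ 0) :
    (nextPrime n).Prime ∧ n ≤ nextPrime n ∧ nextPrime n ≤ 2 * n := by
  have key : ∀ j, (prec n (fun _ acc => if acc.Prime then acc else acc + 1) j = n + j ∧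
      ∀ q, n ≤ q → q < n + j → ¬ q.Prime) ∨
      ((prec n (fun _ acc => if acc.Prime then acc else acc + 1) j).Prime ∧
        n ≤ prec n (fun _ acc => if acc.Prime then acc else acc + 1) j) := by
    intro j
    induction j with
    | zero => left; exact ⟨rfl, fun q h1 h2 => by omega⟩
    | succ j ih =>
      simp only [prec]
      rcases ih with ⟨h1, h2⟩ | ⟨h1, h2⟩
      · rw [h1]
        by_cases hp : (n + j).Prime
        · right; rw [if_pos hp]; exact ⟨hp, by omega⟩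
        · left; rw [if_neg hp]
          refine ⟨by ring, fun q h3 h4 => ?_⟩
          rcases Nat.lt_or_ge q (n + j) with h5 | h5
          · exact h2 q h3 h5
          · rwa [show q = n + j by omega]
      · right; rw [if_pos h1]; exact ⟨h1, h2⟩
  have hle := nextPrime_aux n n
  unfold nextPrime
  rcases key n with ⟨h1, h2⟩ | ⟨h1, h2⟩
  · obtain ⟨q, hq, h3, h4⟩ := Nat.exists_prime_lt_and_le_two_mul n hn
    have : q = n + n := by
      by_contra hne
      exact h2 q h3.le (by omega) hq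
    rw [h1, ← this]
    exact ⟨hq, h3.le, h4⟩
  · exact ⟨h1, h2, by omega⟩

theorem pow_size_le (α u : ℕ) : α ^ Nat.size u ≤ (2 * u + 1) ^ α := by
  calc α ^ Nat.size u ≤ (2 ^ α) ^ Nat.size u := Nat.pow_le_pow_left Nat.lt_two_pow_self.le _
    _ = (2 ^ Nat.size u) ^ α := by rw [← pow_mul, ← pow_mul, mul_comm]
    _ ≤ _ := Nat.pow_le_pow_left (two_pow_size_le u) _

theorem hOf_eq (α u : ℕ) : hOf α u = α ^ Nat.size u :=
  powM_of_lt (Nat.lt_succ_of_le (pow_size_le α u))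

theorem good_par (S : Sys σ) {u : ℕ} (hu : 1 ≤ u) (o : ℕ) : S.Good (par S.α u o) := by
  obtain ⟨h1, h2, _⟩ := nextPrime_spec
    (n := u * Nat.size u * (2 * (u * u) * hOf S.α u) + hOf S.α u + 2) (by omega)
  have h3 : 0 < hOf S.α u := by rw [hOf_eq]; have := S.two_le; positivity
  exact
    { N_eq := rfl, g_eq := rfl, h_eq := hOf_eq _ _, PN_eq := rfl, HN_eq := rfl, ZB_eq := rfl
      u_pos := hu
      L_pos := Nat.size_pos.2 hu
      h_le := le_trans (by show hOf S.α u ≤ _; omega) h2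
      deg_lt := lt_of_lt_of_le (by
        show u * Nat.size u * (2 * (u * u) * hOf S.α u) + 1 < _; omega) h2
      Z_ge := by
        show 2 ≤ S.α * (2 * (u * u * (u * Nat.size u)) + 3)
        have := S.two_le
        nlinarith [Nat.zero_le (u * u * (u * Nat.size u))]
      prime := h1 }

namespace Sys

structure Lim (S : Sys σ) (u lam Lam Sb W : ℕ) : Prop where
  u_pos : 1 ≤ u
  hlam : 30 + u + (setup S.α u).N + (setup S.α u).Z + (setup S.α u).p + (setup S.α u).g ≤ 2 ^ lam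
  hLam : (setup S.α u).h ^ u ≤ 2 ^ Lam
  lam_le : lam ≤ Lam
  hS : Bd σ (2 ^ Sb) (par S.α u (setup S.α u).b)
  hW : (u + 1) * (2 * Lam + 2 + (2 * u + 1) * (lam + 1)) + lam + 1 ≤ W

variable {S : Sys σ} {w : List σ} {u lam Lam Sb W : ℕ}

theorem Lim.bd_par (L : S.Lim u lam Lam Sb W) {o : ℕ} (ho : o ≤ (setup S.α u).b) :
    Bd σ (2 ^ Sb) (par S.α u o) := by
  have := bd_Par.1 L.hS
  rw [bd_Par]
  obtain ⟨h1, h2, h3, h4, h5, h6, h7, h8, h9, h10, h11, h12, h13⟩ := this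
  exact ⟨h1, h2, h3, h4, h5, h6, h7, h8, h9, h10, h11, ho.trans h12, h13⟩

theorem Lim.bd_parI (L : S.Lim u lam Lam Sb W) {i : ℕ} (hi : i ≤ u * u) :
    Bd σ (2 ^ Sb) (parI S.α u i) := by
  have G := good_par S L.u_pos 0
  have := bd_Par.1 L.hS
  rw [bd_Par]
  obtain ⟨h1, h2, h3, h4, h5, h6, h7, h8, h9, h10, h11, h12, h13⟩ := this
  refine ⟨h1, h2, h3, h4, h5, h6, le_trans ?_ h7, le_trans ?_ h8, h9, le_trans ?_ h10, h11,
    Nat.zero_le _, h13⟩
  · exact Nat.pow_le_pow_right G.prime.pos hi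
  · exact Nat.pow_le_pow_right G.h_pos hi
  · exact Nat.pow_le_pow_right (lt_of_lt_of_le (by norm_num) G.Z_ge) (by omega)

theorem Lim.bdT (L : S.Lim u lam Lam Sb W) {W' pc k i : ℕ} (hW : lam ≤ W') (h1 : pc ≤ 30)
    (h2 : k ≤ u + 1) (h3 : i ≤ u * u) : Bd σ (2 ^ W') (fT pc k i) := by
  have h0 : 2 ^ lam ≤ 2 ^ W' := Nat.pow_le_pow_right (by norm_num) hW
  have := L.hlam
  have e : (setup S.α u).N = u * u := rfl
  rw [bd_Fr]
  simp only [fT]
  omega

theorem Lim.lam_le_W (L : S.Lim u lam Lam Sb W) : lam ≤ W := by have := L.hW; omega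

theorem bd_zero {κ : Par} (h : Bd σ (2 ^ Sb) κ) {P A : ℕ} (hP : P ≤ 2 ^ Sb) (hA : A ≤ 2 ^ Sb) :
    Bd σ (2 ^ Sb) (Rg.mk κ P 0 A 0) :=
  bd_Rg.2 ⟨h, hP, Nat.zero_le _, hA, Nat.zero_le _⟩

theorem Lim.grow_loop (L : S.Lim u lam Lam Sb W) (ρ2 : Rg)
    (hnext : Run σ (S.act w) Sb W (fT 22 u 0) ⟨par S.α u 0, 0, 0, 0, 0⟩ ρ2) :
    ∀ m i, i + m = u * u → Run σ (S.act w) Sb W (fT 21 u i) ⟨parI S.α u i, 0, 0, 0, 0⟩ ρ2 := by
  intro m
  induction m with
  | zero =>
    intro i hi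
    obtain rfl : i = u * u := by omega
    refine Run.goto' (g := fT 21 u (u * u)) ?_ (L.bdT L.lam_le_W (by omega) (by omega) le_rfl)
      (bd_zero (L.bd_par (Nat.zero_le _)) (Nat.zero_le _) (Nat.zero_le _)) hnext
    show a21 _ _ = _
    unfold a21
    rw [if_pos (by rfl)]
    rfl
  | succ m ih =>
    intro i hi
    refine Run.goto' (g := fT 21 u i) ?_ (L.bdT L.lam_le_W (by omega) (by omega) (by omega))
      (bd_zero (L.bd_parI (by omega)) (Nat.zero_le _) (Nat.zero_le _)) (ih (i + 1) (by omega))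
    show a21 _ _ = _
    unfold a21
    rw [if_neg (by show i ≠ u * u; omega)]
    simp only [grow, parI, fT, pow_succ]

def Pv (S : Sys σ) (w : List σ) (κ : Par) (i : ℕ) : ℕ := ofD κ.Z (i + 1) (fun v => S.loc w κ (v * κ.g))

theorem Good.Pv_lt {κ : Par} (G : S.Good κ) {i : ℕ} (hi : i ≤ κ.N) : S.Pv w κ i < κ.ZB := by
  rw [G.ZB_eq]
  exact (ofD_lt (fun v _ => G.loc_lt _)).trans_le
    (Nat.pow_le_pow_right (lt_of_lt_of_le (by norm_num) G.Z_ge) (by omega))

theorem Good.dg_Pv {κ : Par} (G : S.Good κ) {i v : ℕ} (hv : v ≤ i) :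
    dg κ.Z (S.Pv w κ i) v = S.loc w κ (v * κ.g) :=
  dg_ofD (f := fun v => S.loc w κ (v * κ.g)) (fun _ _ => G.loc_lt _) (by omega)

theorem Lim.group_loop (L : S.Lim u lam Lam Sb W) {o : ℕ} (ho : o ≤ (setup S.α u).b) (ρ2 : Rg)
    (hnext : Run σ (S.act w) Sb W (fT 23 u (u * u))
      ⟨par S.α u o, S.Pv w (par S.α u o) (u * u), 0, 0, 0⟩ ρ2) :
    ∀ m i, i + m = u * u →
      Run σ (S.act w) Sb W (fT 23 u i) ⟨par S.α u o, S.Pv w (par S.α u o) i, 0, 0, 0⟩ ρ2 := by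
  set κ := par S.α u o with hκ
  have G : S.Good κ := good_par S L.u_pos o
  have hp : Fact κ.p.Prime := ⟨G.prime⟩
  have hb := L.bd_par ho
  have hZB : κ.ZB ≤ 2 ^ Sb := (bd_Par.1 hb).2.2.2.2.2.2.2.2.2.1
  have hu : κ.u = u := rfl
  have hN : κ.N = u * u := rfl
  have hu0 := L.u_pos
  intro m
  induction m with
  | zero =>
    intro i hi
    obtain rfl : i = u * u := by omega
    exact hnext
  | succ m ih =>
    intro i hi
    have hPS : ∀ i ≤ u * u, S.Pv w κ i ≤ 2 ^ Sb := fun i hi => (G.Pv_lt hi).le.trans hZB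
    have C : S.Ctx w κ (S.Pv w κ i) i lam Lam Sb :=
      { good := G, hP := fun v hv => G.dg_Pv hv, wm_le := by omega, hlam := L.hlam, hLam := L.hLam
        lam_le := L.lam_le, hS := hb, hPS := hPS i (by omega) }
    have hk : i / u < u := Nat.div_lt_of_lt_mul (by omega)
    have hi' : i % u < u := Nat.mod_lt _ hu0
    have hiu : i / u * u + i % u = i := Nat.div_add_mod' i u
    have hH := C.specH' (k := i / u) (i := i % u) hi' hk (le_of_eq hiu) (fun _ => 0) (fun _ => 0)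
      (fun _ => 0)
    have e0 : R κ (S.Pv w κ i) (fun _ => 0) (fun _ => 0) (fun _ => 0) = ⟨κ, S.Pv w κ i, 0, 0, 0⟩ := by
      simp only [R, enc_zero]
    rw [e0] at hH
    refine Run.call' (f' := fT 24 u i) (g := fH 1 (i / u) (i % u) 1) (l := lam) ?_
      (L.bdT L.lam_le_W (by omega) (by omega) (by omega))
      (bd_zero hb (hPS i (by omega)) (Nat.zero_le _)) (L.bdT le_rfl (by omega) (by omega) (by omega))
      L.hW hH ?_
    · show S.a23 _ _ = _
      unfold a23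
      rw [if_neg (by show i ≠ u * u; omega)]
      rfl
    refine Run.goto' (g := fT 24 u i) ?_ (L.bdT L.lam_le_W (by omega) (by omega) (by omega))
      (bd_zero hb (hPS (i + 1) (by omega)) (Nat.zero_le _)) (ih (i + 1) (by omega))
    show S.a24 _ _ = _
    unfold a24
    simp only [R, fT]
    congr 4
    rw [Pv, Pv, ofD_succ (n := i + 1), powM_of_lt (by
      rw [G.ZB_eq]; exact Nat.pow_lt_pow_right G.Z_ge (by omega))]
    congr 2
    have hγ : ofD κ.h κ.u (fun e => dg κ.p (enc (fun e : Fin κ.N =>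
        if i % u * κ.u ≤ (e : ℕ) ∧ (e : ℕ) < i % u * κ.u + κ.u then
          (0 : ZMod κ.p) + S.Hv w κ (i / u) e else 0)) (i % κ.u * κ.u + e)) =
        S.gam w κ (i / u) (i % u) := by
      rw [← Nat.mod_eq_of_lt (G.gam_lt (w := w) (i / u) (i % u)), ← ofD_dg]
      refine ofD_congr (fun e he => ?_)
      have h1 : i % u * u + e < κ.N := by rw [hN]; rw [hu] at he; nlinarith
      have h2 := dg_enc (fun e : Fin κ.N =>
        if i % u * κ.u ≤ (e : ℕ) ∧ (e : ℕ) < i % u * κ.u + κ.u then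
          (0 : ZMod κ.p) + S.Hv w κ (i / u) e else 0) ⟨_, h1⟩
      rw [if_pos (by simp only [hu] at he ⊢; omega), zero_add, Hv,
        ZMod.val_cast_of_lt ((dg_lt G.h_pos _ _).trans_le G.h_le)] at h2
      rw [G.dg_h_gam he]
      exact h2
    rw [odM_eq (by
      rw [hγ, G.HN_eq]
      exact (G.gam_lt _ _).trans_le ((Nat.pow_le_pow_right G.h_pos C.u_le_N).trans (by omega))), hγ,
      show dg κ.Z (ofD κ.Z (i + 1) fun v => S.loc w κ (v * κ.g)) i = S.loc w κ (i * κ.g) from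
        G.dg_Pv le_rfl,
      S.trace_true w κ _ _ _ (fun v hv => by rw [G.dg_gam hi' hv, hu, hiu])]
    congr 1; ring

/-- The verdict of the walk for parameters `u`, `o`. -/
def verdict (S : Sys σ) (w : List σ) (u o : ℕ) : ℕ :=
  S.fin (S.loc w (par S.α u o) (u * u * (par S.α u o).g))

theorem Lim.offset_loop (L : S.Lim u lam Lam Sb W) (Ans : Prop)
    (hsound : ∀ o < (setup S.α u).b, S.verdict w u o ≠ 0 → (S.verdict w u o - 1 ≠ 0 ↔ Ans))
    (hnext : (∀ o < (setup S.α u).b, S.verdict w u o = 0) → ∀ ρ : Rg,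
      ∃ ρ', Run σ (S.act w) Sb W (fT 20 (u + 1) 0) ρ ρ' ∧ (ρ'.A ≠ 0 ↔ Ans)) :
    ∀ m o, o + m = (setup S.α u).b → (∀ o' < o, S.verdict w u o' = 0) →
      ∃ ρ', Run σ (S.act w) Sb W (fT 22 u 0) ⟨par S.α u o, 0, 0, 0, 0⟩ ρ' ∧ (ρ'.A ≠ 0 ↔ Ans) := by
  intro m
  induction m with
  | zero =>
    intro o ho hz
    obtain ⟨ρ', h1, h2⟩ := hnext (fun o' ho' => hz o' (by omega)) ⟨par S.α u o, 0, 0, 0, 0⟩
    refine ⟨ρ', Run.goto' (g := fT 22 u 0) ?_ (L.bdT L.lam_le_W (by omega) (by omega) (by omega))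
      (bd_zero (L.bd_par (by omega)) (Nat.zero_le _) (Nat.zero_le _)) h1, h2⟩
    show S.a22 _ _ = _
    unfold a22
    rw [if_pos (by show o = (setup S.α u).b; omega)]
    rfl
  | succ m ih =>
    intro o ho hz
    have G : S.Good (par S.α u o) := good_par S L.u_pos o
    have hb := L.bd_par (o := o) (by omega)
    have hZB : (par S.α u o).ZB ≤ 2 ^ Sb := (bd_Par.1 hb).2.2.2.2.2.2.2.2.2.1
    have hv : S.fin (dg (par S.α u o).Z (S.Pv w (par S.α u o) (u * u)) (par S.α u o).N) =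
        S.verdict w u o := by
      rw [G.dg_Pv (show (par S.α u o).N ≤ u * u from le_rfl)]; rfl
    have fin : ∃ ρ', Run σ (S.act w) Sb W (fT 23 u (u * u))
        ⟨par S.α u o, S.Pv w (par S.α u o) (u * u), 0, 0, 0⟩ ρ' ∧ (ρ'.A ≠ 0 ↔ Ans) := by
      by_cases h0 : S.verdict w u o = 0
      · obtain ⟨ρ', h1, h2⟩ := ih (o + 1) (by omega) (fun o' ho' => by
          rcases Nat.lt_or_ge o' o with h | h
          · exact hz o' h
          · rwa [show o' = o by omega])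
        refine ⟨ρ', Run.goto' (g := fT 23 u (u * u)) ?_ (L.bdT L.lam_le_W (by omega) (by omega) le_rfl)
          (bd_zero (L.bd_par (by omega)) (Nat.zero_le _) (Nat.zero_le _)) h1, h2⟩
        show S.a23 _ _ = _
        unfold a23
        rw [if_pos (by rfl), if_pos (by rw [← h0]; exact hv)]
        rfl
      · refine ⟨⟨par S.α u o, 0, 0, S.verdict w u o - 1, 0⟩,
          Run.ret' (f' := fT 23 u (u * u)) (g := fT 23 u (u * u)) ?_
          (L.bdT L.lam_le_W (by omega) (by omega) le_rfl)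
          (bd_zero hb (Nat.zero_le _) ?_), hsound o (by omega) h0⟩
        · show S.a23 _ _ = _
          unfold a23
          rw [if_pos (by rfl), if_neg (by intro h; exact h0 (hv ▸ h))]
          rw [← hv]
        · have h1 : S.verdict w u o ≤ 2 := S.fin_le _
          have h2 : 0 < 2 ^ Sb := by positivity
          omega
    obtain ⟨ρ', h1, h2⟩ := fin
    refine ⟨ρ', Run.goto' (g := fT 22 u 0) ?_ (L.bdT L.lam_le_W (by omega) (by omega) (by omega))
      (bd_zero hb ((G.Pv_lt (Nat.zero_le _)).le.trans hZB) (Nat.zero_le _))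
      (L.group_loop (by omega) ρ' h1 _ 0 (zero_add _)), h2⟩
    show S.a22 _ _ = _
    unfold a22
    rw [if_neg (by show o ≠ (setup S.α u).b; omega)]
    simp [Pv, ofD, loc, proc, fT]

theorem top_run (S : Sys σ) (w : List σ) (Ans : Prop) (u0 lam Lam Sb W : ℕ)
    (hL : ∀ u, 1 ≤ u → u ≤ u0 → S.Lim u lam Lam Sb W)
    (hsound : ∀ u, 1 ≤ u → ∀ o < (setup S.α u).b, S.verdict w u o ≠ 0 → (S.verdict w u o - 1 ≠ 0 ↔ Ans))
    (hcomp : ∃ o < (setup S.α u0).b, S.verdict w u0 o ≠ 0) :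
    ∀ m u, u + m = u0 → 1 ≤ u → ∀ ρ : Rg,
      ∃ ρ', Run σ (S.act w) Sb W (fT 20 u 0) ρ ρ' ∧ (ρ'.A ≠ 0 ↔ Ans) := by
  have step : ∀ u, 1 ≤ u → u ≤ u0 → ((∀ o < (setup S.α u).b, S.verdict w u o = 0) → ∀ ρ : Rg,
      ∃ ρ', Run σ (S.act w) Sb W (fT 20 (u + 1) 0) ρ ρ' ∧ (ρ'.A ≠ 0 ↔ Ans)) → ∀ ρ : Rg,
      ∃ ρ', Run σ (S.act w) Sb W (fT 20 u 0) ρ ρ' ∧ (ρ'.A ≠ 0 ↔ Ans) := by
    intro u h1 h2 hn ρ
    have L := hL u h1 h2
    obtain ⟨ρ', h3, h4⟩ := L.offset_loop Ans (hsound u h1) hn _ 0 (zero_add _)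
      (fun o' ho' => absurd ho' (by omega))
    refine ⟨ρ', Run.goto' (g := fT 20 u 0) ?_ (L.bdT L.lam_le_W (by omega) (by omega) (by omega))
      (bd_zero (L.bd_parI (Nat.zero_le _)) (Nat.zero_le _) (Nat.zero_le _))
      (L.grow_loop ρ' h3 _ 0 (zero_add _)), h4⟩
    show S.a20 (fT 20 u 0) ρ = _
    unfold a20
    simp [parI, setup, fT]
  intro m
  induction m with
  | zero =>
    intro u hu h1
    obtain rfl : u = u0 := by omega
    refine step u h1 le_rfl (fun hz => ?_)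
    obtain ⟨o, ho, hne⟩ := hcomp
    exact absurd (hz o ho) hne
  | succ m ih =>
    intro u hu h1
    exact step u h1 (by omega) (fun _ => ih (u + 1) (by omega) (by omega))

end Sys

end Vale.Agent.P312
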